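import Crest.Agent.X261.Ans.Man2
import Crest.Agent.X261.Top.Defs

/-!
# X261/Ans/Man3 (helper72): dictionary between the `HA` language and the language of `Top/Defs`

`SThM` = `Cov n`, `HolAt`/`HolV`/`HolMap` = `Hol`, `Crit` = not `Subm`, `LBih` gives `Subm`,
`AnM` versus `An univ`; the cover `D.cov G` (projection, deck transformations); tubes.
-/

set_option autoImplicit false
set_option linter.unusedSectionVars false

open Set Filter Topology Module
open scoped Pointwise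

namespace Crest.Agent.X261.Ans

open Crest.Agent.R275.Geo Crest.Agent.R275.Core144
open Crest.Agent.R273.UCov_914 Crest.Agent.R273.PB_835 Crest.Agent.R273.Map_835
open Crest.Agent.R281.ThnM_280 (SThM Crit)
open Crest.Agent.X261.Top (AnM HolV Tube)

namespace Brg

variable {n m : ℕ} {M N : Type} [TopologicalSpace M] [TopologicalSpace N]
  {A : Atl n M} {B : Atl m N}

theorem finrank_Cn (n : ℕ) : finrank ℂ (Cn n) = n := finrank_euclideanSpace_fin

@[simp] theorem of_e (A : Atl n M) (i : A.ι) : (HA.of A).e i = A.e i := rfl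

instance [h : Countable A.ι] : Countable (HA.of A).ι := h

instance [h : Finite A.ι] : Finite (HA.of A).ι := h

/-! ### thin sets -/

theorem cov_iff_sthM {S : Set M} : (HA.of A).Cov n S ↔ SThM A S := by
  have h : ∀ T : Set (Cn n), Cov n T ↔ R281.Thn_280.STh T := fun T => by
    rw [← cov_iff_sth, finrank_Cn]
  exact forall_congr' fun i => h _

theorem cov_iff_sthM' {S : Set M} : (HA.of A).Cov (finrank ℂ (Cn n)) S ↔ SThM A S := by
  rw [finrank_Cn, cov_iff_sthM]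

theorem sthM_of_an [PreconnectedSpace M] {Z : Set M} (hZ : (HA.of A).An univ Z) (hne : Z ≠ univ) :
    SThM A Z := cov_iff_sthM'.1 (hZ.cov_of_ne hne)

theorem sthM_of_mg [PreconnectedSpace M] {S : Set M} (h : (HA.of A).Mg S) : SThM A S :=
  cov_iff_sthM'.1 h.cov

/-! ### holomorphic functions and maps -/

section Vec

variable {F : Type} [NormedAddCommGroup F] [NormedSpace ℂ F] [FiniteDimensional ℂ F]

/-- differentiable in one chart implies holomorphic -/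
theorem hol_of_diffOn {U : Set M} (hU : IsOpen U) {f : M → F} {i : A.ι}
    (h : DifferentiableOn ℂ (fun z => f ((A.e i).symm z)) ((A.e i).target ∩ (A.e i).symm ⁻¹' U))
    {x : M} (hx : x ∈ U) (hi : x ∈ (A.e i).source) : (HA.of A).Hol (HA.self F) f x := by
  have := FiniteDimensional.complete ℂ F
  rw [HA.hol_self_iff (A := HA.of A) (i := i) hi]
  refine R266.SCV.analyticOnNhd_of_differentiableOn ((A.e i).isOpen_inter_preimage_symm hU) h _
    ⟨(A.e i).map_source hi, ?_⟩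
  rw [mem_preimage, of_e, (A.e i).left_inv hi]
  exact hx

theorem an_of_hol {U : Set M} {f : M → F} {i : A.ι}
    (h : ∀ x ∈ U, x ∈ (A.e i).source → (HA.of A).Hol (HA.self F) f x) :
    AnalyticOnNhd ℂ (fun z => f ((A.e i).symm z)) ((A.e i).target ∩ (A.e i).symm ⁻¹' U) :=
  fun _ hz => HA.Hol.an (A := HA.of A) (i := i) (j := ()) hz.1
    (h _ hz.2 ((A.e i).map_target hz.1)) (mem_univ _)

theorem diffOn_of_hol {U : Set M} {f : M → F} {i : A.ι}
    (h : ∀ x ∈ U, x ∈ (A.e i).source → (HA.of A).Hol (HA.self F) f x) :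
    DifferentiableOn ℂ (fun z => f ((A.e i).symm z)) ((A.e i).target ∩ (A.e i).symm ⁻¹' U) :=
  (an_of_hol h).differentiableOn

theorem diffOn_iff {U : Set M} (hU : IsOpen U) {f : M → F} :
    (∀ i, DifferentiableOn ℂ (fun z => f ((A.e i).symm z))
      ((A.e i).target ∩ (A.e i).symm ⁻¹' U)) ↔ ∀ x ∈ U, (HA.of A).Hol (HA.self F) f x := by
  refine ⟨fun h x hx => ?_, fun h i => diffOn_of_hol fun x hx _ => h x hx⟩
  obtain ⟨i, hi⟩ := A.cover x
  exact hol_of_diffOn hU (h i) hx hi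

end Vec

theorem holAt_iff {U : Set M} (hU : IsOpen U) {f : M → ℂ} {i : A.ι} :
    HolAt A i U f ↔ ∀ x ∈ U, x ∈ (A.e i).source → (HA.of A).Hol (HA.self ℂ) f x :=
  ⟨fun h _ hx hi => hol_of_diffOn hU h hx hi, diffOn_of_hol⟩

theorem holAt_all_iff {U : Set M} (hU : IsOpen U) {f : M → ℂ} :
    (∀ i, HolAt A i U f) ↔ ∀ x ∈ U, (HA.of A).Hol (HA.self ℂ) f x := diffOn_iff hU

theorem holV_iff {U : Set M} (hU : IsOpen U) {p : ℕ} {f : M → Cn p} :
    HolV A U f ↔ ∀ x ∈ U, (HA.of A).Hol (HA.self (Cn p)) f x := diffOn_iff hU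

theorem holV_of {U : Set M} {p : ℕ} {f : M → Cn p}
    (h : ∀ x ∈ U, (HA.of A).Hol (HA.self (Cn p)) f x) : HolV A U f :=
  fun _ => diffOn_of_hol fun x hx _ => h x hx

theorem holMap_iff {p : M → N} : HolMap A B p ↔ ∀ x, (HA.of A).Hol (HA.of B) p x := by
  constructor
  · refine fun h x => ⟨h.cont.continuousAt, fun i j hi hj => ?_⟩
    refine R266.SCV.analyticOnNhd_of_differentiableOn (h.isOpen_dm i j) (h.hol i j) _
      ⟨(A.e i).map_source hi, ?_⟩
    rw [mem_preimage, of_e, (A.e i).left_inv hi]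
    exact hj
  · refine fun h => ⟨continuous_iff_continuousAt.2 fun x => (h x).1, fun i j z hz => ?_⟩
    exact (HA.Hol.an (A := HA.of A) (B := HA.of B) (i := i) (j := j) hz.1 (h _)
      hz.2).differentiableAt.differentiableWithinAt

/-! ### critical points -/

theorem mem_crit {U : Set M} {p : ℕ} {f : M → Cn p} {x : M}
    (hf : (HA.of A).Hol (HA.self (Cn p)) f x) :
    x ∈ Crit A U f ↔ x ∈ U ∧ ¬ (HA.of A).Subm (HA.self (Cn p)) f x := by
  refine and_congr_right fun _ => ⟨?_, fun h => ?_⟩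
  · rintro ⟨i, hi, h⟩ hs
    exact h ((HA.subm_self_iff hf (i := i) hi).1 hs)
  · obtain ⟨i, hi⟩ := A.cover x
    exact ⟨i, hi, fun hs => h ((HA.subm_self_iff hf (i := i) hi).2 hs)⟩

theorem crit_eq {U : Set M} {p : ℕ} {f : M → Cn p}
    (hf : ∀ x ∈ U, (HA.of A).Hol (HA.self (Cn p)) f x) :
    Crit A U f = {x | x ∈ U ∧ ¬ (HA.of A).Subm (HA.self (Cn p)) f x} := by
  ext x
  by_cases hx : x ∈ U
  · exact mem_crit (hf x hx)
  · exact ⟨fun h => (hx h.1).elim, fun h => (hx h.1).elim⟩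

theorem crit_eq_empty {U : Set M} {p : ℕ} {f : M → Cn p}
    (h : ∀ x ∈ U, (HA.of A).Subm (HA.self (Cn p)) f x) : Crit A U f = ∅ := by
  rw [crit_eq fun x hx => (h x hx).hol, eq_empty_iff_forall_notMem]
  exact fun x hx => hx.2 (h x hx.1)

theorem subm_of_crit {U : Set M} (hU : IsOpen U) {p : ℕ} {f : M → Cn p} (hf : HolV A U f)
    (h : Crit A U f = ∅) {x : M} (hx : x ∈ U) : (HA.of A).Subm (HA.self (Cn p)) f x := by
  by_contra hs
  have h1 : x ∈ Crit A U f := (mem_crit ((holV_iff hU).1 hf x hx)).2 ⟨hx, hs⟩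
  rw [h] at h1
  exact h1

theorem subm_of_lBih {B : Atl n N} {p : M → N} (h : LBih A B p) (x : M) :
    (HA.of A).Subm (HA.of B) p x := by
  refine ⟨holMap_iff.1 h.toHolMap x, fun i j hi hj => ?_⟩
  have hz : A.e i x ∈ dm A B p i j :=
    ⟨(A.e i).map_source hi, by rw [mem_preimage, (A.e i).left_inv hi]; exact hj⟩
  exact LinearMap.injective_iff_surjective.1 (h.inj hz)

/-! ### analytic sets -/

theorem anAt_zeros {U : Set M} (hU : IsOpen U) {k : ℕ} {f : Fin k → M → ℂ}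
    (hf : ∀ j i, HolAt A i U (f j)) {Z : Set M} (h : ∀ y ∈ U, (y ∈ Z ↔ ∀ j, f j y = 0)) {x : M}
    (hx : x ∈ U) : (HA.of A).AnAt Z x := by
  have h1 : (HA.of A).AnAt (⋂ j ∈ (univ : Set (Fin k)), {y | f j y = 0}) x :=
    HA.anAt_biInter finite_univ fun j _ => HA.anAt_zero ((holAt_all_iff hU).1 (hf j) x hx)
  refine h1.congr ?_
  filter_upwards [hU.mem_nhds hx] with y hy
  simp [h y hy]

theorem an_of_anM {Z : Set M} (h : AnM A Z) : (HA.of A).An univ Z := fun x _ => by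
  obtain ⟨U, hU, hx, k, f, hf, h⟩ := h x
  exact anAt_zeros hU hf h hx

/-- "finitely many equations suffice" in `E` -/
def FinEq (E : Type) [NormedAddCommGroup E] [NormedSpace ℂ E] : Prop :=
  ∀ (Z : Set E) (x : E), AnAt Z x → ∃ (k : ℕ) (f : Fin k → E → ℂ),
    (∀ j, AnalyticAt ℂ (f j) x) ∧ ∀ᶠ y in 𝓝 x, (y ∈ Z ↔ ∀ j, f j y = 0)

theorem fin_of_anAt {E : Type} [NormedAddCommGroup E] [NormedSpace ℂ E] [FiniteDimensional ℂ E]
    (hE : FinEq E) {C : HA E M} {Z : Set M} {x : M} (h : C.AnAt Z x) :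
    ∃ U : Set M, IsOpen U ∧ x ∈ U ∧ ∃ (k : ℕ) (f : Fin k → M → ℂ),
      (∀ j, ∀ y ∈ U, C.Hol (HA.self ℂ) (f j) y) ∧ ∀ y ∈ U, (y ∈ Z ↔ ∀ j, f j y = 0) := by
  obtain ⟨i, hi, h⟩ := h
  obtain ⟨k, f, hf, h⟩ := hE _ _ h
  have h1 : ∀ᶠ y in 𝓝 x, ∀ j, C.Hol (HA.self ℂ) (fun y => f j (C.e i y)) y :=
    eventually_all.2 fun j => ((HA.hol_chart hi).an_comp (hf j)).eventually
  have h2 : ∀ᶠ y in 𝓝 x, (y ∈ Z ↔ ∀ j, f j (C.e i y) = 0) := by
    filter_upwards [(HA.ev_chart' hi).1 h, HA.ev_source hi] with y h3 h4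
    rwa [mem_preimage, (C.e i).left_inv h4] at h3
  obtain ⟨U, hU, hUo, hxU⟩ := eventually_nhds_iff.1 (h1.and h2)
  exact ⟨U, hUo, hxU, k, fun j y => f j (C.e i y), fun j y hy => (hU y hy).1 j,
    fun y hy => (hU y hy).2⟩

theorem anM_of_an (hE : FinEq (Cn n)) {Z : Set M} (h : (HA.of A).An univ Z) : AnM A Z := fun x => by
  obtain ⟨U, hU, hx, k, f, hf, h⟩ := fin_of_anAt hE (h x (mem_univ x))
  exact ⟨U, hU, hx, k, f, fun j => (holAt_all_iff hU).2 (hf j), h⟩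

/-! ### the cover -/

section Cover

variable {G : Type} [Group G] (D : MonD A G) {F : Type} [MulAction G F]

theorem subm_pr (e : D.cov F) : (HA.of (D.atl F)).Subm (HA.of A) D.pr e := by
  obtain ⟨q, hq⟩ := (D.atl F).cover e
  have h1 : ∀ᶠ z in 𝓝 ((D.atl F).e q e), A.e q.1 (D.pr (((D.atl F).e q).symm z)) = z := by
    filter_upwards [HA.ev_target (A := HA.of (D.atl F)) (i := q) hq] with z hz
    exact (A.e q.1).right_inv hz
  have h2 : (HA.of (D.atl F)).Hol (HA.of A) D.pr e :=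
    HA.hol_of (i := q) (j := q.1) D.continuous_pr.continuousAt hq hq.1
      ((analyticAt_id (𝕜 := ℂ)).congr (EventuallyEq.symm h1))
  refine HA.subm_of h2 (i := q) (j := q.1) hq hq.1 ?_
  have h3 : fderiv ℂ (fun z => A.e q.1 (D.pr (((D.atl F).e q).symm z))) ((D.atl F).e q e) =
      ContinuousLinearMap.id ℂ (Cn n) := by
    rw [EventuallyEq.fderiv_eq h1]
    exact fderiv_fun_id
  intro w
  exact ⟨w, by erw [h3]; rfl⟩

theorem hol_pr (e : D.cov F) : (HA.of (D.atl F)).Hol (HA.of A) D.pr e := (subm_pr D e).hol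

/-- a continuous map into the cover is holomorphic as soon as its projection is -/
theorem hol_lift {E P : Type} [NormedAddCommGroup E] [NormedSpace ℂ E] [FiniteDimensional ℂ E]
    [TopologicalSpace P] {C : HA E P} {f : P → D.cov F} {x : P} (hc : ContinuousAt f x)
    (h : C.Hol (HA.of A) (fun y => D.pr (f y)) x) : C.Hol (HA.of (D.atl F)) f x :=
  ⟨hc, fun i q hi hq => h.2 i q.1 hi hq.1⟩

theorem hol_pt {i : A.ι} (v : F) {x : M} (hx : x ∈ (A.e i).source) :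
    (HA.of A).Hol (HA.of (D.atl F)) (D.pt i v) x :=
  hol_lift D ((D.continuousOn_pt i v).continuousAt ((A.e i).open_source.mem_nhds hx))
    (HA.hol_id _ x)

theorem hol_deck (g : G) (e : D.cov G) :
    (HA.of (D.atl G)).Hol (HA.of (D.atl G)) (fun y => g • y) e :=
  hol_lift D (continuous_const_smul g).continuousAt (hol_pr D e)

theorem bih_deck (g : G) : HA.Bih (HA.of (D.atl G)) (HA.of (D.atl G)) univ univ (fun y => g • y)
    (fun y => g⁻¹ • y) :=
  HA.bih_univ (hol_deck D g) (hol_deck D g⁻¹) (fun x => inv_smul_smul g x)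
    (fun x => smul_inv_smul g x)

theorem smul_eq_preimage (g : G) (Z : Set (D.cov G)) : g • Z = (fun y => g⁻¹ • y) ⁻¹' Z := by
  ext y
  exact mem_smul_set_iff_inv_smul_mem

theorem an_smul (g : G) {Z : Set (D.cov G)} (h : (HA.of (D.atl G)).An univ Z) :
    (HA.of (D.atl G)).An univ (g • Z) := by
  rw [smul_eq_preimage]
  exact (bih_deck D g).an h

theorem irr_smul (g : G) {Z : Set (D.cov G)} {d : ℕ} (h : (HA.of (D.atl G)).Irr univ Z d) :
    (HA.of (D.atl G)).Irr univ (g • Z) d := by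
  rw [smul_eq_preimage]
  exact (bih_deck D g).irr h

theorem cov_smul (g : G) {Z : Set (D.cov G)} {k : ℕ} (h : (HA.of (D.atl G)).Cov k Z) :
    (HA.of (D.atl G)).Cov k (g • Z) := by
  rw [smul_eq_preimage]
  simpa using (bih_deck D g).cov h

theorem reg_smul (g : G) {Z : Set (D.cov G)} {d : ℕ} {x : D.cov G}
    (h : (HA.of (D.atl G)).Reg Z d x) : (HA.of (D.atl G)).Reg (g • Z) d (g • x) := by
  rw [smul_eq_preimage]
  exact (bih_deck D g).reg (mem_univ x) h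

theorem mg_smul (g : G) {Z : Set (D.cov G)} (h : (HA.of (D.atl G)).Mg Z) :
    (HA.of (D.atl G)).Mg (g • Z) := by
  rw [smul_eq_preimage]
  exact h.preimage (hol_deck D g⁻¹) fun y => ⟨g • y, inv_smul_smul g y⟩

theorem an_pull {Z : Set M} (h : (HA.of A).An univ Z) :
    (HA.of (D.atl F)).An univ (D.pr ⁻¹' Z) :=
  fun e _ => HA.AnAt.preimage (hol_pr D e) (h _ (mem_univ _))

/-- an invariant analytic set descends -/
theorem an_push {Z : Set (D.cov G)} (h : (HA.of (D.atl G)).An univ Z)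
    (hG : ∀ g : G, ∀ y ∈ Z, g • y ∈ Z) : (HA.of A).An univ (D.pr '' Z) := by
  intro x _
  obtain ⟨i, hi⟩ := A.cover x
  refine (HA.AnAt.preimage (hol_pt D (1 : G) hi) (h _ (mem_univ _))).congr ?_
  refine Eventually.of_forall fun y => ⟨fun hy => ⟨_, hy, rfl⟩, ?_⟩
  rintro ⟨e, he, hy⟩
  obtain ⟨g, hg⟩ := D.exists_deck (e := e) (e' := D.pt i 1 y) hy
  rw [mem_preimage, ← hg]
  exact hG g e he

end Cover

/-! ### tubes -/

section Tubes

variable {G : Type} [Group G] [MulAction G M] {p : ℕ} (𝒯 : Tube A G p)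

theorem tube_subm {x y : M} (hx : x ∈ 𝒯.M0) (hy : y ∈ 𝒯.T x) :
    (HA.of A).Subm (HA.self (Cn p)) (𝒯.π x) y :=
  subm_of_crit (𝒯.T_opn x hx) (𝒯.π_hol x hx) (𝒯.π_subm x hx) hy

theorem tube_W_eq {x : M} (hx : x ∈ 𝒯.M0) : 𝒯.W x = {z | z ∈ 𝒯.T x ∧ 𝒯.π x z = 0} := by
  rw [𝒯.π_fib x hx x (𝒯.T_mem x hx), 𝒯.π_self x hx]

theorem tube_W_sub {x : M} (hx : x ∈ 𝒯.M0) : 𝒯.W x ⊆ 𝒯.T x := by
  rw [tube_W_eq 𝒯 hx]
  exact fun _ h => h.1

theorem tube_W_compact {x : M} (hx : x ∈ 𝒯.M0) : IsCompact (𝒯.W x) := by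
  rw [tube_W_eq 𝒯 hx]
  simpa using 𝒯.π_prop x hx 0 one_pos

theorem tube_le {x : M} (hx : x ∈ 𝒯.M0) : p ≤ n := by
  simpa [finrank_Cn] using (tube_subm 𝒯 hx (𝒯.T_mem x hx)).finrank_le

/-- the fibres of a tube are submanifolds of dimension `n - p` -/
theorem tube_reg {x y : M} (hx : x ∈ 𝒯.M0) (hy : y ∈ 𝒯.W x) :
    (HA.of A).Reg (𝒯.W x) (n - p) y := by
  have hyT := tube_W_sub 𝒯 hx hy
  have h := (tube_subm 𝒯 hx hyT).reg_fibre
  rw [finrank_Cn, finrank_Cn] at h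
  refine h.congr ?_
  rw [← 𝒯.W_eq x hx y hy, 𝒯.π_fib x hx y hyT]
  filter_upwards [(𝒯.T_opn x hx).mem_nhds hyT] with z hz
  simp [hz]

theorem tube_an [T2Space M] {x : M} (hx : x ∈ 𝒯.M0) : (HA.of A).An univ (𝒯.W x) :=
  HA.an_of_closed (fun _ _ h => (tube_W_compact 𝒯 hx).isClosed.closure_subset h)
    fun _ _ hy => (tube_reg 𝒯 hx hy).anAt

theorem tube_irr [T2Space M] {x : M} (hx : x ∈ 𝒯.M0) : (HA.of A).Irr univ (𝒯.W x) (n - p) :=
  HA.irr_of_reg (tube_an 𝒯 hx) ⟨x, mem_univ x, 𝒯.W_mem x hx⟩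
    (by rw [univ_inter]; exact 𝒯.W_conn x hx) fun _ _ hy => tube_reg 𝒯 hx hy

theorem tube_anM [T2Space M] {x : M} (hx : x ∈ 𝒯.M0) : AnM A (𝒯.W x) := by
  intro y
  by_cases hy : y ∈ 𝒯.T x
  · refine ⟨𝒯.T x, 𝒯.T_opn x hx, hy, p, fun j z => 𝒯.π x z j, fun j i => ?_, fun z hz => ?_⟩
    · exact (EuclideanSpace.proj (𝕜 := ℂ) j).differentiable.comp_differentiableOn
        (𝒯.π_hol x hx i)
    · rw [tube_W_eq 𝒯 hx]
      simp [hz, PiLp.ext_iff]
  · refine ⟨(𝒯.W x)ᶜ, (tube_W_compact 𝒯 hx).isClosed.isOpen_compl,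
      fun h => hy (tube_W_sub 𝒯 hx h), 1, fun _ _ => 1, fun _ _ => differentiableOn_const _,
      fun z hz => ⟨fun h => (hz h).elim, fun h => (one_ne_zero (h 0)).elim⟩⟩

theorem tube_dense : Dense 𝒯.M0 := by
  simpa using (cov_iff_sthM'.2 𝒯.thin).dense_compl

theorem tube_dense_good : Dense (𝒯.M0 \ 𝒯.Bad) := by
  have h := ((cov_iff_sthM'.2 𝒯.thin).union (cov_iff_sthM'.2 𝒯.bad_thin)).dense_compl
  rwa [compl_union, compl_compl] at h

end Tubes

end Brg

end Crest.Agent.X261.Ans
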