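import Crest.Agent.X261.Ans.HkA

/-!
# Row 261, package ANS (helper14), file `HkB`

* `Prp` : propagation of smallness for a family of functions; connectedness and compactness lemmas;
* `ball_prp` : propagation for psh functions in a ball;
* `BC.prp` : propagation in a branched cover; `BC.harnack` : the local Harnack inequality.
-/

set_option autoImplicit false
set_option linter.dupNamespace false
set_option linter.unusedSectionVars false

open Set Filter Topology Metric MeasureTheory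
open scoped ENNReal

noncomputable section

namespace Crest.Agent.X261.Ans.Hk

open Crest.Agent.X261.Psh

/-! ### propagation of smallness -/

section Prp

variable {X ι : Type*}

/-- smallness of the functions `ψ i` on `O` propagates to `O'`, with errors `A i` -/
def Prp (Z : Set X) (ψ : ι → X → EReal) (A : ι → ℝ) (O O' : Set X) : Prop :=
  ∃ θ C : ℝ, 0 < θ ∧ θ ≤ 1 ∧ 0 ≤ C ∧ ∀ (i : ι) (a b : ℝ), a ≤ b → (∀ y ∈ Z, ψ i y ≤ b) →
    (∀ y ∈ Z, y ∈ O → ψ i y ≤ a) →
    ∀ y ∈ Z, y ∈ O' → ψ i y ≤ ((b - θ * (b - a) + C * A i : ℝ) : EReal)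

variable {Z : Set X} {ψ : ι → X → EReal} {A : ι → ℝ} {O O' O'' : Set X}

theorem Prp.of_subset (h : ∀ y ∈ Z, y ∈ O' → y ∈ O) : Prp Z ψ A O O' :=
  ⟨1, 0, one_pos, le_rfl, le_rfl, fun i a b _ _ h2 y hy hy' => by
    simpa using h2 y hy (h y hy hy')⟩

theorem Prp.trans (h : Prp Z ψ A O O') (h' : Prp Z ψ A O' O'') :
    Prp Z ψ A O O'' := by
  obtain ⟨θ, C, h1, h2, h3, h4⟩ := h
  obtain ⟨θ', C', h1', h2', h3', h4'⟩ := h'
  refine ⟨θ' * θ, θ' * C + C', by positivity, by nlinarith, by positivity,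
    fun i a b hab hb ha y hy hy' => ?_⟩
  have h5 := h4' i (min b (b - θ * (b - a) + C * A i)) b (min_le_left _ _) hb (fun y hy hy' => by
    rw [EReal.coe_strictMono.monotone.map_min]
    exact le_min (hb y hy) (h4 i a b hab hb ha y hy hy')) y hy hy'
  refine h5.trans (EReal.coe_le_coe_iff.2 ?_)
  have h6 := mul_le_mul_of_nonneg_left (min_le_right b (b - θ * (b - a) + C * A i)) h1'.le
  linarith

theorem Prp.mono (h : Prp Z ψ A O O') {P P' : Set X}
    (h1 : ∀ y ∈ Z, y ∈ O → y ∈ P) (h2 : ∀ y ∈ Z, y ∈ P' → y ∈ O') : Prp Z ψ A P P' :=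
  ((Prp.of_subset h1).trans h).trans (Prp.of_subset h2)

theorem Prp.union (hA : ∀ i, 0 ≤ A i) (h : Prp Z ψ A O O') (h' : Prp Z ψ A O O'') :
    Prp Z ψ A O (O' ∪ O'') := by
  obtain ⟨θ, C, h1, h2, h3, h4⟩ := h
  obtain ⟨θ', C', h1', h2', h3', h4'⟩ := h'
  refine ⟨min θ θ', max C C', lt_min h1 h1', (min_le_left _ _).trans h2,
    h3.trans (le_max_left _ _), fun i a b hab hb ha y hy hy' => ?_⟩
  have hba : 0 ≤ b - a := by linarith
  rcases hy' with hy' | hy'
  · refine (h4 i a b hab hb ha y hy hy').trans (EReal.coe_le_coe_iff.2 ?_)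
    linarith [mul_le_mul_of_nonneg_right (min_le_left θ θ') hba,
      mul_le_mul_of_nonneg_right (le_max_left C C') (hA i)]
  · refine (h4' i a b hab hb ha y hy hy').trans (EReal.coe_le_coe_iff.2 ?_)
    linarith [mul_le_mul_of_nonneg_right (min_le_right θ θ') hba,
      mul_le_mul_of_nonneg_right (le_max_right C C') (hA i)]

theorem Prp.iUnion (hA : ∀ i, 0 ≤ A i) {κ : Type*} [Finite κ] {P : κ → Set X}
    (h : ∀ j, Prp Z ψ A O (P j)) : Prp Z ψ A O (⋃ j, P j) := by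
  revert P
  refine Finite.induction_empty_option (P := fun κ => ∀ {P : κ → Set X},
    (∀ j, Prp Z ψ A O (P j)) → Prp Z ψ A O (⋃ j, P j)) (fun e ih P h => ?_) (fun _ => ?_)
    (fun ih P h => ?_) κ
  · rw [← e.surjective.iUnion_comp P]
    exact ih fun j => h (e j)
  · exact Prp.of_subset (by simp)
  · rw [iUnion_option]
    exact (h none).union hA (ih fun j => h (some j))

variable [TopologicalSpace X]

theorem Prp.of_compact (hA : ∀ i, 0 ≤ A i) {K : Set X} (hK : IsCompact K)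
    (h : ∀ z ∈ K, ∃ N ∈ 𝓝 z, Prp Z ψ A O N) : Prp Z ψ A O K :=
  hK.induction_on (p := fun S => Prp Z ψ A O S) (Prp.of_subset (by simp))
    (fun _ _ hst ht => ht.trans (Prp.of_subset fun _ _ hy => hst hy))
    (fun _ _ hs ht => hs.union hA ht) fun z hz => by
      obtain ⟨N, hN, h1⟩ := h z hz
      exact ⟨N, mem_nhdsWithin_of_mem_nhds hN, h1⟩

theorem prp_conn {Z₀ : Set X} (hc : IsPreconnected Z₀)
    (hM : ∀ z ∈ Z₀, ∃ V ∈ 𝓝 z, ∀ O', IsOpen O' → (O' ∩ V ∩ Z₀).Nonempty → Prp Z ψ A O' V)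
    (hO : IsOpen O) (hne : (O ∩ Z₀).Nonempty) : ∀ z ∈ Z₀, ∃ N ∈ 𝓝 z, Prp Z ψ A O N := by
  intro z hz
  by_contra hcon
  obtain ⟨x, hx, ⟨N, hN, h1⟩, V, hV, h2, h3⟩ := hc {z | ∃ N ∈ 𝓝 z, Prp Z ψ A O N}
    {z | ∃ V ∈ 𝓝 z, (∀ O', IsOpen O' → (O' ∩ V ∩ Z₀).Nonempty → Prp Z ψ A O' V) ∧
      ¬ Prp Z ψ A O V}
    (isOpen_iff_mem_nhds.2 fun x ⟨N, hN, h⟩ =>
      mem_of_superset (eventually_mem_nhds_iff.2 hN) fun y hy => ⟨N, hy, h⟩)
    (isOpen_iff_mem_nhds.2 fun x ⟨N, hN, h⟩ =>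
      mem_of_superset (eventually_mem_nhds_iff.2 hN) fun y hy => ⟨N, hy, h⟩)
    (fun x hx => by
      obtain ⟨V, hV, h⟩ := hM x hx
      by_cases h' : Prp Z ψ A O V
      · exact Or.inl ⟨V, hV, h'⟩
      · exact Or.inr ⟨V, hV, h, h'⟩)
    (by
      obtain ⟨x, hx⟩ := hne
      exact ⟨x, hx.2, O, hO.mem_nhds hx.1, Prp.of_subset fun _ _ h => h⟩)
    (by
      obtain ⟨V, hV, h⟩ := hM z hz
      exact ⟨z, hz, V, hV, h, fun h' => hcon ⟨V, hV, h'⟩⟩)
  exact h3 ((h1.trans (Prp.of_subset fun _ _ hy => interior_subset hy)).trans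
    (h2 _ isOpen_interior ⟨x, ⟨mem_interior_iff_mem_nhds.2 hN, mem_of_mem_nhds hV⟩, hx⟩))

end Prp

variable {E F : Type*} [NormedAddCommGroup E] [NormedSpace ℂ E]
  [NormedAddCommGroup F] [NormedSpace ℂ F]

/-! ### balls -/

/-- three circles, in the form used below -/
theorem three {D : Set F} {v : F → EReal} (hv : IsPsh D v) {y : F} {ρ δ : ℝ} (hρ : 0 < ρ)
    (hρδ : ρ ≤ 2 * δ) (hD : closedBall y (3 * δ) ⊆ D) {a b : ℝ} (hab : a ≤ b)
    (hb : ∀ w ∈ closedBall y (3 * δ), v w ≤ b) (ha : ∀ w ∈ closedBall y ρ, v w ≤ a) {x : F}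
    (hx : x ∈ closedBall y (2 * δ)) :
    v x ≤ ((b - Real.log (3 / 2) / Real.log (3 * δ / ρ) * (b - a) : ℝ) : EReal) := by
  have hδ : 0 < δ := by linarith
  have h32 : 0 < Real.log (3 / 2) := Real.log_pos (by norm_num)
  have hle : Real.log (3 / 2) ≤ Real.log (3 * δ / ρ) :=
    Real.log_le_log (by norm_num) (by rw [div_le_div_iff₀ (by norm_num) hρ]; linarith)
  have hpos : 0 < Real.log (3 * δ / ρ) := h32.trans_le hle
  have hba : 0 ≤ b - a := by linarith
  rw [mem_closedBall, dist_eq_norm] at hx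
  by_cases hxρ : ‖x - y‖ ≤ ρ
  · refine (ha x (by rwa [mem_closedBall, dist_eq_norm])).trans (EReal.coe_le_coe_iff.2 ?_)
    have := mul_le_mul_of_nonneg_right ((div_le_one hpos).2 hle) hba
    linarith
  · push Not at hxρ
    have h1 := hv.three_circles y hρ (R := 3 * δ) (by linarith)
      (fun w _ hw => hD (by rwa [mem_closedBall, dist_eq_norm]))
      (a := a) (b := b) (fun w hw => ha w (by rw [mem_closedBall, dist_eq_norm]; exact hw.le))
      (fun w hw => hb w (by rw [mem_closedBall, dist_eq_norm]; exact hw.le)) hxρ.le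
      (by linarith)
    refine h1.trans (EReal.coe_le_coe_iff.2 ?_)
    rw [← Real.log_div (by positivity) hρ.ne', ← Real.log_div (by positivity) (by linarith)]
    have h2 : Real.log (3 / 2) ≤ Real.log (3 * δ / ‖x - y‖) :=
      Real.log_le_log (by norm_num)
        (by rw [div_le_div_iff₀ (by norm_num) (by linarith)]; linarith)
    have h3 := mul_le_mul_of_nonneg_left h2 (div_nonneg hba hpos.le)
    have h4 : Real.log (3 / 2) / Real.log (3 * δ / ρ) * (b - a) =
        (b - a) / Real.log (3 * δ / ρ) * Real.log (3 / 2) := by ring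
    linarith

/-- propagation of smallness in a connected open set -/
theorem conn_prp {D : Set F} (hD : IsOpen D) (hc : IsPreconnected D) {O : Set F} (hO : IsOpen O)
    (hne : (O ∩ D).Nonempty) {K : Set F} (hK : IsCompact K) (hKD : K ⊆ D) :
    ∃ θ : ℝ, 0 < θ ∧ θ ≤ 1 ∧ ∀ (v : F → EReal) (a b : ℝ), IsPsh D v → a ≤ b →
      (∀ w ∈ D, v w ≤ b) → (∀ w ∈ D, w ∈ O → v w ≤ a) →
      ∀ w ∈ K, v w ≤ ((b - θ * (b - a) : ℝ) : EReal) := by
  have hA : ∀ _ : {v : F → EReal // IsPsh D v}, (0 : ℝ) ≤ 0 := fun _ => le_rfl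
  have h := Prp.of_compact (Z := D) (ψ := fun v : {v : F → EReal // IsPsh D v} => v.1)
    (A := fun _ => 0) (O := O) hA hK fun z hz => prp_conn hc (fun z hz => ?_) hO hne z (hKD hz)
  · obtain ⟨θ, C, h1, h2, -, h4⟩ := h
    exact ⟨θ, h1, h2, fun v a b hv hab hb ha w hw => by
      simpa using h4 ⟨v, hv⟩ a b hab hb ha w (hKD hw) hw⟩
  · obtain ⟨r, hr, hB⟩ := ex_cball hD hz
    refine ⟨ball z (r / 4), ball_mem_nhds z (by linarith), fun O' hO' ⟨y, hy⟩ => ?_⟩
    obtain ⟨ρ, hρ, hB'⟩ := ex_cball hO' hy.1.1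
    have hyz : dist y z < r / 4 := hy.1.2
    have h3 : closedBall y (3 * (r / 4)) ⊆ D :=
      (closedBall_subset_closedBall' (by linarith)).trans hB
    have hρ' : 0 < min ρ (r / 4) := lt_min hρ (by linarith)
    have h32 : 0 < Real.log (3 / 2) := Real.log_pos (by norm_num)
    have hle : Real.log (3 / 2) ≤ Real.log (3 * (r / 4) / min ρ (r / 4)) :=
      Real.log_le_log (by norm_num) (by
        rw [div_le_div_iff₀ (by norm_num) hρ']; linarith [min_le_right ρ (r / 4)])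
    refine ⟨Real.log (3 / 2) / Real.log (3 * (r / 4) / min ρ (r / 4)), 0,
      div_pos h32 (h32.trans_le hle), (div_le_one (h32.trans_le hle)).2 hle, le_rfl,
      fun v a b hab hb ha x _ hx => ?_⟩
    rw [zero_mul, add_zero]
    refine three v.2 hρ' (by linarith [min_le_right ρ (r / 4)]) h3 hab (fun w hw => hb w (h3 hw))
      (fun w hw => ha w (h3 (closedBall_subset_closedBall
        (by linarith [min_le_right ρ (r / 4)]) hw))
        (hB' (closedBall_subset_closedBall (min_le_left _ _) hw))) ?_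
    have : dist x z < r / 4 := hx
    rw [mem_closedBall]
    linarith [dist_triangle_right x y z]

/-! ### branched covers -/

namespace BC

variable (B : BC E F) [FiniteDimensional ℂ E] [FiniteDimensional ℂ F]

/-- propagation from the full preimage of an open set -/
theorem prp {O : Set F} (hO : IsOpen O) (hne : (O ∩ ball B.c B.R).Nonempty) {R' : ℝ}
    (hR' : R' < B.R) :
    ∃ θ : ℝ, 0 < θ ∧ θ ≤ 1 ∧ ∀ (U : Set E) (u : E → EReal) (a b : ℝ), IsOpen U → B.Y ⊆ U →
      IsPsh U u → a ≤ b → (∀ y ∈ B.Y, u y ≤ b) → (∀ y ∈ B.Y, B.π y ∈ O → u y ≤ a) →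
      ∀ y ∈ B.Y, B.π y ∈ closedBall B.c R' → u y ≤ ((b - θ * (b - a) : ℝ) : EReal) := by
  have : ProperSpace F := FiniteDimensional.proper ℂ F
  obtain ⟨θ, h1, h2, h3⟩ := conn_prp isOpen_ball (convex_ball B.c B.R).isPreconnected hO hne
    (isCompact_closedBall B.c R') (closedBall_subset_ball hR')
  refine ⟨θ, h1, h2, fun U u a b hU hYU hu hab hb ha y hy hy' => (B.le_mx u hy).trans ?_⟩
  exact h3 _ a b (B.isPsh_mx hU hu hYU) hab (fun w _ => B.mx_le fun y hy => hb y hy.1)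
    (fun w _ hw => B.mx_le fun y hy => ha y hy.1 (hy.2 ▸ hw)) _ hy'

/-- sheets are open in `Y` -/
theorem Triv.ev_sheet {B : BC E F} {V : Set F} {s : Fin B.k → F → E} (h : B.Triv V s) {w : F}
    (hV : V ∈ 𝓝 w) (j : Fin B.k) :
    ∀ᶠ y in 𝓝 (s j w), y ∈ B.Y → B.π y ∈ V ∧ s j (B.π y) = y := by
  have hw := mem_of_mem_nhds hV
  have hπ : Tendsto B.π (𝓝[B.Y] (s j w)) (𝓝 w) := by
    have := B.tendsto_pi (h.mem hw j).1
    rwa [(h.mem hw j).2] at this
  have h1 : ∀ i, i ≠ j → ∀ᶠ y in 𝓝[B.Y] (s j w), s i (B.π y) ≠ y := by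
    intro i hi
    have h2 : Tendsto (fun y => s i (B.π y) - y) (𝓝[B.Y] (s j w)) (𝓝 (s i w - s j w)) :=
      ((((h.hol i).continuousOn.continuousAt hV).tendsto.comp hπ)).sub
        (tendsto_id.mono_left nhdsWithin_le_nhds)
    have h3 : s i w - s j w ≠ 0 := sub_ne_zero.2 fun he => hi (h.inj w hw he)
    exact (h2.eventually_ne h3).mono fun y hy => sub_ne_zero.1 hy
  rw [← eventually_nhdsWithin_iff]
  filter_upwards [hπ.eventually hV, (eventually_all (l := 𝓝[B.Y] (s j w))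
    (p := fun i y => i ≠ j → s i (B.π y) ≠ y)).2
      fun i => eventually_imp_distrib_left.2 (h1 i), self_mem_nhdsWithin] with y h2 h3 h4
  refine ⟨h2, ?_⟩
  have h5 : y ∈ B.fib (B.π y) := ⟨h4, rfl⟩
  rw [h.fib _ h2] at h5
  obtain ⟨i, hi⟩ := h5
  by_cases hij : i = j
  · exact hij ▸ hi
  · exact absurd hi (h3 i hij)

/-- an evenly covered ball near the centre -/
theorem exists_triv_near : ∃ (w₁ : F) (δ : ℝ) (s : Fin B.k → F → E), 0 < δ ∧
    ball w₁ (4 * δ) ⊆ ball B.c (B.R / 4) ∧ B.Triv (ball w₁ (4 * δ)) s := by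
  have hR := B.R_pos
  obtain ⟨w₁, ⟨h1, h2⟩, h3⟩ := ((B.freq_nz (mem_ball_self hR)).and_eventually
    (ball_mem_nhds B.c (by linarith : 0 < B.R / 4))).exists
  obtain ⟨ρ, hρ, s, hs⟩ := B.exists_triv h1 h2
  obtain ⟨ρ', hρ', h4⟩ := Metric.isOpen_iff.1 isOpen_ball w₁ h3
  refine ⟨w₁, min ρ ρ' / 4, s, by positivity, ?_, hs.mono ?_⟩
  · exact (ball_subset_ball (by linarith [min_le_right ρ ρ'])).trans h4
  · exact ball_subset_ball (by linarith [min_le_left ρ ρ'])

theorem ofReal_le_cst_sum {ι : Type*} (s : Finset ι) {f : ι → EReal} (hf : ∀ j ∈ s, f j ≤ 0) :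
    cst 0 (∑ j ∈ s, f j) ≤ ∑ j ∈ s, cst 0 (f j) := by
  classical
  induction s using Finset.induction_on with
  | empty => simp [cst]
  | insert a s ha ih =>
    rw [Finset.sum_insert ha, Finset.sum_insert ha]
    refine le_trans ?_ (add_le_add_right (ih fun j hj => hf j (by simp [hj])) _)
    have h1 := hf a (by simp)
    have h2 : ∑ j ∈ s, f j ≤ 0 := Finset.sum_nonpos fun j hj => hf j (by simp [hj])
    generalize f a = x at h1
    generalize ∑ j ∈ s, f j = y at h2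
    induction x with
    | bot => simp
    | top => exact absurd h1 (by simp)
    | coe x =>
      induction y with
      | bot => simp
      | top => exact absurd h2 (by simp)
      | coe y =>
        rw [← EReal.coe_add, cst_coe, cst_coe, cst_coe]
        refine le_trans (le_of_eq ?_) ENNReal.ofReal_add_le
        congr 1; ring

/-- the trace is not too negative on an evenly covered ball -/
theorem Triv.trc_lower {B : BC E F} {w₁ : F} {δ : ℝ} {s : Fin B.k → F → E} (hδ : 0 < δ)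
    (hs : B.Triv (ball w₁ (4 * δ)) s) :
    ∃ C : ℝ, 0 ≤ C ∧ ∀ (U : Set E) (u : E → EReal) (m t : ℝ), IsOpen U → B.Y ⊆ U → IsPsh U u →
      0 ≤ m → (∀ y ∈ B.Y, u y ≤ 0) → (∀ j, ∃ w ∈ ball w₁ δ, ((-m : ℝ) : EReal) ≤ u (s j w)) →
      (∀ w ∈ ball w₁ δ, B.trc u w ≤ ((-t : ℝ) : EReal)) → t ≤ C * m := by
  have : ProperSpace F := FiniteDimensional.proper ℂ F
  borelize F
  set μ : Measure F := Measure.addHaar with hμ
  have h1 : μ (ball w₁ δ) ≠ 0 := (measure_ball_pos μ w₁ hδ).ne'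
  have h2 : μ (ball w₁ δ) ≠ ⊤ := measure_ball_lt_top.ne
  have h3 : μ (ball w₁ (3 * δ)) ≠ ⊤ := measure_ball_lt_top.ne
  have h1' : 0 < (μ (ball w₁ δ)).toReal := ENNReal.toReal_pos h1 h2
  refine ⟨B.k * (μ (ball w₁ (3 * δ))).toReal / (μ (ball w₁ δ)).toReal, by positivity,
    fun U u m t hU hYU hu hm h0 hl ht => ?_⟩
  have hsub : ball w₁ δ ⊆ ball w₁ (4 * δ) := ball_subset_ball (by linarith)
  have hp := fun j => hs.isPsh_comp hU hu (fun _ _ _ hy => hYU hy.1) j
  have h4 : ∀ j, ∫⁻ w in ball w₁ δ, cst 0 (u (s j w)) ∂μ ≤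
      μ (ball w₁ (3 * δ)) * ENNReal.ofReal m := by
    intro j
    obtain ⟨w, hw, hw'⟩ := hl j
    have hw1 : dist w w₁ < δ := hw
    have h5 : ball w (2 * δ) ⊆ ball w₁ (3 * δ) := ball_subset_ball' (by linarith)
    have h6 : ball w₁ δ ⊆ ball w (2 * δ) := ball_subset_ball' (by rw [dist_comm]; linarith)
    have h7 : ball w (2 * δ) ⊆ ball w₁ (4 * δ) := h5.trans (ball_subset_ball (by linarith))
    refine (lintegral_mono_set h6).trans (((hp j).lint_ball μ isOpen_ball h7 (C := 0)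
      fun x hx => h0 _ (hs.mem (h7 hx) j).1).trans ?_)
    refine mul_le_mul' (measure_mono h5) ((cst_le_ofReal hw').trans (by simp))
  have h5 : ENNReal.ofReal t * μ (ball w₁ δ) ≤
      ∑ j : Fin B.k, ∫⁻ w in ball w₁ δ, cst 0 (u (s j w)) ∂μ := by
    rw [← setLIntegral_const, ← lintegral_finsetSum' (f := fun j w => cst 0 (u (s j w))) _ fun j _ =>
      (measurable_cst 0).comp_aemeasurable ((hp j).aemeasurable isOpen_ball μ measurableSet_ball hsub)]
    refine setLIntegral_mono' measurableSet_ball fun w hw => ?_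
    refine le_trans ?_ (ofReal_le_cst_sum Finset.univ (f := fun j => u (s j w))
      fun j _ => h0 _ (hs.mem (hsub hw) j).1)
    rw [← hs.trc_eq u (hsub hw)]
    simpa using ofReal_le_cst (C := 0) (ht w hw)
  have h6 := h5.trans (Finset.sum_le_sum fun j _ => h4 j)
  rw [Finset.sum_const, Finset.card_univ, Fintype.card_fin, nsmul_eq_mul] at h6
  have h7 := ENNReal.toReal_mono (by finiteness) h6
  rw [ENNReal.toReal_mul, ENNReal.toReal_mul, ENNReal.toReal_mul, ENNReal.toReal_ofReal hm,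
    ENNReal.toReal_natCast, ENNReal.toReal_ofReal'] at h7
  rw [div_mul_eq_mul_div, le_div_iff₀ h1']
  nlinarith [le_max_left t 0]

/-- **local Harnack inequality** on a branched cover -/
theorem harnack {w₁ : F} {δ : ℝ} {s : Fin B.k → F → E} (hδ : 0 < δ)
    (hw₁ : ball w₁ (4 * δ) ⊆ ball B.c (B.R / 4)) (hs : B.Triv (ball w₁ (4 * δ)) s) :
    ∃ C : ℝ, 0 ≤ C ∧ ∀ (U : Set E) (u : E → EReal) (a b m r : ℝ), IsOpen U → B.Y ⊆ U →
      IsPsh U u → 0 ≤ m → (∀ y ∈ B.Y, u y ≤ b) →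
      (∀ j, ∃ w ∈ ball w₁ δ, ((b - m : ℝ) : EReal) ≤ u (s j w)) → 0 < r → r ≤ 1 →
      ∀ x ∈ B.Y, B.π x ∈ ball B.c (B.R / 4) → (∀ y ∈ B.Y, dist y x < r → u y ≤ a) →
      b - a ≤ C * m * (1 - Real.log r) := by
  obtain ⟨C, hC, h1⟩ := hs.trc_lower hδ
  obtain ⟨κ, hκ, h2⟩ := B.holder
  have hR := B.R_pos
  set κ' : ℝ := min κ (B.R / 2) / 2 with hκ'
  have hκ0 : 0 < κ' := by positivity
  have hκ1 : κ' < κ := by linarith [min_le_left κ (B.R / 2), lt_min hκ (half_pos hR)]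
  have hκ2 : κ' ≤ B.R / 4 := by linarith [min_le_right κ (B.R / 2)]
  have h32 : 0 < Real.log (3 / 2) := Real.log_pos (by norm_num)
  set L : ℝ := Real.log (3 * (B.R / 4) / κ') with hL
  have hL0 : 0 ≤ L := Real.log_nonneg (by rw [le_div_iff₀ hκ0]; linarith)
  refine ⟨C * (L + B.k) / Real.log (3 / 2), by positivity,
    fun U u a b m r hU hYU hu hm hb hl hr hr1 x hx hxc ha => ?_⟩
  have hlr : Real.log r ≤ 0 := Real.log_nonpos hr.le hr1
  by_cases hab : b ≤ a
  · have : 0 ≤ C * (L + B.k) / Real.log (3 / 2) * m * (1 - Real.log r) :=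
      mul_nonneg (by positivity) (by linarith)
    linarith
  push Not at hab
  set u' : E → EReal := fun y => u y + ((-b : ℝ) : EReal) with hu'
  have hp : IsPsh U u' := hu.add_const (-b)
  have h0 : ∀ y ∈ B.Y, u' y ≤ 0 := fun y hy => by
    have := add_le_coe (hb y hy) (le_refl ((-b : ℝ) : EReal))
    simpa [hu'] using this
  have hT := isPsh_ext isOpen_ball B.hol (B.isPsh_trc hU hp hYU) fun w hw =>
    ⟨0, (isOpen_ball.eventually_mem hw).mono fun w' hw' h => B.trc_nonpos h0 hw' h⟩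
  have hrk : 0 < r ^ B.k := by positivity
  have hrk1 : r ^ B.k ≤ 1 := pow_le_one₀ hr.le hr1
  set ρ : ℝ := κ' * r ^ B.k with hρ
  have hρ0 : 0 < ρ := by positivity
  have hρ1 : ρ ≤ κ' := by nlinarith
  have hxc' : dist (B.π x) B.c < B.R / 4 := hxc
  have hD : closedBall (B.π x) (3 * (B.R / 4)) ⊆ ball B.c B.R :=
    closedBall_subset_ball' (by linarith)
  have hlog : Real.log (3 * (B.R / 4) / ρ) = L - B.k * Real.log r := by
    rw [hL, hρ, ← Real.log_pow, ← Real.log_div (by positivity) hrk.ne', div_div]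
  have hpos : 0 < L - B.k * Real.log r := by
    rw [← hlog]
    exact Real.log_pos (by rw [lt_div_iff₀ hρ0]; linarith)
  have h3 := h1 U u' m (Real.log (3 / 2) / (L - B.k * Real.log r) * (b - a)) hU hYU hp hm h0
    (fun j => by
      obtain ⟨w, hw, hw'⟩ := hl j
      refine ⟨w, hw, le_trans (le_of_eq ?_) (add_le_add_left hw' _)⟩
      rw [← EReal.coe_add]; congr 1; ring)
    fun w hw => by
      have hw4 : w ∈ ball w₁ (4 * δ) := ball_subset_ball (by linarith) hw
      have hwc : dist w B.c < B.R / 4 := hw₁ hw4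
      rw [← ext_eq isOpen_ball B.hol (B.isPsh_trc hU hp hYU) (hs.sub hw4) (hs.nz w hw4)]
      have h4 := three hT (y := B.π x) (δ := B.R / 4) hρ0 (by linarith) hD (a := a - b) (b := 0)
        (by linarith) (fun w' hw' => ext_le ((isOpen_ball.eventually_mem (hD hw')).mono
          fun w'' h5 h => B.trc_nonpos h0 h5 h)) (fun w' hw' => ext_le ?_) (x := w) (by
          rw [mem_closedBall]; linarith [dist_triangle_right w (B.π x) B.c])
      · refine h4.trans (le_of_eq ?_)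
        rw [hlog]; congr 1; ring
      · have hw'' : dist w' (B.π x) ≤ ρ := hw'
        have h5 : ball (B.π x) (min (κ * r ^ B.k) (B.R / 2)) ∈ 𝓝 w' :=
          isOpen_ball.mem_nhds (mem_ball.2 (lt_min (by nlinarith) (by linarith)))
        filter_upwards [h5] with w'' h6 h7
        rw [mem_ball, lt_min_iff] at h6
        obtain ⟨y, hy, hyx⟩ := h2 x hx hxc r hr w'' h6.2 h7 h6.1
        have h8 := B.trc_le h0 hy.1 (hy.2 ▸ h7)
        rw [hy.2] at h8
        refine h8.trans ?_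
        simpa [sub_eq_add_neg, hu'] using add_le_coe (ha y hy.1 hyx) (le_refl ((-b : ℝ) : EReal))
  rw [div_mul_eq_mul_div, div_le_iff₀ hpos] at h3
  have h4 : L - B.k * Real.log r ≤ (L + B.k) * (1 - Real.log r) := by
    have : (0 : ℝ) ≤ B.k := B.k.cast_nonneg
    nlinarith
  have h5 := mul_le_mul_of_nonneg_left h4 (mul_nonneg hC hm)
  rw [div_mul_eq_mul_div, div_mul_eq_mul_div, le_div_iff₀ h32]
  nlinarith

end BC

end Crest.Agent.X261.Ans.Hk
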