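import Crest.Agent.X261.Ans.HF
import Crest.Agent.R275.Loc2A_879

/-!
# X261/Ans/Box (helper8): finite projections

`locfin`: at a point which is isolated in its fibre, an analytic set of `F × G` lies in the support
of a holomorphic family of multisets.  `PBox`: the same data on a product of balls.
-/

set_option autoImplicit false
set_option linter.unusedSectionVars false

open Set Filter Topology Metric Polynomial Module

namespace Crest.Agent.X261.Ans

noncomputable section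

variable {F G : Type} [NormedAddCommGroup F] [NormedSpace ℂ F] [FiniteDimensional ℂ F]
  [NormedAddCommGroup G] [NormedSpace ℂ G] [FiniteDimensional ℂ G]

/-- finite projection data on `V × B` -/
structure PBox (Z : Set (F × G)) (V : Set F) (B : Set G) (α : F → Multiset G) : Prop where
  hf : ∀ z ∈ V, HF α z
  sub : ∀ z ∈ V, ∀ w ∈ α z, w ∈ B
  cut : Cut (V ×ˢ B) Z
  cov : ∀ z ∈ V, ∀ w ∈ B, (z, w) ∈ Z → w ∈ α z

/-- the projection of a box is analytic -/
theorem PBox.proj {Z : Set (F × G)} {V : Set F} {B : Set G} {α : F → Multiset G}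
    (h : PBox Z V B α) : Cut V {z | ∃ w ∈ B, (z, w) ∈ Z} := by
  intro y hy hyZ
  obtain ⟨f, hf, hf0⟩ := h.cut.exists_ne (T := (fun w => (y, w)) '' {w | w ∈ α y})
    ((α y).finite_toSet.image _) (by
      rintro _ ⟨w, hw, rfl⟩
      exact ⟨⟨hy, h.sub y hy w hw⟩, fun hZ => hyZ ⟨w, h.sub y hy w hw, hZ⟩⟩)
  refine ⟨fun z => ((α z).map fun w => f (z, w)).prod, ⟨fun z hz => ?_, ?_⟩, ?_⟩
  · exact (h.hf z hz).prod fun w hw => hf.1 _ ⟨hz, h.sub z hz w hw⟩
  · rintro z hz ⟨w, hw, hZ⟩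
    exact Multiset.prod_eq_zero (Multiset.mem_map.2 ⟨w, h.cov z hz w hw hZ, hf.2 _ ⟨hz, hw⟩ hZ⟩)
  · intro h0
    obtain ⟨w, hw, h1⟩ := Multiset.mem_map.1 (Multiset.prod_eq_zero_iff.1 h0)
    exact hf0 _ ⟨w, hw, rfl⟩ h1

theorem PBox.sub_set {Z Z' : Set (F × G)} {V : Set F} {B : Set G} {α : F → Multiset G}
    (h : PBox Z V B α) (hc : Cut (V ×ˢ B) Z') (hZ : ∀ p ∈ V ×ˢ B, p ∈ Z' → p ∈ Z) :
    PBox Z' V B α :=
  ⟨h.hf, h.sub, hc, fun z hz w hw hp => h.cov z hz w hw (hZ _ ⟨hz, hw⟩ hp)⟩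

/-- boxes from germs -/
theorem exists_pbox {Z : Set (F × G)} {a : F} {b : G} (hZ : AnAt Z (a, b))
    {α : F → Multiset G} (h1 : ∀ᶠ z in 𝓝 a, HF α z) (h2 : ∀ w ∈ α a, w = b)
    (h3 : ∀ᶠ p in 𝓝 (a, b), p ∈ Z → p.2 ∈ α p.1) {N : Set (F × G)} (hN : N ∈ 𝓝 (a, b)) :
    ∃ s r : ℝ, 0 < s ∧ 0 < r ∧ s ≤ r ∧ ball a r ×ˢ ball b r ⊆ N ∧ PBox Z (ball a s) (ball b r) α ∧
      ∀ z ∈ ball a s, ∀ w ∈ α z, w ∈ ball b (r / 2) := by
  obtain ⟨r, hr, hrN, hc⟩ := hZ.exists_ball (inter_mem hN h3)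
  rw [← ball_prod_same] at hrN hc
  have h4 := h1.self_of_nhds.usc' (N := ball b (r / 2)) fun w hw => by
    rw [h2 w hw]
    exact ball_mem_nhds b (half_pos hr)
  obtain ⟨s, hs, hb⟩ := Metric.eventually_nhds_iff_ball.1 (h1.and h4)
  have hsub : ball a (min s r) ×ˢ ball b r ⊆ ball a r ×ˢ ball b r :=
    prod_mono (ball_subset_ball (min_le_right _ _)) Subset.rfl
  have hb' : ∀ z ∈ ball a (min s r), HF α z ∧ ∀ w ∈ α z, w ∈ ball b (r / 2) := fun z hz =>
    hb z (ball_subset_ball (min_le_left _ _) hz)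
  refine ⟨min s r, r, lt_min hs hr, hr, min_le_right _ _, fun p hp => (hrN hp).1,
    ⟨fun z hz => (hb' z hz).1, fun z hz w hw => ball_subset_ball (by linarith) ((hb' z hz).2 w hw),
      hc.mono hsub, fun z hz w hw hp => (hrN (hsub ⟨hz, hw⟩)).2 hp⟩, fun z hz => (hb' z hz).2⟩

/-- one-dimensional fibre -/
theorem locfin_one {Z : Set (F × ℂ)} {a : F} (hZ : AnAt Z (a, 0))
    (hiso : ∀ᶠ w in 𝓝[≠] (0 : ℂ), (a, w) ∉ Z) :
    ∃ β : F → Multiset ℂ, (∀ᶠ z in 𝓝 a, HF β z) ∧ (∀ w ∈ β a, w = 0) ∧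
      ∀ᶠ p in 𝓝 (a, (0 : ℂ)), p ∈ Z → p.2 ∈ β p.1 := by
  obtain ⟨r, hr, -, hc⟩ := hZ.exists_ball univ_mem
  obtain ⟨t, ht, htr⟩ := (hiso.and (mem_nhdsWithin_of_mem_nhds (ball_mem_nhds (0 : ℂ) hr))).exists
  have hmem : ∀ w ∈ ball (0 : ℂ) r, (a, w) ∈ ball (a, (0 : ℂ)) r := fun w hw => by
    rw [← ball_prod_same]
    exact ⟨mem_ball_self hr, hw⟩
  obtain ⟨f, hf, hf0⟩ := hc (a, t) (hmem t htr) ht
  have hfa : AnalyticOnNhd ℂ (fun w => f (a, w)) (ball 0 r) := fun w hw =>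
    AnalyticAt.comp (g := f) (f := fun w : ℂ => (a, w)) (hf.1 _ (hmem w hw))
      (analyticAt_const.prod analyticAt_id)
  have htop : analyticOrderAt (fun w => f (a, w)) 0 ≠ ⊤ := by
    intro h
    rw [analyticOrderAt_eq_top] at h
    exact hf0 (hfa.eqOn_zero_of_preconnected_of_eventuallyEq_zero (convex_ball 0 r).isPreconnected
      (mem_ball_self hr) h htr)
  obtain ⟨n, hn⟩ := ENat.ne_top_iff_exists.1 htop
  have hf1 : AnalyticAt ℂ f (a, 0) := hf.1 _ (mem_ball_self hr)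
  obtain ⟨q, c, hq, hca, hdiv⟩ := R275.Loc2879.wdiv (g := fun p => p.2 ^ n) hf1 hn.symm
    (analyticAt_snd.pow n)
  set Rm : F → ℂ[X] := fun y => ∑ j : Fin n, C (c j y) * X ^ (j : ℕ) with hRm
  have hdeg : ∀ y, (Rm y).degree < n := fun y => degree_sum_fin_lt _
  have hev : ∀ y w, (Rm y).eval w = ∑ j : Fin n, c j y * w ^ (j : ℕ) := fun y w => by
    simp [hRm, eval_finsetSum]
  set P : F → ℂ[X] := fun y => X ^ n - Rm y with hP
  have hPm : ∀ y, (P y).Monic ∧ (P y).natDegree = n := fun y => by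
    have h1 : (P y).Monic := monic_X_pow_sub (hdeg y)
    refine ⟨h1, natDegree_eq_of_degree_eq_some ?_⟩
    rw [hP, degree_sub_eq_left_of_degree_lt (by rw [degree_X_pow]; exact hdeg y), degree_X_pow]
  have hR0 : Rm a = 0 := by
    obtain ⟨U, hU, -, hUe⟩ := ((hfa 0 (mem_ball_self hr)).analyticOrderAt_eq_natCast).1 hn.symm
    have hqa : ContinuousAt (fun w : ℂ => q (a, w)) 0 :=
      ContinuousAt.comp (g := q) (f := fun w : ℂ => (a, w)) hq.continuousAt (by fun_prop)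
    refine R275.Loc2879.poly_eq_zero (h := fun w => 1 - q (a, w) * U w) (hdeg a)
      (continuousAt_const.sub (hqa.mul hU.continuousAt)) ?_
    have h2 : Tendsto (fun w : ℂ => (a, w)) (𝓝 0) (𝓝 (a, 0)) :=
      (by fun_prop : Continuous fun w : ℂ => (a, w)).continuousAt
    filter_upwards [mem_nhdsWithin_of_mem_nhds (h2.eventually hdiv),
      mem_nhdsWithin_of_mem_nhds hUe] with w h3 h4
    simp only [sub_zero, smul_eq_mul] at h3 h4
    rw [h4] at h3
    rw [hev]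
    linear_combination -h3
  have hU : IsOpen {y | ∀ j, AnalyticAt ℂ (c j) y} := by
    rw [ofPred_forall]
    exact isOpen_iInter_of_finite fun j => isOpen_analyticAt ℂ (c j)
  refine ⟨fun y => (P y).roots, ?_, ?_, ?_⟩
  · filter_upwards [hU.mem_nhds hca] with z hz
    refine hf_roots hU (fun y _ => hPm y) (fun j y hy => ?_) hz
    simp only [hP, hRm, coeff_sub, finsetSum_coeff, coeff_C_mul]
    exact analyticAt_const.sub
      (Finset.analyticAt_fun_sum _ fun i _ => (hy i).mul analyticAt_const)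
  · intro w hw
    simp only [hP, hR0, sub_zero, roots_X_pow] at hw
    exact Multiset.mem_singleton.1 (Multiset.mem_of_mem_nsmul hw)
  · filter_upwards [hdiv, ball_mem_nhds _ hr] with p hp hpr hpZ
    rw [mem_roots (hPm _).1.ne_zero, IsRoot.def, hP]
    simp only [eval_sub, eval_pow, eval_X, hev]
    rw [hf.2 p hpr hpZ] at hp
    linear_combination hp

theorem locfin_aux (k : ℕ) : ∀ (F G : Type) [NormedAddCommGroup F] [NormedSpace ℂ F]
    [FiniteDimensional ℂ F] [NormedAddCommGroup G] [NormedSpace ℂ G] [FiniteDimensional ℂ G],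
    finrank ℂ G = k → ∀ (Z : Set (F × G)) (a : F) (b : G), AnAt Z (a, b) →
    (∀ᶠ w in 𝓝[≠] b, (a, w) ∉ Z) →
    ∃ α : F → Multiset G, (∀ᶠ z in 𝓝 a, HF α z) ∧ (∀ w ∈ α a, w = b) ∧
      ∀ᶠ p in 𝓝 (a, b), p ∈ Z → p.2 ∈ α p.1 := by
  induction k with
  | zero =>
    intro F G _ _ _ _ _ _ hk Z a b _ _
    have : Subsingleton G := finrank_zero_iff.1 hk
    refine ⟨fun _ => ({()} : Multiset Unit).map fun _ => b, Eventually.of_forall fun z => ?_,
      fun w _ => Subsingleton.elim _ _, Eventually.of_forall fun p _ => ?_⟩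
    · exact hf_sections (S := fun _ _ => b) _ fun _ _ => analyticAt_const
    · simp [Subsingleton.elim p.2 b]
  | succ k ih =>
    intro F G _ _ _ _ _ _ hk Z a b hZ hiso
    let e : G ≃L[ℂ] ((Fin k → ℂ) × ℂ) := ContinuousLinearEquiv.ofFinrankEq (by simp [hk])
    set b' := (e b).1 with hb'
    set c := (e b).2 with hc
    let φ : (Fin k → ℂ) × ℂ → G := fun p => e.symm (p.1, p.2 + c)
    have hφa : ∀ p, AnalyticAt ℂ φ p := fun p =>
      AnalyticAt.comp (g := e.symm) (f := fun p : (Fin k → ℂ) × ℂ => (p.1, p.2 + c))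
        (e.symm.analyticAt _) (analyticAt_fst.prod (analyticAt_snd.add analyticAt_const))
    have hφ0 : φ (b', 0) = b := by simp [φ, hb', hc]
    have hφi : ∀ p, φ p = b → p = (b', 0) := by
      intro p hp
      have h1 : (p.1, p.2 + c) = e b := by rw [← hp]; simp [φ]
      have h2 := congrArg Prod.fst h1
      have h3 := congrArg Prod.snd h1
      simp only at h2 h3
      exact Prod.ext h2 (by rw [← hc] at h3; linear_combination h3)
    let ψ : (F × (Fin k → ℂ)) × ℂ → F × G := fun q => (q.1.1, φ (q.1.2, q.2))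
    have hψa : ∀ q, AnalyticAt ℂ ψ q := fun q =>
      (analyticAt_fst.comp analyticAt_fst).prod
        (AnalyticAt.comp (g := φ) (f := fun q : (F × (Fin k → ℂ)) × ℂ => (q.1.2, q.2)) (hφa _)
          ((analyticAt_snd.comp analyticAt_fst).prod analyticAt_snd))
    have hψ0 : ψ ((a, b'), 0) = (a, b) := by simp only [ψ, hφ0]
    have hZ1 : AnAt (ψ ⁻¹' Z) ((a, b'), 0) := AnAt.preimage (hψa _) (by rw [hψ0]; exact hZ)
    have hN : ∀ᶠ q in 𝓝 (((a, b'), 0) : (F × (Fin k → ℂ)) × ℂ),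
        φ (q.1.2, q.2) ≠ b → (a, φ (q.1.2, q.2)) ∉ Z := by
      have h1 : Tendsto (fun q : (F × (Fin k → ℂ)) × ℂ => φ (q.1.2, q.2)) (𝓝 ((a, b'), 0))
          (𝓝 b) := by
        have := (hψa ((a, b'), 0)).continuousAt.snd
        rw [ContinuousAt, hψ0] at this
        exact this
      exact h1.eventually (eventually_nhdsWithin_iff.1 hiso)
    obtain ⟨β, hβ1, hβ2, hβ3⟩ := locfin_one hZ1 (by
      have h1 : Tendsto (fun w : ℂ => (((a, b'), w) : (F × (Fin k → ℂ)) × ℂ)) (𝓝 0)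
          (𝓝 ((a, b'), 0)) := (by fun_prop : Continuous fun w : ℂ =>
            (((a, b'), w) : (F × (Fin k → ℂ)) × ℂ)).continuousAt
      rw [eventually_nhdsWithin_iff]
      filter_upwards [h1.eventually hN] with w hw hw0
      refine hw fun h => hw0 ?_
      exact congrArg Prod.snd (hφi _ h))
    obtain ⟨s, r, hs, hr, hsr, hsub, hbox, -⟩ := exists_pbox hZ1 hβ1 hβ2 hβ3 hN
    have hZ2 := hbox.proj.anAt (ball_mem_nhds (a, b') hs)
    obtain ⟨α, hα1, hα2, hα3⟩ := ih F (Fin k → ℂ) (by simp) _ a b' hZ2 (by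
      rw [eventually_nhdsWithin_iff]
      filter_upwards [ball_mem_nhds b' hr] with w' hw' hne
      rintro ⟨w, hw, hp⟩
      have h1 : ((a, w'), w) ∈ ball (a, b') r ×ˢ ball (0 : ℂ) r := by
        refine ⟨?_, hw⟩
        rw [← ball_prod_same]
        exact ⟨mem_ball_self hr, hw'⟩
      refine hsub h1 (fun h => hne ?_) hp
      exact congrArg Prod.fst (hφi _ h))
    refine ⟨fun y => ((α y).bind fun w => (β (y, w)).map fun u => (w, u)).map φ, ?_, ?_, ?_⟩
    · have h1 := hα1.self_of_nhds.usc (N := ball (a, b') s) fun w hw => by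
        rw [hα2 w hw]
        exact ball_mem_nhds _ hs
      filter_upwards [hα1, h1] with z hz hz'
      exact (hz.bind fun w hw => hbox.hf _ (hz' w hw)).map (φ := fun p => φ p.2)
        fun w _ => (hφa _).comp analyticAt_snd
    · intro w hw
      obtain ⟨p, hp, rfl⟩ := Multiset.mem_map.1 hw
      obtain ⟨w', hw', hp⟩ := Multiset.mem_bind.1 hp
      obtain ⟨u, hu, rfl⟩ := Multiset.mem_map.1 hp
      obtain rfl := hα2 w' hw'
      rw [hβ2 u hu, hφ0]
    · let χ : F × G → (F × (Fin k → ℂ)) × ℂ := fun p => ((p.1, (e p.2).1), (e p.2).2 - c)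
      have hχ : Tendsto χ (𝓝 (a, b)) (𝓝 ((a, b'), 0)) := by
        have h1 : Continuous χ := by fun_prop
        have h2 := h1.continuousAt (x := (a, b))
        simpa [ContinuousAt, χ, ← hb', ← hc] using h2
      have hχφ : ∀ p, φ ((χ p).1.2, (χ p).2) = p.2 := fun p => by simp [φ, χ]
      have h3 : ball (a, b') s ×ˢ ball (0 : ℂ) r ∈ 𝓝 (((a, b'), 0) : (F × (Fin k → ℂ)) × ℂ) :=
        prod_mem_nhds (ball_mem_nhds _ hs) (ball_mem_nhds _ hr)
      filter_upwards [hχ.eventually h3, ((continuous_fst.tendsto _).comp hχ).eventually hα3]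
        with p hp1 hp2 hpZ
      have h4 : χ p ∈ ψ ⁻¹' Z := by
        show ((χ p).1.1, φ ((χ p).1.2, (χ p).2)) ∈ Z
        rw [hχφ]
        exact hpZ
      refine Multiset.mem_map.2 ⟨((χ p).1.2, (χ p).2), Multiset.mem_bind.2 ⟨(χ p).1.2,
        hp2 ⟨(χ p).2, hp1.2, h4⟩, Multiset.mem_map.2 ⟨(χ p).2, ?_, rfl⟩⟩, hχφ p⟩
      exact hbox.cov _ hp1.1 _ hp1.2 h4

/-- **finite projection**, germ form -/
theorem locfin {Z : Set (F × G)} {a : F} {b : G} (hZ : AnAt Z (a, b))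
    (hiso : ∀ᶠ w in 𝓝[≠] b, (a, w) ∉ Z) :
    ∃ α : F → Multiset G, (∀ᶠ z in 𝓝 a, HF α z) ∧ (∀ w ∈ α a, w = b) ∧
      ∀ᶠ p in 𝓝 (a, b), p ∈ Z → p.2 ∈ α p.1 :=
  locfin_aux _ F G rfl Z a b hZ hiso

/-- **finite projection**, box form -/
theorem locbox {Z : Set (F × G)} {a : F} {b : G} (hZ : AnAt Z (a, b))
    (hiso : ∀ᶠ w in 𝓝[≠] b, (a, w) ∉ Z) {N : Set (F × G)} (hN : N ∈ 𝓝 (a, b)) :
    ∃ (s r : ℝ) (α : F → Multiset G), 0 < s ∧ 0 < r ∧ s ≤ r ∧ ball a r ×ˢ ball b r ⊆ N ∧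
      PBox Z (ball a s) (ball b r) α ∧ (∀ z ∈ ball a s, ∀ w ∈ α z, w ∈ ball b (r / 2)) ∧
      ∀ w ∈ α a, w = b := by
  obtain ⟨α, h1, h2, h3⟩ := locfin hZ hiso
  obtain ⟨s, r, k1, k2, k3, k4, k5, k6⟩ := exists_pbox hZ h1 h2 h3 hN
  exact ⟨s, r, α, k1, k2, k3, k4, k5, k6, h2⟩

end

end Crest.Agent.X261.Ans
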