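import Crest.Agent.X261.Ans.Defs

/-!
# X261/Ans/Cut (helper8): elementary properties of analytic sets
-/

set_option autoImplicit false
set_option linter.unusedSectionVars false

open Set Filter Topology

namespace Crest.Agent.X261.Ans

variable {E F : Type} [NormedAddCommGroup E] [NormedSpace ℂ E]
  [NormedAddCommGroup F] [NormedSpace ℂ F]

scoped instance (priority := 50) cs [FiniteDimensional ℂ E] : CompleteSpace E :=
  FiniteDimensional.complete ℂ E

scoped instance (priority := 50) ps [FiniteDimensional ℂ E] : ProperSpace E :=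
  FiniteDimensional.proper ℂ E

theorem Van.mono {W W' Z Z' : Set E} {f : E → ℂ} (h : Van W Z f) (hW : W' ⊆ W)
    (hZ : ∀ z ∈ W', z ∈ Z' → z ∈ Z) : Van W' Z' f :=
  ⟨h.1.mono hW, fun z hz hz' => h.2 z (hW hz) (hZ z hz hz')⟩

theorem Van.add {W Z : Set E} {f g : E → ℂ} (hf : Van W Z f) (hg : Van W Z g) :
    Van W Z (fun x => f x + g x) :=
  ⟨fun x hx => (hf.1 x hx).add (hg.1 x hx), fun z hz hz' => by simp [hf.2 z hz hz', hg.2 z hz hz']⟩

theorem Van.mul_left {W Z : Set E} {f g : E → ℂ} (hg : AnalyticOnNhd ℂ g W) (hf : Van W Z f) :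
    Van W Z (fun x => g x * f x) :=
  ⟨fun x hx => (hg x hx).mul (hf.1 x hx), fun z hz hz' => by simp [hf.2 z hz hz']⟩

theorem Van.mul_right {W Z : Set E} {f g : E → ℂ} (hf : Van W Z f) (hg : AnalyticOnNhd ℂ g W) :
    Van W Z (fun x => f x * g x) :=
  ⟨fun x hx => (hf.1 x hx).mul (hg x hx), fun z hz hz' => by simp [hf.2 z hz hz']⟩

theorem van_zero (W Z : Set E) : Van W Z (fun _ => 0) :=
  ⟨fun _ _ => analyticAt_const, fun _ _ _ => rfl⟩

theorem Van.comp {W Z : Set F} {f : F → ℂ} (hf : Van W Z f) {W' : Set E} {g : E → F}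
    (hg : AnalyticOnNhd ℂ g W') (hm : MapsTo g W' W) : Van W' (g ⁻¹' Z) (fun x => f (g x)) :=
  ⟨fun x hx => AnalyticAt.comp (g := f) (hf.1 _ (hm hx)) (hg x hx),
    fun _ hz hz' => hf.2 _ (hm hz) hz'⟩

theorem Cut.congr {W Z Z' : Set E} (h : Cut W Z) (hZ : ∀ y ∈ W, y ∈ Z ↔ y ∈ Z') : Cut W Z' := by
  intro y hy hyZ
  obtain ⟨f, hf, hf0⟩ := h y hy (fun h' => hyZ ((hZ y hy).1 h'))
  exact ⟨f, hf.mono Subset.rfl (fun z hz hz' => (hZ z hz).2 hz'), hf0⟩

theorem Cut.mono {W W' Z : Set E} (h : Cut W Z) (hW : W' ⊆ W) : Cut W' Z := by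
  intro y hy hyZ
  obtain ⟨f, hf, hf0⟩ := h y (hW hy) hyZ
  exact ⟨f, hf.mono hW (fun _ _ h' => h'), hf0⟩

theorem cut_empty (W : Set E) : Cut W ∅ := fun _ _ _ =>
  ⟨fun _ => 1, ⟨fun _ _ => analyticAt_const, fun _ _ h => h.elim⟩, one_ne_zero⟩

theorem cut_of_subset {W Z : Set E} (h : W ⊆ Z) : Cut W Z := fun _ hy hyZ => (hyZ (h hy)).elim

theorem cut_univ (W : Set E) : Cut W univ := cut_of_subset (subset_univ _)

theorem cut_iInter {ι : Sort*} {W : Set E} {Z : ι → Set E} (h : ∀ i, Cut W (Z i)) :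
    Cut W (⋂ i, Z i) := by
  intro y hy hyZ
  rw [mem_iInter, not_forall] at hyZ
  obtain ⟨i, hi⟩ := hyZ
  obtain ⟨f, hf, hf0⟩ := h i y hy hi
  exact ⟨f, hf.mono Subset.rfl (fun z _ hz => mem_iInter.1 hz i), hf0⟩

theorem Cut.inter {W Z Y : Set E} (h : Cut W Z) (h' : Cut W Y) : Cut W (Z ∩ Y) := by
  intro y hy hyZ
  by_cases h1 : y ∈ Z
  · obtain ⟨f, hf, hf0⟩ := h' y hy (fun h2 => hyZ ⟨h1, h2⟩)
    exact ⟨f, hf.mono Subset.rfl (fun z _ hz => hz.2), hf0⟩
  · obtain ⟨f, hf, hf0⟩ := h y hy h1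
    exact ⟨f, hf.mono Subset.rfl (fun z _ hz => hz.1), hf0⟩

theorem Cut.union {W Z Y : Set E} (h : Cut W Z) (h' : Cut W Y) : Cut W (Z ∪ Y) := by
  intro y hy hyZ
  rw [mem_union, not_or] at hyZ
  obtain ⟨f, hf, hf0⟩ := h y hy hyZ.1
  obtain ⟨g, hg, hg0⟩ := h' y hy hyZ.2
  refine ⟨fun x => f x * g x, ⟨fun x hx => (hf.1 x hx).mul (hg.1 x hx), fun z hz hz' => ?_⟩,
    mul_ne_zero hf0 hg0⟩
  rcases hz' with h1 | h1
  · simp [hf.2 z hz h1]
  · simp [hg.2 z hz h1]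

theorem cut_biUnion {ι : Type*} {W : Set E} {t : Set ι} (ht : t.Finite) {Z : ι → Set E}
    (h : ∀ i ∈ t, Cut W (Z i)) : Cut W (⋃ i ∈ t, Z i) := by
  induction t, ht using Set.Finite.induction_on with
  | empty => simpa using cut_empty W
  | @insert a s _ _ ih =>
    rw [biUnion_insert]
    exact (h a (mem_insert _ _)).union (ih fun i hi => h i (mem_insert_of_mem _ hi))

theorem Cut.preimage {W Z : Set F} (h : Cut W Z) {W' : Set E} {g : E → F}
    (hg : AnalyticOnNhd ℂ g W') (hm : MapsTo g W' W) : Cut W' (g ⁻¹' Z) := by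
  intro y hy hyZ
  obtain ⟨f, hf, hf0⟩ := h (g y) (hm hy) hyZ
  exact ⟨_, hf.comp hg hm, hf0⟩

/-- zero set of one function -/
theorem cut_zero {W : Set E} {f : E → ℂ} (hf : AnalyticOnNhd ℂ f W) : Cut W {y | f y = 0} :=
  fun _ _ hy => ⟨f, ⟨hf, fun _ _ hz => hz⟩, hy⟩

/-- common zeros of a family -/
theorem cut_zeros {ι : Sort*} {W : Set E} {f : ι → E → ℂ} (hf : ∀ i, AnalyticOnNhd ℂ (f i) W) :
    Cut W {y | ∀ i, f i y = 0} := by
  rw [ofPred_forall]
  exact cut_iInter fun i => cut_zero (hf i)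

/-- coincidence set of two maps -/
theorem cut_eq {W : Set E} {f g : E → F} (hf : AnalyticOnNhd ℂ f W) (hg : AnalyticOnNhd ℂ g W) :
    Cut W {y | f y = g y} := by
  intro y hy hyZ
  have h1 : f y - g y ≠ 0 := sub_ne_zero.2 hyZ
  obtain ⟨μ, -, hμ⟩ := exists_dual_vector ℂ (f y - g y) (norm_ne_zero_iff.2 h1)
  refine ⟨fun x => μ (f x - g x), ⟨fun x hx => ?_, fun z _ hz => ?_⟩, ?_⟩
  · exact (μ.analyticAt _).comp ((hf x hx).sub (hg x hx))
  · have : f z = g z := hz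
    simp [this]
  · show μ (f y - g y) ≠ 0
    rw [hμ]
    exact RCLike.ofReal_ne_zero.2 (norm_ne_zero_iff.2 h1)

theorem cut_singleton (W : Set E) (a : E) : Cut W {a} :=
  cut_eq (f := fun y => y) (g := fun _ => a) (fun _ _ => analyticAt_id) (fun _ _ => analyticAt_const)

/-- one function which vanishes on `Z` and at no point of a finite set outside `Z` -/
theorem Cut.exists_ne {W Z : Set E} (h : Cut W Z) {T : Set E} (hT : T.Finite)
    (hTW : ∀ y ∈ T, y ∈ W ∧ y ∉ Z) : ∃ f, Van W Z f ∧ ∀ y ∈ T, f y ≠ 0 := by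
  induction T, hT using Set.Finite.induction_on with
  | empty => exact ⟨_, van_zero W Z, fun _ h => h.elim⟩
  | @insert a s _ hs ih =>
    obtain ⟨f, hf, hf0⟩ := ih fun y hy => hTW y (mem_insert_of_mem _ hy)
    obtain ⟨g, hg, hg0⟩ := h a (hTW a (mem_insert _ _)).1 (hTW a (mem_insert _ _)).2
    have hfin : ((fun y => - f y / g y) '' insert a s).Finite := (hs.insert a).image _
    obtain ⟨t, ht⟩ := hfin.infinite_compl.nonempty
    refine ⟨fun x => f x + t * g x, hf.add (hg.mul_left (fun _ _ => analyticAt_const)), ?_⟩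
    intro y hy h0
    by_cases hgy : g y = 0
    · rcases hy with rfl | hy
      · exact hg0 hgy
      · apply hf0 y hy
        simpa [hgy] using h0
    · apply ht
      refine ⟨y, hy, ?_⟩
      field_simp
      linear_combination -h0

theorem Cut.mem_of_closure {W Z : Set E} (h : Cut W Z) {y : E} (hW : W ∈ 𝓝 y)
    (hy : y ∈ closure Z) : y ∈ Z := by
  by_contra hn
  obtain ⟨f, hf, hf0⟩ := h y (mem_of_mem_nhds hW) hn
  have h1 : ∀ᶠ z in 𝓝 y, f z ≠ 0 :=
    (hf.1 y (mem_of_mem_nhds hW)).continuousAt.eventually_ne hf0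
  obtain ⟨z, ⟨hz1, hz2⟩, hz3⟩ := mem_closure_iff_nhds.1 hy _ (inter_mem h1 hW)
  exact hz1 (hf.2 z hz2 hz3)

theorem Cut.anAt {W Z : Set E} (h : Cut W Z) {x : E} (hW : W ∈ 𝓝 x) : AnAt Z x :=
  ⟨interior W, isOpen_interior, mem_interior_iff_mem_nhds.2 hW, h.mono interior_subset⟩

theorem Cut.an {W Z : Set E} (h : Cut W Z) (hW : IsOpen W) : An W Z :=
  fun _ hx => h.anAt (hW.mem_nhds hx)

/-- shrinking the neighbourhood -/
theorem AnAt.exists_sub {Z : Set E} {x : E} (h : AnAt Z x) {N : Set E} (hN : N ∈ 𝓝 x) :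
    ∃ W : Set E, IsOpen W ∧ x ∈ W ∧ W ⊆ N ∧ Cut W Z := by
  obtain ⟨W, hW, hx, hc⟩ := h
  exact ⟨W ∩ interior N, hW.inter isOpen_interior, ⟨hx, mem_interior_iff_mem_nhds.2 hN⟩,
    fun y hy => interior_subset hy.2, hc.mono inter_subset_left⟩

theorem AnAt.exists_ball {Z : Set E} {x : E} (h : AnAt Z x) {N : Set E} (hN : N ∈ 𝓝 x) :
    ∃ r > 0, Metric.ball x r ⊆ N ∧ Cut (Metric.ball x r) Z := by
  obtain ⟨W, hW, hx, hWN, hc⟩ := h.exists_sub hN
  obtain ⟨r, hr, hb⟩ := Metric.isOpen_iff.1 hW x hx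
  exact ⟨r, hr, hb.trans hWN, hc.mono hb⟩

theorem AnAt.congr {Z Z' : Set E} {x : E} (h : AnAt Z x) (hZ : ∀ᶠ y in 𝓝 x, y ∈ Z ↔ y ∈ Z') :
    AnAt Z' x := by
  obtain ⟨W, hW, hx, hWN, hc⟩ := h.exists_sub hZ
  exact ⟨W, hW, hx, hc.congr fun y hy => hWN hy⟩

theorem AnAt.eventually {Z : Set E} {x : E} (h : AnAt Z x) : ∀ᶠ y in 𝓝 x, AnAt Z y := by
  obtain ⟨W, hW, hx, hc⟩ := h
  filter_upwards [hW.mem_nhds hx] with y hy using ⟨W, hW, hy, hc⟩

theorem isOpen_anAt (Z : Set E) : IsOpen {x | AnAt Z x} :=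
  isOpen_iff_mem_nhds.2 fun _ hx => AnAt.eventually hx

theorem AnAt.inter {Z Y : Set E} {x : E} (h : AnAt Z x) (h' : AnAt Y x) : AnAt (Z ∩ Y) x := by
  obtain ⟨W, hW, hx, hc⟩ := h
  obtain ⟨W', hW', hx', hc'⟩ := h'
  exact ⟨W ∩ W', hW.inter hW', ⟨hx, hx'⟩,
    (hc.mono inter_subset_left).inter (hc'.mono inter_subset_right)⟩

theorem AnAt.union {Z Y : Set E} {x : E} (h : AnAt Z x) (h' : AnAt Y x) : AnAt (Z ∪ Y) x := by
  obtain ⟨W, hW, hx, hc⟩ := h
  obtain ⟨W', hW', hx', hc'⟩ := h'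
  exact ⟨W ∩ W', hW.inter hW', ⟨hx, hx'⟩,
    (hc.mono inter_subset_left).union (hc'.mono inter_subset_right)⟩

theorem anAt_empty (x : E) : AnAt ∅ x := (cut_empty univ).anAt univ_mem

theorem anAt_univ (x : E) : AnAt univ x := (cut_univ univ).anAt univ_mem

theorem anAt_singleton (a x : E) : AnAt {a} x := (cut_singleton univ a).anAt univ_mem

theorem anAt_of_notMem {Z : Set E} {x : E} (h : ∀ᶠ y in 𝓝 x, y ∉ Z) : AnAt Z x :=
  (anAt_empty x).congr (h.mono fun _ hy => ⟨fun h => h.elim, fun h => (hy h).elim⟩)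

theorem anAt_of_notMem_closure {Z : Set E} {x : E} (h : x ∉ closure Z) : AnAt Z x := by
  refine anAt_of_notMem ?_
  filter_upwards [isClosed_closure.isOpen_compl.mem_nhds h] with y hy hyZ
  exact hy (subset_closure hyZ)

theorem anAt_of_mem {Z : Set E} {x : E} (h : Z ∈ 𝓝 x) : AnAt Z x :=
  (cut_of_subset Subset.rfl).anAt h

theorem anAt_biUnion {ι : Type*} {t : Set ι} (ht : t.Finite) {Z : ι → Set E} {x : E}
    (h : ∀ i ∈ t, AnAt (Z i) x) : AnAt (⋃ i ∈ t, Z i) x := by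
  induction t, ht using Set.Finite.induction_on with
  | empty => simpa using anAt_empty x
  | @insert a s _ _ ih =>
    rw [biUnion_insert]
    exact (h a (mem_insert _ _)).union (ih fun i hi => h i (mem_insert_of_mem _ hi))

theorem anAt_biInter {ι : Type*} {t : Set ι} (ht : t.Finite) {Z : ι → Set E} {x : E}
    (h : ∀ i ∈ t, AnAt (Z i) x) : AnAt (⋂ i ∈ t, Z i) x := by
  induction t, ht using Set.Finite.induction_on with
  | empty => simpa using anAt_univ x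
  | @insert a s _ _ ih =>
    rw [biInter_insert]
    exact (h a (mem_insert _ _)).inter (ih fun i hi => h i (mem_insert_of_mem _ hi))

theorem AnAt.preimage [CompleteSpace F] {Z : Set F} {x : E} {f : E → F} (hf : AnalyticAt ℂ f x)
    (h : AnAt Z (f x)) : AnAt (f ⁻¹' Z) x := by
  obtain ⟨W, hW, hx, hc⟩ := h
  have h1 : {y | AnalyticAt ℂ f y ∧ f y ∈ W} ∈ 𝓝 x :=
    hf.eventually_analyticAt.and (hf.continuousAt.preimage_mem_nhds (hW.mem_nhds hx))
  exact (hc.preimage (fun y hy => hy.1) (fun y hy => hy.2)).anAt h1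

theorem anAt_eq [CompleteSpace F] {x : E} {f g : E → F} (hf : AnalyticAt ℂ f x) (hg : AnalyticAt ℂ g x) :
    AnAt {y | f y = g y} x :=
  (cut_eq (W := {y | AnalyticAt ℂ f y ∧ AnalyticAt ℂ g y}) (fun _ h => h.1) (fun _ h => h.2)).anAt
    (hf.eventually_analyticAt.and hg.eventually_analyticAt)

theorem AnAt.prod [CompleteSpace E] [CompleteSpace F] {Z : Set E} {Y : Set F} {x : E} {y : F} (h : AnAt Z x) (h' : AnAt Y y) :
    AnAt (Z ×ˢ Y) (x, y) :=
  (AnAt.preimage (f := Prod.fst) analyticAt_fst h).inter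
    (AnAt.preimage (f := Prod.snd) analyticAt_snd h')

theorem AnAt.mem_of_closure {Z : Set E} {x : E} (h : AnAt Z x) (hx : x ∈ closure Z) : x ∈ Z := by
  obtain ⟨W, hW, hxW, hc⟩ := h
  exact hc.mem_of_closure (hW.mem_nhds hxW) hx

theorem AnAt.eventually_notMem {Z : Set E} {x : E} (h : AnAt Z x) (hx : x ∉ Z) :
    ∀ᶠ y in 𝓝 x, y ∉ Z := by
  have h1 : x ∉ closure Z := fun h' => hx (h.mem_of_closure h')
  filter_upwards [isClosed_closure.isOpen_compl.mem_nhds h1] with y hy hyZ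
  exact hy (subset_closure hyZ)

theorem An.mono {U U' Z : Set E} (h : An U Z) (hU : U' ⊆ U) : An U' Z := fun x hx => h x (hU hx)

theorem An.isOpen_diff {U Z : Set E} (h : An U Z) (hU : IsOpen U) : IsOpen (U \ Z) :=
  isOpen_iff_mem_nhds.2 fun x hx => inter_mem (hU.mem_nhds hx.1) ((h x hx.1).eventually_notMem hx.2)

end Crest.Agent.X261.Ans
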