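import Crest.Agent.X261.Ans.Cov
import Crest.Agent.X261.Ans.Cut

/-!
# X261/Ans/Reg (helper4): regular points of a set, local and global identity theorems
-/

set_option autoImplicit false
set_option linter.unusedSectionVars false

open Set Filter Topology Module Metric
open scoped ContDiff

namespace Crest.Agent.X261.Ans

variable {E F V : Type} [NormedAddCommGroup E] [NormedSpace ℂ E] [FiniteDimensional ℂ E]
  [NormedAddCommGroup F] [NormedSpace ℂ F] [FiniteDimensional ℂ F]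
  [NormedAddCommGroup V] [NormedSpace ℂ V] [FiniteDimensional ℂ V]

namespace Rg

/-- analytic inverse function theorem -/
theorem exists_inv {G : E → F} {x : E} (hG : AnalyticAt ℂ G x)
    (hi : Function.Injective (fderiv ℂ G x)) (hd : finrank ℂ E = finrank ℂ F) :
    ∃ H : F → E, AnalyticAt ℂ H (G x) ∧ (∀ᶠ y in 𝓝 x, H (G y) = y) ∧
      ∀ᶠ t in 𝓝 (G x), G (H t) = t := by
  have : CompleteSpace E := FiniteDimensional.complete ℂ E
  have : CompleteSpace F := FiniteDimensional.complete ℂ F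
  let L : E ≃L[ℂ] F := (LinearMap.linearEquivOfInjective (fderiv ℂ G x : E →ₗ[ℂ] F) hi
    hd).toContinuousLinearEquiv
  have hT' : HasFDerivAt G (L : E →L[ℂ] F) x := by
    have h4 : (L : E →L[ℂ] F) = fderiv ℂ G x := by ext y; rfl
    rw [h4]; exact hG.differentiableAt.hasFDerivAt
  have hTc : ContDiffAt ℂ ω G x := hG.contDiffAt
  let H : OpenPartialHomeomorph E F := hTc.toOpenPartialHomeomorph G hT' (by simp)
  have hHq : x ∈ H.source := hTc.mem_toOpenPartialHomeomorph_source hT' (by simp)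
  have hHt : G x ∈ H.target := hTc.image_mem_toOpenPartialHomeomorph_target hT' (by simp)
  refine ⟨H.symm, (hTc.to_localInverse hT' (by simp)).analyticAt, ?_, ?_⟩
  · filter_upwards [H.open_source.mem_nhds hHq] with y hy using H.left_inv hy
  · filter_upwards [H.open_target.mem_nhds hHt] with t ht using H.right_inv ht

/-- completing a linear surjection to an isomorphism -/
theorem exists_compl {T : E →L[ℂ] F} (hs : Function.Surjective T) :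
    ∃ (s : ℕ) (L : E →L[ℂ] (Fin s → ℂ)), finrank ℂ F + s = finrank ℂ E ∧
      ∀ v, T v = 0 → L v = 0 → v = 0 := by
  let K : Submodule ℂ E := LinearMap.ker (T : E →ₗ[ℂ] F)
  obtain ⟨pr, hpr⟩ : ∃ pr : E →L[ℂ] K, ∀ x : K, pr x = x :=
    Submodule.ClosedComplemented.of_finiteDimensional K
  let e : K ≃L[ℂ] (Fin (finrank ℂ K) → ℂ) := ContinuousLinearEquiv.ofFinrankEq (by simp)
  refine ⟨finrank ℂ K, (e : K →L[ℂ] _).comp pr, ?_, fun v h1 h2 => ?_⟩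
  · have h := LinearMap.finrank_range_add_finrank_ker (T : E →ₗ[ℂ] F)
    have h2 : LinearMap.range (T : E →ₗ[ℂ] F) = ⊤ := LinearMap.range_eq_top.2 hs
    rw [h2, finrank_top] at h
    exact h
  · have h3 : pr v = 0 := by simpa using h2
    have h4 : pr ((⟨v, h1⟩ : K) : E) = ⟨v, h1⟩ := hpr ⟨v, h1⟩
    have h5 : (⟨v, h1⟩ : K) = 0 := by rw [← h4]; exact h3
    exact congrArg Subtype.val h5

/-- derivative of a local section -/
theorem fderiv_comp_eq {φ : V → E} {ρ : E → V} {t : V} (hφ : AnalyticAt ℂ φ t)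
    (hρ : AnalyticAt ℂ ρ (φ t)) (h : ∀ᶠ s in 𝓝 t, ρ (φ s) = s) (v : V) :
    fderiv ℂ ρ (φ t) (fderiv ℂ φ t v) = v := by
  have h1 := hρ.differentiableAt.hasFDerivAt.comp t hφ.differentiableAt.hasFDerivAt
  have h2 : HasFDerivAt (ρ ∘ φ) (ContinuousLinearMap.id ℂ V) t :=
    (hasFDerivAt_id t).congr_of_eventuallyEq h
  exact DFunLike.congr_fun (h1.unique h2) v

/-- removing a locally non-separating nowhere dense set keeps connectedness -/
theorem preconnected_diff_of_local {X : Type*} [TopologicalSpace X] {C A : Set X}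
    (hc : IsPreconnected C)
    (h : ∀ y ∈ C, ∃ N : Set X, IsOpen N ∧ y ∈ N ∧ IsPreconnected ((C ∩ N) \ A) ∧
      C ∩ N ⊆ closure ((C ∩ N) \ A)) : IsPreconnected (C \ A) := by
  choose! N hNo hyN hNc hNd using h
  rintro u v hu hv huv ⟨a, ha, hau⟩ ⟨b, hb, hbv⟩
  by_contra hne
  have hdis : ∀ z ∈ C \ A, z ∈ u → z ∉ v := fun z hz h1 h2 => hne ⟨z, hz, h1, h2⟩
  have hd : ∀ y ∈ C, (C ∩ N y) \ A ⊆ u ∨ (C ∩ N y) \ A ⊆ v := by
    intro y hy
    by_contra hcon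
    rw [not_or, not_subset, not_subset] at hcon
    obtain ⟨⟨p, hp, hpu⟩, ⟨q, hq, hqv⟩⟩ := hcon
    have hsub : (C ∩ N y) \ A ⊆ u ∪ v := fun z hz => huv ⟨hz.1.1, hz.2⟩
    obtain ⟨z, hz, h1, h2⟩ := hNc y hy u v hu hv hsub
      ⟨q, hq, (hsub hq).resolve_right hqv⟩ ⟨p, hp, (hsub hp).resolve_left hpu⟩
    exact hdis z ⟨hz.1.1, hz.2⟩ h1 h2
  let u' : Set X := ⋃ y ∈ {y | y ∈ C ∧ (C ∩ N y) \ A ⊆ u}, N y
  let v' : Set X := ⋃ y ∈ {y | y ∈ C ∧ (C ∩ N y) \ A ⊆ v}, N y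
  have hu' : IsOpen u' := isOpen_biUnion fun y hy => hNo y hy.1
  have hv' : IsOpen v' := isOpen_biUnion fun y hy => hNo y hy.1
  have hcov : C ⊆ u' ∪ v' := fun y hy => (hd y hy).imp
    (fun h => mem_biUnion (show y ∈ {y | y ∈ C ∧ (C ∩ N y) \ A ⊆ u} from ⟨hy, h⟩) (hyN y hy))
    (fun h => mem_biUnion (show y ∈ {y | y ∈ C ∧ (C ∩ N y) \ A ⊆ v} from ⟨hy, h⟩) (hyN y hy))
  have ha' : a ∈ u' := by
    refine mem_biUnion (show a ∈ {y | y ∈ C ∧ (C ∩ N y) \ A ⊆ u} from ⟨ha.1, ?_⟩) (hyN a ha.1)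
    exact (hd a ha.1).resolve_right fun h => hdis a ha hau (h ⟨⟨ha.1, hyN a ha.1⟩, ha.2⟩)
  have hb' : b ∈ v' := by
    refine mem_biUnion (show b ∈ {y | y ∈ C ∧ (C ∩ N y) \ A ⊆ v} from ⟨hb.1, ?_⟩) (hyN b hb.1)
    exact (hd b hb.1).resolve_left fun h => hdis b hb (h ⟨⟨hb.1, hyN b hb.1⟩, hb.2⟩) hbv
  obtain ⟨z, hz, hzu, hzv⟩ := hc u' v' hu' hv' hcov ⟨a, ha.1, ha'⟩ ⟨b, hb.1, hb'⟩
  obtain ⟨y₁, hy₁, hz₁⟩ := mem_iUnion₂.1 hzu
  obtain ⟨y₂, hy₂, hz₂⟩ := mem_iUnion₂.1 hzv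
  obtain ⟨w, hw₂, hw₁⟩ := mem_closure_iff.1 (hNd y₁ hy₁.1 ⟨hz, hz₁⟩) _ (hNo y₂ hy₂.1) hz₂
  exact hdis w ⟨hw₁.1.1, hw₁.2⟩ (hy₁.2 hw₁) (hy₂.2 ⟨⟨hw₁.1.1, hw₂⟩, hw₁.2⟩)

end Rg

theorem Reg.mem {Z : Set E} {d : ℕ} {x : E} (h : Reg Z d x) : x ∈ Z := h.1

/-- a regular point has a neighbourhood `N` with `Z ∩ N` parametrised by a ball -/
theorem Reg.chart {Z : Set E} {d : ℕ} {x : E} (h : Reg Z d x) {W : Set E} (hW : W ∈ 𝓝 x) :
    ∃ (φ : (Fin d → ℂ) → E) (ρ : E → Fin d → ℂ) (r : ℝ) (N : Set E), 0 < r ∧ IsOpen N ∧ x ∈ N ∧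
      N ⊆ W ∧ AnalyticOnNhd ℂ φ (ball (ρ x) r) ∧ AnalyticOnNhd ℂ ρ N ∧
      (∀ t ∈ ball (ρ x) r, φ t ∈ Z ∧ φ t ∈ N ∧ ρ (φ t) = t) ∧
      ∀ y ∈ N, ρ y ∈ ball (ρ x) r ∧ (y ∈ Z → φ (ρ y) = y) := by
  have : CompleteSpace E := FiniteDimensional.complete ℂ E
  obtain ⟨hx, φ, ρ, hφ, hρ, h1, h2⟩ := h
  have hφx : φ (ρ x) = x := h2.self_of_nhds hx
  obtain ⟨N₀, hN₀, hN₀o, hxN₀⟩ := _root_.eventually_nhds_iff.1
    (hρ.eventually_analyticAt.and (h2.and (show ∀ᶠ y in 𝓝 x, y ∈ W from hW)))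
  have ht : Tendsto φ (𝓝 (ρ x)) (𝓝 x) := by
    have := hφ.continuousAt.tendsto
    rwa [hφx] at this
  obtain ⟨r, hr, hb⟩ := Metric.eventually_nhds_iff_ball.1
    (hφ.eventually_analyticAt.and (h1.and (ht.eventually (hN₀o.mem_nhds hxN₀))))
  have hρc : ContinuousOn ρ N₀ := fun y hy => (hN₀ y hy).1.continuousAt.continuousWithinAt
  refine ⟨φ, ρ, r, N₀ ∩ ρ ⁻¹' ball (ρ x) r, hr, hρc.isOpen_inter_preimage hN₀o isOpen_ball,
    ⟨hxN₀, mem_ball_self hr⟩, fun y hy => (hN₀ y hy.1).2.2, fun t ht => (hb t ht).1,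
    fun y hy => (hN₀ y hy.1).1, fun t ht => ⟨(hb t ht).2.1.1, ⟨(hb t ht).2.2, ?_⟩, (hb t ht).2.1.2⟩,
    fun y hy => ⟨hy.2, (hN₀ y hy.1).2.1⟩⟩
  rw [mem_preimage, (hb t ht).2.1.2]
  exact ht

theorem Reg.congr {Z Z' : Set E} {d : ℕ} {x : E} (h : Reg Z d x)
    (hZ : ∀ᶠ y in 𝓝 x, y ∈ Z ↔ y ∈ Z') : Reg Z' d x := by
  obtain ⟨hx, φ, ρ, hφ, hρ, h1, h2⟩ := h
  have hφx : φ (ρ x) = x := h2.self_of_nhds hx
  have ht : Tendsto φ (𝓝 (ρ x)) (𝓝 x) := by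
    have := hφ.continuousAt.tendsto
    rwa [hφx] at this
  refine ⟨hZ.self_of_nhds.1 hx, φ, ρ, hφ, hρ, ?_, ?_⟩
  · filter_upwards [h1, ht.eventually hZ] with t h3 h4 using ⟨h4.1 h3.1, h3.2⟩
  · filter_upwards [h2, hZ] with y h3 h4 hy using h3 (h4.2 hy)

theorem reg_congr {Z Z' : Set E} {d : ℕ} {x : E} (hZ : ∀ᶠ y in 𝓝 x, y ∈ Z ↔ y ∈ Z') :
    Reg Z d x ↔ Reg Z' d x :=
  ⟨fun h => h.congr hZ, fun h => h.congr (hZ.mono fun _ h => h.symm)⟩

theorem Reg.inter_nhds {Z N : Set E} {d : ℕ} {x : E} (h : Reg Z d x) (hN : N ∈ 𝓝 x) :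
    Reg (Z ∩ N) d x :=
  h.congr (by filter_upwards [hN] with y hy using ⟨fun h => ⟨h, hy⟩, fun h => h.1⟩)

theorem Reg.eventually {Z : Set E} {d : ℕ} {x : E} (h : Reg Z d x) :
    ∀ᶠ y in 𝓝 x, y ∈ Z → Reg Z d y := by
  obtain ⟨φ, ρ, r, N, hr, hN, hx, -, hφ, hρ, h1, h2⟩ := h.chart univ_mem
  filter_upwards [hN.mem_nhds hx] with y hy hyZ
  refine ⟨hyZ, φ, ρ, hφ _ (h2 y hy).1, hρ y hy, ?_, ?_⟩
  · filter_upwards [isOpen_ball.mem_nhds (h2 y hy).1] with t ht using ⟨(h1 t ht).1, (h1 t ht).2.2⟩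
  · filter_upwards [hN.mem_nhds hy] with z hz using (h2 z hz).2

theorem Reg.of_param {Z : Set E} {x : E} (hx : x ∈ Z) {φ : V → E} {ρ : E → V}
    (hφ : AnalyticAt ℂ φ (ρ x)) (hρ : AnalyticAt ℂ ρ x)
    (h1 : ∀ᶠ t in 𝓝 (ρ x), φ t ∈ Z ∧ ρ (φ t) = t) (h2 : ∀ᶠ y in 𝓝 x, y ∈ Z → φ (ρ y) = y) :
    Reg Z (finrank ℂ V) x := by
  let e : V ≃L[ℂ] (Fin (finrank ℂ V) → ℂ) := ContinuousLinearEquiv.ofFinrankEq (by simp)
  have ht : Tendsto e.symm (𝓝 (e (ρ x))) (𝓝 (ρ x)) := by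
    simpa using e.symm.continuous.tendsto (e (ρ x))
  refine ⟨hx, fun t => φ (e.symm t), fun y => e (ρ y), ?_, (e.analyticAt _).comp hρ, ?_, ?_⟩
  · exact AnalyticAt.comp (g := φ) (f := e.symm) (by simpa using hφ) (e.symm.analyticAt _)
  · filter_upwards [ht.eventually h1] with t h3
    exact ⟨h3.1, by rw [h3.2, e.apply_symm_apply]⟩
  · filter_upwards [h2] with y h3 hy
    rw [e.symm_apply_apply, h3 hy]

theorem Reg.of_subm {Z : Set E} {x : E} {g : E → F} (hg : AnalyticAt ℂ g x)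
    (hs : Function.Surjective (fderiv ℂ g x)) (hZ : ∀ᶠ y in 𝓝 x, y ∈ Z ↔ g y = g x) {d : ℕ}
    (hd : finrank ℂ F + d = finrank ℂ E) : Reg Z d x := by
  obtain ⟨s, L, hsd, hL⟩ := Rg.exists_compl hs
  obtain rfl : s = d := by omega
  have hG : AnalyticAt ℂ (fun y => (g y, L y)) x := hg.prod (L.analyticAt x)
  have hG' : HasFDerivAt (fun y => (g y, L y)) ((fderiv ℂ g x).prod L) x :=
    hg.differentiableAt.hasFDerivAt.prodMk L.hasFDerivAt
  obtain ⟨H, hH, h1, h2⟩ := Rg.exists_inv hG (by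
      rw [hG'.fderiv, injective_iff_map_eq_zero]
      exact fun v hv => hL v (congrArg Prod.fst hv) (congrArg Prod.snd hv))
    (by rw [finrank_prod, ← hd]; simp)
  have hι : AnalyticAt ℂ (fun t : Fin s → ℂ => (g x, t)) (L x) :=
    analyticAt_const.prod analyticAt_id
  have hφ : AnalyticAt ℂ (fun t => H (g x, t)) (L x) :=
    AnalyticAt.comp (g := H) (f := fun t : Fin s → ℂ => (g x, t)) hH hι
  have ht : Tendsto (fun t => H (g x, t)) (𝓝 (L x)) (𝓝 x) := by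
    have := hφ.continuousAt.tendsto
    rwa [h1.self_of_nhds] at this
  refine ⟨hZ.self_of_nhds.2 rfl, fun t => H (g x, t), L, hφ, L.analyticAt x, ?_, ?_⟩
  · filter_upwards [hι.continuousAt.tendsto.eventually h2, ht.eventually hZ] with t h3 h4
    exact ⟨h4.2 (congrArg Prod.fst h3), congrArg Prod.snd h3⟩
  · filter_upwards [h1, hZ] with y h3 h4 hy
    rw [← h4.1 hy, h3]

theorem Reg.exists_subm {Z : Set E} {d : ℕ} {x : E} (h : Reg Z d x) :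
    ∃ (c : ℕ) (g : E → Fin c → ℂ), c + d = finrank ℂ E ∧ AnalyticAt ℂ g x ∧
      Function.Surjective (fderiv ℂ g x) ∧ ∀ᶠ y in 𝓝 x, y ∈ Z ↔ g y = 0 := by
  obtain ⟨hx, φ, ρ, hφ, hρ, h1, h2⟩ := h
  have hφx : φ (ρ x) = x := h2.self_of_nhds hx
  have hid : ∀ v, fderiv ℂ ρ x (fderiv ℂ φ (ρ x) v) = v := by
    intro v
    have := Rg.fderiv_comp_eq hφ (by rw [hφx]; exact hρ) (h1.mono fun _ h => h.2) v
    rwa [hφx] at this
  obtain ⟨c, L, hcd, hL⟩ := Rg.exists_compl (T := fderiv ℂ ρ x) fun v => ⟨_, hid v⟩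
  have hcd' : c + d = finrank ℂ E := by rw [← hcd]; simp [add_comm]
  have hP : AnalyticAt ℂ (fun y => φ (ρ y)) x := AnalyticAt.comp (g := φ) hφ hρ
  have hg : AnalyticAt ℂ (fun y => L (y - φ (ρ y))) x :=
    AnalyticAt.comp (g := L) (L.analyticAt _) (analyticAt_id.sub hP)
  have hg' : HasFDerivAt (fun y => L (y - φ (ρ y))) (L.comp (ContinuousLinearMap.id ℂ E -
      (fderiv ℂ φ (ρ x)).comp (fderiv ℂ ρ x))) x :=
    L.hasFDerivAt.comp x ((hasFDerivAt_id x).sub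
      (hφ.differentiableAt.hasFDerivAt.comp x hρ.differentiableAt.hasFDerivAt))
  have hG := hρ.prod hg
  have hG' := hρ.differentiableAt.hasFDerivAt.prodMk hg'
  have hinj : Function.Injective (fderiv ℂ (fun y => (ρ y, L (y - φ (ρ y)))) x) := by
    rw [hG'.fderiv, injective_iff_map_eq_zero]
    intro v hv
    have h3 : fderiv ℂ ρ x v = 0 := congrArg Prod.fst hv
    have h4 : L (v - fderiv ℂ φ (ρ x) (fderiv ℂ ρ x v)) = 0 := congrArg Prod.snd hv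
    rw [h3, map_zero, sub_zero] at h4
    exact hL v h3 h4
  have hdim : finrank ℂ E = finrank ℂ ((Fin d → ℂ) × (Fin c → ℂ)) := by
    rw [finrank_prod, ← hcd']; simp [add_comm]
  obtain ⟨H, -, h3, -⟩ := Rg.exists_inv hG hinj hdim
  refine ⟨c, fun y => L (y - φ (ρ y)), hcd', hg, ?_, ?_⟩
  · have hsurj := (LinearMap.injective_iff_surjective_of_finrank_eq_finrank hdim
      (f := (fderiv ℂ (fun y => (ρ y, L (y - φ (ρ y)))) x : E →ₗ[ℂ] _))).1 hinj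
    intro w
    obtain ⟨v, hv⟩ := hsurj (0, w)
    refine ⟨v, ?_⟩
    rw [hG'.fderiv] at hv
    rw [hg'.fderiv]
    exact congrArg Prod.snd hv
  · have ht : Tendsto (fun y => φ (ρ y)) (𝓝 x) (𝓝 x) := by
      have := hP.continuousAt.tendsto
      rwa [hφx] at this
    filter_upwards [h2, h3, ht.eventually h3, hρ.continuousAt.tendsto.eventually h1]
      with y h4 h5 h6 h7
    refine ⟨fun hy => by rw [h4 hy, sub_self, map_zero], fun hy => ?_⟩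
    rw [h7.2, sub_self, map_zero, ← hy, h5] at h6
    rw [h6]
    exact h7.1

theorem Reg.le_finrank {Z : Set E} {d : ℕ} {x : E} (h : Reg Z d x) : d ≤ finrank ℂ E := by
  obtain ⟨c, -, hc, -⟩ := h.exists_subm
  omega

theorem Reg.anAt {Z : Set E} {d : ℕ} {x : E} (h : Reg Z d x) : AnAt Z x := by
  have : CompleteSpace E := FiniteDimensional.complete ℂ E
  obtain ⟨hx, φ, ρ, hφ, hρ, h1, h2⟩ := h
  refine (anAt_eq (f := fun y => φ (ρ y)) (g := fun y => y) (AnalyticAt.comp (g := φ) hφ hρ)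
    analyticAt_id).congr ?_
  filter_upwards [h2, hρ.continuousAt.tendsto.eventually h1] with y h3 h4
  exact ⟨fun hy => by rw [← show φ (ρ y) = y from hy]; exact h4.1, h3⟩

theorem Reg.cov {Z : Set E} {d : ℕ} {x : E} (h : Reg Z d x) :
    ∃ N ∈ 𝓝 x, Cov (d + 1) (Z ∩ N) := by
  obtain ⟨φ, ρ, r, N, hr, hN, hx, -, hφ, hρ, h1, h2⟩ := h.chart univ_mem
  refine ⟨N, hN.mem_nhds hx, (cov_img (by simp) isOpen_ball hφ).sub fun y hy => ?_⟩
  exact ⟨ρ y, (h2 y hy.2).1, (h2 y hy.2).2 hy.1⟩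

theorem Reg.not_cov {Z : Set E} {d : ℕ} {x : E} (h : Reg Z d x) {N : Set E} (hN : N ∈ 𝓝 x) :
    ¬ Cov d (Z ∩ N) := by
  obtain ⟨φ, ρ, r, N', hr, -, hx, hN', hφ, hρ, h1, h2⟩ := h.chart hN
  have hc := mem_ball_self (x := ρ x) hr
  have hi : Function.Injective (fderiv ℂ φ (ρ x)) :=
    Function.LeftInverse.injective (Rg.fderiv_comp_eq (hφ _ hc) (hρ _ (h1 _ hc).2.1)
      (by filter_upwards [isOpen_ball.mem_nhds hc] with t ht using (h1 t ht).2.2))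
  intro hcov
  refine not_cov_of_inj (hφ _ hc) hi (isOpen_ball.mem_nhds hc) ?_
  rw [finrank_fin_fun]
  refine hcov.sub ?_
  rintro _ ⟨t, ht, rfl⟩
  exact ⟨(h1 t ht).1, hN' (h1 t ht).2.1⟩

theorem Reg.le_of_cov {Z : Set E} {d k : ℕ} {x : E} (h : Reg Z d x) {N : Set E} (hN : N ∈ 𝓝 x)
    (hc : Cov (k + 1) (Z ∩ N)) : d ≤ k := by
  by_contra hlt
  exact h.not_cov hN (hc.mono (by omega))

theorem Reg.unique {Z : Set E} {d k : ℕ} {x : E} (h : Reg Z d x) (h' : Reg Z k x) : d = k := by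
  obtain ⟨N, hN, hc⟩ := h.cov
  obtain ⟨N', hN', hc'⟩ := h'.cov
  exact le_antisymm (h.le_of_cov hN' hc') (h'.le_of_cov hN hc)

theorem Reg.biholo {Z : Set E} {d : ℕ} {x : E} (h : Reg Z d x) {f : F → E} {g : E → F}
    (hg : AnalyticAt ℂ g x) (hf : AnalyticAt ℂ f (g x)) (h1 : ∀ᶠ y in 𝓝 x, f (g y) = y)
    (h2 : ∀ᶠ t in 𝓝 (g x), g (f t) = t) : Reg (f ⁻¹' Z) d (g x) := by
  obtain ⟨hx, φ, ρ, hφ, hρ, h3, h4⟩ := h
  have hφx : φ (ρ x) = x := h4.self_of_nhds hx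
  have hfg : f (g x) = x := h1.self_of_nhds
  have ht : Tendsto φ (𝓝 (ρ x)) (𝓝 x) := by
    have := hφ.continuousAt.tendsto
    rwa [hφx] at this
  have ht' : Tendsto f (𝓝 (g x)) (𝓝 x) := by
    have := hf.continuousAt.tendsto
    rwa [hfg] at this
  refine ⟨by rw [mem_preimage, hfg]; exact hx, fun t => g (φ t), fun s => ρ (f s), ?_, ?_, ?_, ?_⟩
  · simp only [hfg]
    exact AnalyticAt.comp (g := g) (by rw [hφx]; exact hg) hφ
  · exact AnalyticAt.comp (g := ρ) (by rw [hfg]; exact hρ) hf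
  · simp only [hfg]
    filter_upwards [h3, ht.eventually h1] with t h5 h6
    rw [mem_preimage, h6]
    exact h5
  · filter_upwards [h2, ht'.eventually h4] with s h5 h6 hs
    rw [h6 hs, h5]

theorem Reg.prod {Z : Set E} {Y : Set F} {d k : ℕ} {x : E} {y : F} (h : Reg Z d x)
    (h' : Reg Y k y) : Reg (Z ×ˢ Y) (d + k) (x, y) := by
  obtain ⟨hx, φ, ρ, hφ, hρ, h1, h2⟩ := h
  obtain ⟨hy, φ', ρ', hφ', hρ', h1', h2'⟩ := h'
  have key := Reg.of_param (Z := Z ×ˢ Y) (x := (x, y)) ⟨hx, hy⟩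
    (φ := fun t : (Fin d → ℂ) × (Fin k → ℂ) => (φ t.1, φ' t.2))
    (ρ := fun z => (ρ z.1, ρ' z.2))
    ((AnalyticAt.comp (g := φ) (f := Prod.fst) hφ analyticAt_fst).prod
      (AnalyticAt.comp (g := φ') (f := Prod.snd) hφ' analyticAt_snd))
    ((AnalyticAt.comp (g := ρ) (f := Prod.fst) hρ analyticAt_fst).prod
      (AnalyticAt.comp (g := ρ') (f := Prod.snd) hρ' analyticAt_snd))
    (by
      filter_upwards [(continuous_fst.tendsto (ρ x, ρ' y)).eventually h1,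
        (continuous_snd.tendsto (ρ x, ρ' y)).eventually h1'] with t h3 h4
      exact ⟨⟨h3.1, h4.1⟩, Prod.ext h3.2 h4.2⟩)
    (by
      filter_upwards [(continuous_fst.tendsto (x, y)).eventually h2,
        (continuous_snd.tendsto (x, y)).eventually h2'] with z h3 h4 hz
      exact Prod.ext (h3 hz.1) (h4 hz.2))
  simpa using key

theorem reg_univ (x : E) : Reg univ (finrank ℂ E) x :=
  Reg.of_param (φ := id) (ρ := id) (mem_univ x) analyticAt_id analyticAt_id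
    (Eventually.of_forall fun _ => ⟨mem_univ _, rfl⟩) (Eventually.of_forall fun _ _ => rfl)

theorem reg_of_mem_nhds {Z : Set E} {x : E} (h : Z ∈ 𝓝 x) : Reg Z (finrank ℂ E) x :=
  (reg_univ x).congr (by filter_upwards [h] with y hy using ⟨fun _ => hy, fun _ => mem_univ _⟩)

/-- a regular point of full dimension is an interior point -/
theorem Reg.mem_nhds {Z : Set E} {x : E} (h : Reg Z (finrank ℂ E) x) : Z ∈ 𝓝 x := by
  obtain ⟨c, g, hc, -, -, hZ⟩ := h.exists_subm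
  obtain rfl : c = 0 := by omega
  filter_upwards [hZ] with y hy using hy.2 (Subsingleton.elim _ _)

theorem reg_singleton (x : E) : Reg {x} 0 x :=
  ⟨rfl, fun _ => x, fun _ => 0, analyticAt_const, analyticAt_const,
    Eventually.of_forall fun _ => ⟨rfl, Subsingleton.elim _ _⟩,
    Eventually.of_forall fun _ hy => hy.symm⟩

theorem reg_zero_iff {Z : Set E} {x : E} : Reg Z 0 x ↔ x ∈ Z ∧ ∀ᶠ y in 𝓝 x, y ∈ Z → y = x := by
  constructor
  · rintro ⟨hx, φ, ρ, -, -, -, h2⟩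
    refine ⟨hx, h2.mono fun y hy hyZ => ?_⟩
    rw [← hy hyZ, Subsingleton.elim (ρ y) (ρ x), h2.self_of_nhds hx]
  · rintro ⟨hx, h⟩
    exact (reg_singleton x).congr (h.mono fun y hy => ⟨fun h' => h' ▸ hx, hy⟩)

/-- the graph of a holomorphic map -/
theorem reg_graph {h : E → F} {x : E} (hh : AnalyticAt ℂ h x) :
    Reg {p : E × F | p.2 = h p.1} (finrank ℂ E) (x, h x) :=
  Reg.of_param (φ := fun y => (y, h y)) (ρ := Prod.fst) rfl (analyticAt_id.prod hh) analyticAt_fst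
    (Eventually.of_forall fun _ => ⟨rfl, rfl⟩)
    (Eventually.of_forall fun _ hp => Prod.ext rfl (Eq.symm hp))

theorem Reg.locconn {C : Set E} {d : ℕ} {x : E} (h : Reg C d x) {W : Set E} (hW : W ∈ 𝓝 x) :
    ∃ N : Set E, IsOpen N ∧ x ∈ N ∧ N ⊆ W ∧ IsPreconnected (C ∩ N) := by
  obtain ⟨φ, ρ, r, N, hr, hN, hx, hNW, hφ, hρ, h1, h2⟩ := h.chart hW
  refine ⟨N, hN, hx, hNW, ?_⟩
  have : C ∩ N = φ '' ball (ρ x) r := by
    ext y
    exact ⟨fun hy => ⟨ρ y, (h2 y hy.2).1, (h2 y hy.2).2 hy.1⟩,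
      fun ⟨t, ht, e⟩ => e ▸ ⟨(h1 t ht).1, (h1 t ht).2.1⟩⟩
  rw [this]
  exact (convex_ball _ _).isPreconnected.image _ hφ.continuousOn

/-- local identity theorem, with control of the neighbourhood -/
theorem Reg.dich' {C A : Set E} {d : ℕ} {x : E} (h : Reg C d x) (hA : AnAt A x) {W : Set E}
    (hW : W ∈ 𝓝 x) : (∀ᶠ y in 𝓝 x, y ∈ C → y ∈ A) ∨ ∃ N : Set E, IsOpen N ∧ x ∈ N ∧ N ⊆ W ∧
      Cov d (C ∩ A ∩ N) ∧ IsPreconnected ((C ∩ N) \ A) ∧ C ∩ N ⊆ closure ((C ∩ N) \ A) := by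
  have : CompleteSpace E := FiniteDimensional.complete ℂ E
  obtain ⟨W', hW', hxW', hW'W, hcut⟩ := hA.exists_sub hW
  obtain ⟨φ, ρ, r, N, hr, hN, hx, hNW, hφ, hρ, h1, h2⟩ := h.chart (hW'.mem_nhds hxW')
  by_cases hall : ∀ t ∈ ball (ρ x) r, φ t ∈ A
  · left
    filter_upwards [hN.mem_nhds hx] with y hy hyC
    rw [← (h2 y hy).2 hyC]
    exact hall _ (h2 y hy).1
  right
  push Not at hall
  obtain ⟨t₀, ht₀, hA₀⟩ := hall
  obtain ⟨f, hf, hf0⟩ := hcut _ (hNW (h1 t₀ ht₀).2.1) hA₀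
  have hfφ : AnalyticOnNhd ℂ (fun t => f (φ t)) (ball (ρ x) r) := fun t ht =>
    AnalyticAt.comp (g := f) (hf.1 _ (hNW (h1 t ht).2.1)) (hφ t ht)
  have hS : Cov (finrank ℂ (Fin d → ℂ)) (ball (ρ x) r ∩ φ ⁻¹' A) :=
    (cov_zeros' isOpen_ball (convex_ball _ _).isPreconnected hfφ ht₀ hf0).sub
      fun t ht => ⟨ht.1, hf.2 _ (hNW (h1 t ht.1).2.1) ht.2⟩
  have han : An (ball (ρ x) r) (φ ⁻¹' A) := fun t ht =>
    AnAt.preimage (hφ t ht) (hcut.an hW' _ (hNW (h1 t ht).2.1))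
  have hop : IsOpen (ball (ρ x) r \ (ball (ρ x) r ∩ φ ⁻¹' A)) := by
    rw [sdiff_self_inter]; exact han.isOpen_diff isOpen_ball
  have himg : (C ∩ N) \ A = φ '' (ball (ρ x) r \ (ball (ρ x) r ∩ φ ⁻¹' A)) := by
    ext y
    constructor
    · intro hy
      refine ⟨ρ y, ⟨(h2 y hy.1.2).1, fun h' => hy.2 ?_⟩, (h2 y hy.1.2).2 hy.1.1⟩
      rw [← (h2 y hy.1.2).2 hy.1.1]
      exact h'.2
    · rintro ⟨t, ht, rfl⟩
      exact ⟨⟨(h1 t ht.1).1, (h1 t ht.1).2.1⟩, fun h' => ht.2 ⟨ht.1, h'⟩⟩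
  refine ⟨N, hN, hx, hNW.trans hW'W, ?_, ?_, ?_⟩
  · rw [finrank_fin_fun] at hS
    refine (hS.image fun t ht => hφ t ht.1).sub fun y hy => ?_
    refine ⟨ρ y, ⟨(h2 y hy.2).1, ?_⟩, (h2 y hy.2).2 hy.1.1⟩
    rw [mem_preimage, (h2 y hy.2).2 hy.1.1]
    exact hy.1.2
  · rw [himg]
    exact (preconnected_diff isOpen_ball (convex_ball _ _).isPreconnected hS hop).image _
      (hφ.continuousOn.mono sdiff_subset)
  · intro y hy
    rw [himg, ← (h2 y hy.2).2 hy.1]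
    refine mem_closure_image (hφ _ (h2 y hy.2).1).continuousAt ?_
    rw [sdiff_eq]
    exact hS.dense_compl.open_subset_closure_inter isOpen_ball (h2 y hy.2).1

/-- local identity theorem -/
theorem Reg.dich {C A : Set E} {d : ℕ} {x : E} (h : Reg C d x) (hA : AnAt A x) :
    (∀ᶠ y in 𝓝 x, y ∈ C → y ∈ A) ∨ ∃ N : Set E, IsOpen N ∧ x ∈ N ∧ Cov d (C ∩ A ∩ N) ∧
      IsPreconnected ((C ∩ N) \ A) ∧ C ∩ N ⊆ closure ((C ∩ N) \ A) :=
  (h.dich' hA univ_mem).imp id fun ⟨N, h1, h2, _, h3⟩ => ⟨N, h1, h2, h3⟩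

namespace Rg

/-- the topological skeleton of the identity theorem -/
theorem ident_top {X : Type*} [TopologicalSpace X] {C A : Set X} (hc : IsPreconnected C)
    (h : ∀ y ∈ C, (∀ᶠ z in 𝓝 y, z ∈ C → z ∈ A) ∨ ∀ᶠ z in 𝓝 y, z ∈ C → z ∈ closure (C \ A)) :
    C ⊆ A ∨ C ⊆ closure (C \ A) := by
  by_contra hcon
  rw [not_or, not_subset, not_subset] at hcon
  obtain ⟨⟨a, ha, haA⟩, ⟨b, hb, hbA⟩⟩ := hcon
  obtain ⟨z, hz, h1, h2⟩ := hc (interior {z | z ∈ C → z ∈ A})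
    (interior {z | z ∈ C → z ∈ closure (C \ A)}) isOpen_interior isOpen_interior
    (fun y hy => (h y hy).imp mem_interior_iff_mem_nhds.2 mem_interior_iff_mem_nhds.2)
    ⟨b, hb, mem_interior_iff_mem_nhds.2
      ((h b hb).resolve_right fun h' => hbA (h'.self_of_nhds hb))⟩
    ⟨a, ha, mem_interior_iff_mem_nhds.2
      ((h a ha).resolve_left fun h' => haA (h'.self_of_nhds ha))⟩
  obtain ⟨w, hw, hw'⟩ := mem_closure_iff.1 (interior_subset h2 hz) _ isOpen_interior h1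
  exact hw'.2 (interior_subset hw hw'.1)

end Rg

/-- global identity theorem -/
theorem ident {C A : Set E} {d : ℕ} (hc : IsPreconnected C) (h : ∀ y ∈ C, Reg C d y)
    (hA : An C A) :
    C ⊆ A ∨ (Cov d (C ∩ A) ∧ IsPreconnected (C \ A) ∧ C ⊆ closure (C \ A)) := by
  have hd := fun y hy => (h y hy).dich (hA y hy)
  refine (Rg.ident_top hc fun y hy => (hd y hy).imp id ?_).imp id fun hcl => ?_
  · rintro ⟨N, hN, hy, -, -, h3⟩
    filter_upwards [hN.mem_nhds hy] with z hz hzC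
    exact closure_mono (sdiff_subset_sdiff_left inter_subset_left) (h3 ⟨hzC, hz⟩)
  · have hd' := fun y hy => (hd y hy).resolve_left fun h' => by
      obtain ⟨w, hw, hw'⟩ := mem_closure_iff_nhds.1 (hcl hy) _ h'
      exact hw'.2 (hw hw'.1)
    refine ⟨cov_of_local fun y hy => ?_, Rg.preconnected_diff_of_local hc fun y hy => ?_, hcl⟩
    · obtain ⟨N, hN, hyN, h1, -⟩ := hd' y hy.1
      exact ⟨N, hN.mem_nhds hyN, h1⟩
    · obtain ⟨N, hN, hyN, -, h2⟩ := hd' y hy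
      exact ⟨N, hN, hyN, h2⟩

end Crest.Agent.X261.Ans
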