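import Crest.Agent.X261.Ans.ShB
import Crest.Agent.X261.Ans.Cov2

/-!
# X261/Ans/Shif (helper97): the Remmert-Stein-Shiffman theorem
-/

set_option autoImplicit false
set_option linter.unusedSectionVars false
set_option linter.unusedVariables false

open Set Filter Topology Module

namespace Crest.Agent.X261.Ans

variable {E : Type} [NormedAddCommGroup E] [NormedSpace ℂ E] [FiniteDimensional ℂ E]

/-- **Remmert-Stein-Shiffman** (closedness of `T` is not needed) -/
theorem shif' {A T U : Set E} {s : ℕ} (hU : IsOpen U) (hA : ∀ y ∈ U, y ∈ closure A → y ∈ A)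
    (hT : Cov s T) (hr : ∀ y ∈ U, y ∈ A → y ∉ T → Reg A s y) (hd : U ∩ A ⊆ closure (A \ T)) :
    An U A :=
  Sh.shif_of (fun h x => h.dense_slice x) hU hA hT hr hd

/-- Remmert-Stein-Shiffman -/
theorem shif {A T U : Set E} {s : ℕ} (hU : IsOpen U) (hA : ∀ y ∈ U, y ∈ closure A → y ∈ A)
    (hT : Cov s T) (hTc : ∀ y ∈ U, y ∈ closure T → y ∈ T)
    (hr : ∀ y ∈ U, y ∈ A → y ∉ T → Reg A s y) (hd : U ∩ A ⊆ closure (A \ T)) : An U A :=
  shif' hU hA hT hr hd

/-- closure form: `C` a set of regular points of dimension `s` whose frontier in `U` has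
dimension `< s`; then its closure is analytic in `U` -/
theorem shif_closure {C U : Set E} {s : ℕ} (hU : IsOpen U) (hr : ∀ y ∈ U, y ∈ C → Reg (closure C) s y)
    (hT : Cov s ((closure C ∩ U) \ C)) : An U (closure C) := by
  have h1 : C ⊆ closure C \ ((closure C ∩ U) \ C) := fun z hz => ⟨subset_closure hz, fun h => h.2 hz⟩
  refine shif' hU (fun y _ hy => by rwa [closure_closure] at hy) hT (fun y hy hyA hyT => ?_)
    (fun y hy => closure_mono h1 hy.2)
  exact hr y hy (by_contra fun hn => hyT ⟨⟨hyA, hy⟩, hn⟩)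

end Crest.Agent.X261.Ans
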