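import Crest.Agent.X261.Ans.Str
import Crest.Agent.X261.Ans.Reg
import Crest.Agent.X261.Ans.Shif

/-!
# X261/Ans/Dec (helper8): branched covers and the local decomposition theorem
-/

set_option autoImplicit false
set_option linter.unusedSectionVars false

open Set Filter Topology Metric Module

namespace Crest.Agent.X261.Ans

noncomputable section

variable {E F : Type} [NormedAddCommGroup E] [NormedSpace ℂ E] [FiniteDimensional ℂ E]
  [NormedAddCommGroup F] [NormedSpace ℂ F] [FiniteDimensional ℂ F]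

/-- over a neighbourhood of `t`, the part of `Z` in `B` is a finite union of sections of `f` -/
def MSheets (Z B : Set E) (f : E → F) (t : F) : Prop :=
  ∃ (T : Finset E) (S : E → F → E), (∀ w ∈ T, AnalyticAt ℂ (S w) t ∧ S w t = w) ∧
    ∀ᶠ s in 𝓝 t, ∀ y, (y ∈ B ∧ y ∈ Z ∧ f y = s) ↔ ∃ w ∈ T, S w s = y

/-- branched cover data of `Z` at `x` for the map `f` -/
structure MBox (Z : Set E) (f : E → F) (x : E) (s r : ℝ) (h : F → ℂ) : Prop where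
  hs : 0 < s
  hr : 0 < r
  fa : AnalyticOnNhd ℂ f (ball x r)
  cut : Cut (ball x r) Z
  ha : AnalyticOnNhd ℂ h (ball (f x) s)
  h0 : ∃ t ∈ ball (f x) s, h t ≠ 0
  half : ∀ y ∈ ball x r, y ∈ Z → f y ∈ ball (f x) s → y ∈ ball x (r / 2)
  fin : ∀ t ∈ ball (f x) s, {y | y ∈ ball x r ∧ y ∈ Z ∧ f y = t}.Finite
  bdd : ∃ m : ℕ, ∀ t ∈ ball (f x) s, {y | y ∈ ball x r ∧ y ∈ Z ∧ f y = t}.ncard ≤ m
  usc : ∀ N ∈ 𝓝 x, ∀ᶠ t in 𝓝 (f x), ∀ y ∈ ball x r, y ∈ Z → f y = t → y ∈ N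
  proj : ∀ Z', Cut (ball x r) Z' → (∀ y ∈ ball x r, y ∈ Z' → y ∈ Z) →
    Cut (ball (f x) s) (f '' (Z' ∩ ball x r))
  sh : ∀ t ∈ ball (f x) s, h t ≠ 0 → MSheets Z (ball x r) f t

theorem exists_mbox {Z : Set E} {x : E} (hZ : AnAt Z x) {f : E → F} (hf : AnalyticAt ℂ f x)
    (hiso : ∀ᶠ y in 𝓝[≠] x, y ∈ Z → f y ≠ f x) {N : Set E} (hN : N ∈ 𝓝 x) :
    ∃ (s r : ℝ) (h : F → ℂ), ball x r ⊆ N ∧ MBox Z f x s r h := by
  classical
  obtain ⟨W, hW, hxW, hWs, hWc⟩ := hZ.exists_sub (inter_mem hN hf.eventually_analyticAt)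
  have hcut : ∀ (V : Set F) (B Z' : Set E), B ⊆ W → Cut B Z' →
      Cut (V ×ˢ B) {p : F × E | p.2 ∈ Z' ∧ f p.2 = p.1} := fun V B Z' hB hc =>
    Cut.inter (hc.preimage (g := Prod.snd) (fun _ _ => analyticAt_snd) fun p hp => hp.2)
      (cut_eq (f := fun p : F × E => f p.2) (g := Prod.fst) (fun p hp =>
        AnalyticAt.comp (g := f) (f := Prod.snd) (hWs (hB hp.2)).2 analyticAt_snd)
        fun _ _ => analyticAt_fst)
  have hmem : (univ : Set F) ×ˢ W ∈ 𝓝 (f x, x) := prod_mem_nhds univ_mem (hW.mem_nhds hxW)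
  obtain ⟨s, r, α, hs, hr, -, hsub, hb, hhalf, hcen⟩ := locbox
    ((hcut univ W Z Subset.rfl hWc).anAt hmem) (by
      filter_upwards [hiso] with y hy hy' using hy hy'.1 hy'.2) hmem
  have hBW : ball x r ⊆ W := fun y hy => (hsub (mk_mem_prod (mem_ball_self hr) hy)).2
  obtain ⟨δ, hδ, hδ0, hδs⟩ := hb.struct isOpen_ball (convex_ball _ _).isPreconnected
    ⟨_, mem_ball_self hs⟩ isOpen_ball
  have hfib : ∀ t ∈ ball (f x) s, {y | y ∈ ball x r ∧ y ∈ Z ∧ f y = t} ⊆ (α t).toFinset :=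
    fun t ht y hy => by simpa using hb.cov t ht y hy.1 hy.2
  refine ⟨s, r, δ, fun y hy => (hWs (hBW hy)).1, hs, hr, fun y hy => (hWs (hBW hy)).2,
    hWc.mono hBW, hδ, hδ0, fun y hy hyZ hfy => hhalf _ hfy y (hb.cov _ hfy y hy ⟨hyZ, rfl⟩),
    fun t ht => (Finset.finite_toSet _).subset (hfib t ht), ⟨(α (f x)).card, fun t ht => ?_⟩,
    fun N' hN' => ?_, fun Z' hZ' hZZ => ?_, fun t ht h0 => ?_⟩
  · have h1 : (α t).card = (α (f x)).card := by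
      have h2 : ContinuousOn (fun t => (α t).card) (ball (f x) s) := fun u hu =>
        (continuousAt_const.congr ((hb.hf u hu).card.mono fun _ h => h.symm)).continuousWithinAt
      exact (convex_ball _ _).isPreconnected.constant h2 ht (mem_ball_self hs)
    rw [← h1]
    refine (ncard_le_ncard (hfib t ht) (Finset.finite_toSet _)).trans ?_
    rw [ncard_coe_finset]
    exact Multiset.toFinset_card_le _
  · have h1 := (hb.hf _ (mem_ball_self hs)).usc' (N := N') fun w hw => by rwa [hcen w hw]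
    filter_upwards [h1, ball_mem_nhds _ hs] with t ht ht' y hy hyZ hyt
    exact ht y (hb.cov t ht' y hy ⟨hyZ, hyt⟩)
  · have h1 := (hb.sub_set (hcut _ _ Z' hBW hZ') fun p hp hp' => ⟨hZZ _ hp.2 hp'.1, hp'.2⟩).proj
    refine h1.congr fun t _ => ⟨?_, ?_⟩
    · rintro ⟨w, hw, h2, h3⟩
      exact ⟨w, ⟨h2, hw⟩, h3⟩
    · rintro ⟨w, ⟨h2, hw⟩, h3⟩
      exact ⟨w, hw, h2, h3⟩
  · obtain ⟨T, S, h1, h2⟩ := hδs t ht h0
    exact ⟨T, S, h1, h2⟩

/-- a point on a sheet -/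
theorem MSheets.good {Z B : Set E} {f : E → F} {y : E} (h : MSheets Z B f (f y)) (hB : B ∈ 𝓝 y)
    (hf : ContinuousAt f y) (hy : y ∈ Z) :
    ∃ σ : F → E, AnalyticAt ℂ σ (f y) ∧ (∀ᶠ t in 𝓝 (f y), σ t ∈ Z ∧ f (σ t) = t) ∧
      ∀ᶠ z in 𝓝 y, z ∈ Z → σ (f z) = z := by
  obtain ⟨T, S, h1, h2⟩ := h
  obtain ⟨w, hw, hwy⟩ := (h2.self_of_nhds y).1 ⟨mem_of_mem_nhds hB, hy, rfl⟩
  rw [(h1 w hw).2] at hwy
  subst hwy
  refine ⟨S w, (h1 w hw).1, h2.mono fun t ht => ((ht _).2 ⟨w, hw, rfl⟩).2, ?_⟩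
  have h3 : ∀ᶠ z in 𝓝 w, ∀ w' ∈ T, w' ≠ w → S w' (f z) ≠ z := by
    rw [eventually_all_finset]
    intro w' hw'
    by_cases hne : w' = w
    · exact Eventually.of_forall fun _ h => (h hne).elim
    · have h4 : ContinuousAt (fun z => S w' (f z)) w :=
        ContinuousAt.comp (g := S w') (h1 w' hw').1.continuousAt hf
      filter_upwards [(h4.sub continuousAt_id).eventually_ne (y := 0)
        (by simpa [(h1 w' hw').2, sub_eq_zero] using hne)] with z hz _ using sub_ne_zero.1 hz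
  filter_upwards [h3, hB, hf.eventually h2] with z hz hzB hz2 hzZ
  obtain ⟨w', hw', h5⟩ := (hz2 z).1 ⟨hzB, hzZ, rfl⟩
  by_cases hne : w' = w
  · rw [← hne, h5]
  · exact (hz w' hw' hne h5).elim

namespace MBox

variable {Z : Set E} {f : E → F} {x : E} {s r : ℝ} {h : F → ℂ}

/-- the domain of the box -/
def dom (f : E → F) (x : E) (s r : ℝ) : Set E := ball x r ∩ f ⁻¹' ball (f x) s

theorem isOpen_dom (b : MBox Z f x s r h) : IsOpen (dom f x s r) :=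
  b.fa.continuousOn.isOpen_inter_preimage isOpen_ball isOpen_ball

theorem mem_dom (b : MBox Z f x s r h) : x ∈ dom f x s r :=
  ⟨mem_ball_self b.hr, mem_ball_self b.hs⟩

theorem an_comp (b : MBox Z f x s r h) : AnalyticOnNhd ℂ (fun y => h (f y)) (dom f x s r) :=
  fun y hy => AnalyticAt.comp (g := h) (b.ha _ hy.2) (b.fa y hy.1)

theorem reg (b : MBox Z f x s r h) {y : E} (hy : y ∈ dom f x s r) (hyZ : y ∈ Z)
    (h0 : h (f y) ≠ 0) : Reg Z (finrank ℂ F) y := by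
  obtain ⟨σ, h1, h2, h3⟩ := (b.sh _ hy.2 h0).good (isOpen_ball.mem_nhds hy.1)
    (b.fa y hy.1).continuousAt hyZ
  exact Reg.of_param hyZ h1 (b.fa y hy.1) h2 h3

theorem freq (b : MBox Z f x s r h) : ∀ t ∈ ball (f x) s, ∃ᶠ u in 𝓝 t, h u ≠ 0 := fun t ht =>
  (R266.SCV.dense_ne_zero isOpen_ball (convex_ball _ _).isPreconnected b.ha b.h0 t ht).mono
    fun _ hu => hu.2

theorem isolated (b : MBox Z f x s r h) {y : E} (hy : y ∈ dom f x s r) :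
    ∀ᶠ z in 𝓝[≠] y, z ∈ Z → f z ≠ f y := by
  have h1 := ((b.fin _ hy.2).subset (sdiff_subset (t := {y}))).isClosed.isOpen_compl.mem_nhds
    (show y ∉ {z | z ∈ ball x r ∧ z ∈ Z ∧ f z = f y} \ {y} from fun h => h.2 rfl)
  rw [eventually_nhdsWithin_iff]
  filter_upwards [h1, isOpen_ball.mem_nhds hy.1] with z hz hzB hne hzZ hfz
  exact hz ⟨⟨hzB, hzZ, hfz⟩, hne⟩

/-- the unramified part -/
def top (Z : Set E) (f : E → F) (x : E) (s r : ℝ) (h : F → ℂ) : Set E :=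
  {y | y ∈ dom f x s r ∧ y ∈ Z ∧ h (f y) ≠ 0}

theorem top_open (b : MBox Z f x s r h) {y : E} (hy : y ∈ top Z f x s r h) :
    ∀ᶠ z in 𝓝 y, z ∈ Z → z ∈ connectedComponentIn (top Z f x s r h) y := by
  obtain ⟨N, hN, hyN, hNs, hc⟩ := (b.reg hy.1 hy.2.1 hy.2.2).locconn
    (inter_mem (b.isOpen_dom.mem_nhds hy.1)
      ((b.an_comp y hy.1).continuousAt.eventually_ne hy.2.2))
  filter_upwards [hN.mem_nhds hyN] with z hz hzZ
  exact hc.subset_connectedComponentIn (F := top Z f x s r h) ⟨hy.2.1, hyN⟩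
    (fun w hw => show w ∈ top Z f x s r h from ⟨(hNs hw.2).1, hw.1, (hNs hw.2).2⟩) ⟨hzZ, hz⟩

theorem top_open' (b : MBox Z f x s r h) {y₀ y : E}
    (hy : y ∈ connectedComponentIn (top Z f x s r h) y₀) :
    ∀ᶠ z in 𝓝 y, z ∈ Z → z ∈ connectedComponentIn (top Z f x s r h) y₀ := by
  rw [connectedComponentIn_eq hy]
  exact b.top_open (connectedComponentIn_subset _ _ hy)

/-- every component of the unramified part is mapped onto the unramified part of the base -/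
theorem top_onto (b : MBox Z f x s r h) {y₀ : E} (hy₀ : y₀ ∈ top Z f x s r h) {t : F}
    (ht : t ∈ ball (f x) s) (h0 : h t ≠ 0) :
    ∃ y ∈ connectedComponentIn (top Z f x s r h) y₀, f y = t := by
  set C := connectedComponentIn (top Z f x s r h) y₀ with hC
  set V := ball (f x) s \ {z | z ∈ ball (f x) s ∧ h z = 0} with hV
  have hVm : ∀ u, u ∈ V ↔ u ∈ ball (f x) s ∧ h u ≠ 0 := fun u =>
    ⟨fun hu => ⟨hu.1, fun h' => hu.2 ⟨hu.1, h'⟩⟩, fun hu => ⟨hu.1, fun h' => hu.2 h'.2⟩⟩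
  have hVn : ∀ u ∈ V, V ∈ 𝓝 u := fun u hu => by
    rw [hVm] at hu
    filter_upwards [isOpen_ball.mem_nhds hu.1, (b.ha u hu.1).continuousAt.eventually_ne hu.2]
      with v h1 h2 using (hVm v).2 ⟨h1, h2⟩
  have hVc : IsPreconnected V := preconnected_diff isOpen_ball (convex_ball _ _).isPreconnected
    (cov_zeros isOpen_ball b.ha b.freq) (isOpen_iff_mem_nhds.2 hVn)
  have hloc : ∀ u ∈ V, ∃ N ∈ 𝓝 u, (N ∩ f '' C).Nonempty → N ⊆ f '' C := by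
    intro u hu
    obtain ⟨T, S, h1, h2⟩ := b.sh u ((hVm u).1 hu).1 ((hVm u).1 hu).2
    have h3 : ∀ᶠ v in 𝓝 u, ∀ w ∈ T, ContinuousAt (S w) v := by
      rw [eventually_all_finset]
      exact fun w hw => (h1 w hw).1.eventually_analyticAt.mono fun v hv => hv.continuousAt
    obtain ⟨ε, hε, hb⟩ := Metric.eventually_nhds_iff_ball.1 ((h2.and h3).and (hVn u hu))
    refine ⟨ball u ε, ball_mem_nhds u hε, ?_⟩
    rintro ⟨_, hv, y, hy, rfl⟩ v' hv'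
    have hyt := connectedComponentIn_subset _ _ hy
    obtain ⟨w, hw, hwy⟩ := ((hb _ hv).1.1 y).1 ⟨hyt.1.1, hyt.2.1, rfl⟩
    have h4 : ∀ v ∈ ball u ε, S w v ∈ ball x r ∧ S w v ∈ Z ∧ f (S w v) = v := fun v hv =>
      ((hb v hv).1.1 _).2 ⟨w, hw, rfl⟩
    have h5 : IsPreconnected (S w '' ball u ε) := (convex_ball u ε).isPreconnected.image _
      fun v hv => ((hb v hv).1.2 w hw).continuousWithinAt
    have h6 : S w '' ball u ε ⊆ C := by
      rw [hC, connectedComponentIn_eq hy]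
      refine h5.subset_connectedComponentIn ⟨_, hv, hwy⟩ ?_
      rintro _ ⟨v, hv, rfl⟩
      obtain ⟨k1, k2, k3⟩ := h4 v hv
      have k4 := (hVm v).1 (hb v hv).2
      exact ⟨⟨k1, by rw [mem_preimage, k3]; exact k4.1⟩, k2, by rw [k3]; exact k4.2⟩
    exact ⟨S w v', h6 ⟨v', hv', rfl⟩, (h4 v' hv').2.2⟩
  have hCV : f '' C ⊆ V := by
    rintro _ ⟨y, hy, rfl⟩
    have hyt := connectedComponentIn_subset _ _ hy
    exact (hVm _).2 ⟨hyt.1.2, hyt.2.2⟩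
  have hopen : IsOpen (f '' C) := isOpen_iff_mem_nhds.2 fun u hu => by
    obtain ⟨N, hN, hN'⟩ := hloc u (hCV hu)
    exact mem_of_superset hN (hN' ⟨u, mem_of_mem_nhds hN, hu⟩)
  refine hVc.subset_of_closure_inter_subset hopen
    ⟨f y₀, (hVm _).2 ⟨hy₀.1.2, hy₀.2.2⟩, y₀, mem_connectedComponentIn hy₀, rfl⟩ ?_
    ((hVm t).2 ⟨ht, h0⟩)
  rintro u ⟨hu1, hu2⟩
  obtain ⟨N, hN, hN'⟩ := hloc u hu2
  exact hN' (mem_closure_iff_nhds.1 hu1 N hN) (mem_of_mem_nhds hN)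

theorem top_finite (b : MBox Z f x s r h) :
    (connectedComponentIn (top Z f x s r h) '' top Z f x s r h).Finite := by
  obtain ⟨t, ht, h0⟩ := b.h0
  refine ((b.fin t ht).image (connectedComponentIn (top Z f x s r h))).subset ?_
  rintro _ ⟨y₀, hy₀, rfl⟩
  obtain ⟨y, hy, hyt⟩ := b.top_onto hy₀ ht h0
  have h1 := connectedComponentIn_subset _ _ hy
  exact ⟨y, ⟨h1.1.1, h1.2.1, hyt⟩, (connectedComponentIn_eq hy).symm⟩

theorem top_mem_closure (b : MBox Z f x s r h) {y₀ : E} (hy₀ : y₀ ∈ top Z f x s r h) :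
    x ∈ closure (connectedComponentIn (top Z f x s r h) y₀) := by
  rw [mem_closure_iff_nhds]
  intro N hN
  obtain ⟨t, h0, h1, h2⟩ := ((b.freq _ (mem_ball_self b.hs)).and_eventually
    ((b.usc N hN).and (ball_mem_nhds _ b.hs))).exists
  obtain ⟨y, hy, hyt⟩ := b.top_onto hy₀ h2 h0
  have h3 := connectedComponentIn_subset _ _ hy
  exact ⟨y, h1 y h3.1.1 h3.2.1 hyt, hy⟩

theorem top_frontier (b : MBox Z f x s r h) (y₀ : E) :
    (closure (connectedComponentIn (top Z f x s r h) y₀) ∩ dom f x s r) \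
      connectedComponentIn (top Z f x s r h) y₀ ⊆ Z ∩ {y | h (f y) = 0} := by
  rintro z ⟨⟨hz1, hz2⟩, hz3⟩
  have hzZ : z ∈ Z := b.cut.mem_of_closure (isOpen_ball.mem_nhds hz2.1)
    (closure_mono (fun w hw => (connectedComponentIn_subset _ _ hw).2.1) hz1)
  refine ⟨hzZ, by_contra fun h0 => hz3 ?_⟩
  have hz : z ∈ top Z f x s r h := ⟨hz2, hzZ, h0⟩
  obtain ⟨w, hw1, hw2⟩ := mem_closure_iff_nhds.1 hz1 _ (b.top_open hz)
  have h1 := hw1 (connectedComponentIn_subset _ _ hw2).2.1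
  rw [connectedComponentIn_eq hw2, ← connectedComponentIn_eq h1]
  exact mem_connectedComponentIn hz

theorem top_reg (b : MBox Z f x s r h) {y₀ y : E}
    (hy : y ∈ connectedComponentIn (top Z f x s r h) y₀) :
    Reg (closure (connectedComponentIn (top Z f x s r h) y₀)) (finrank ℂ F) y := by
  have h1 := connectedComponentIn_subset _ _ hy
  refine (b.reg h1.1 h1.2.1 h1.2.2).congr ?_
  filter_upwards [b.top_open' hy, isOpen_ball.mem_nhds h1.1.1] with z hz hzB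
  exact ⟨fun h => subset_closure (hz h), fun h => b.cut.mem_of_closure (isOpen_ball.mem_nhds hzB)
    (closure_mono (fun w hw => (connectedComponentIn_subset _ _ hw).2.1) h)⟩

end MBox

/-- cutting with a hypersurface of the base lowers the slice dimension -/
theorem sdim_drop {Z : Set E} {y : E} {p : ℕ} (l : E →L[ℂ] (Fin p → ℂ))
    (hiso : ∀ᶠ z in 𝓝[≠] y, z ∈ Z → l z ≠ l y) {h : (Fin p → ℂ) → ℂ} (ha : AnalyticAt ℂ h (l y))
    (hne : ∃ᶠ u in 𝓝 (l y), h u ≠ 0) (h0 : h (l y) = 0) :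
    ∃ q, p = q + 1 ∧ SDim (Z ∩ {z | h (l z) = 0}) y q := by
  obtain ⟨ε, hε, hb⟩ := Metric.eventually_nhds_iff_ball.1 ha.eventually_analyticAt
  obtain ⟨u, hu0, hu⟩ := (hne.and_eventually (ball_mem_nhds _ hε)).exists
  set v := u - l y with hv
  have hv0 : v ≠ 0 := fun h' => hu0 (by rw [sub_eq_zero.1 h', h0])
  have hO : IsPreconnected ((fun τ : ℂ => l y + τ • v) ⁻¹' ball (l y) ε) := by
    have h1 : (fun τ : ℂ => l y + τ • v) ⁻¹' ball (l y) ε = ball 0 (ε / ‖v‖) := by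
      ext τ
      simp [norm_smul, lt_div_iff₀ (norm_pos_iff.2 hv0)]
    rw [h1]
    exact (convex_ball (0 : ℂ) (ε / ‖v‖)).isPreconnected
  have hg : AnalyticOnNhd ℂ (fun τ : ℂ => h (l y + τ • v))
      ((fun τ : ℂ => l y + τ • v) ⁻¹' ball (l y) ε) := fun τ hτ =>
    AnalyticAt.comp (g := h) (hb _ hτ) (analyticAt_const.add (analyticAt_id.smul analyticAt_const))
  have h00 : (0 : ℂ) ∈ (fun τ : ℂ => l y + τ • v) ⁻¹' ball (l y) ε := by simpa using hε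
  have hg0 : ∀ᶠ τ in 𝓝[≠] (0 : ℂ), h (l y + τ • v) ≠ 0 := by
    refine (hg 0 h00).eventually_eq_zero_or_eventually_ne_zero.resolve_left fun h' => hu0 ?_
    have h1 := hg.eqOn_zero_of_preconnected_of_eventuallyEq_zero hO h00 h'
      (show (1 : ℂ) ∈ (fun τ : ℂ => l y + τ • v) ⁻¹' ball (l y) ε by simpa [hv] using hu)
    simpa [hv] using h1
  obtain ⟨μ₀, -, hμ₀⟩ := exists_dual_vector ℂ v (norm_ne_zero_iff.2 hv0)
  have hμ1 : μ₀ v ≠ 0 := by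
    rw [hμ₀]
    exact RCLike.ofReal_ne_zero.2 (norm_ne_zero_iff.2 hv0)
  let μ : (Fin p → ℂ) →L[ℂ] ℂ := (μ₀ v)⁻¹ • μ₀
  have hμ : μ v = 1 := by simp [μ, hμ1]
  have hsurj : Function.Surjective μ := fun c => ⟨c • v, by simp [hμ]⟩
  obtain ⟨q, L, hq, hL⟩ := Rg.exists_compl (T := μ) hsurj
  refine ⟨q, by simp at hq; omega, ?_⟩
  let Q : (Fin p → ℂ) →L[ℂ] (Fin p → ℂ) := ContinuousLinearMap.id ℂ _ - μ.smulRight v
  refine ⟨L.comp (Q.comp l), ?_⟩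
  have hc : Tendsto (fun z => μ (l z - l y)) (𝓝 y) (𝓝 0) := by
    have h1 : Continuous fun z => μ (l z - l y) := by fun_prop
    simpa using h1.tendsto y
  filter_upwards [hiso, mem_nhdsWithin_of_mem_nhds (hc.eventually (eventually_nhdsWithin_iff.1 hg0))]
    with z hz1 hz2 hz hq'
  have h1 : Q (l z - l y) = 0 := by
    refine hL _ (by simp [Q, hμ]) ?_
    rw [map_sub, map_sub, sub_eq_zero]
    exact hq'
  have h2 : l z = l y + μ (l z - l y) • v := by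
    have : l z - l y - μ (l z - l y) • v = 0 := h1
    linear_combination (exp := 1) this
  by_cases h3 : μ (l z - l y) = 0
  · rw [h3, zero_smul, add_zero] at h2
    exact hz1 hz.1 h2
  · refine hz2 h3 ?_
    rw [← h2]
    exact hz.2

/-- the conclusion of the decomposition theorem, with a bound for the dimensions -/
def DecAt (Z W : Set E) (x : E) (p : ℕ) : Prop :=
  ∃ (W₀ : Set E) (𝒞 : Set (Set E × ℕ)), IsOpen W₀ ∧ x ∈ W₀ ∧ W₀ ⊆ W ∧ 𝒞.Finite ∧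
    (∀ C ∈ 𝒞, C.2 < p ∧ C.1 ⊆ Z ∩ W ∧ IsPreconnected C.1 ∧
      (∀ y ∈ C.1, Reg Z C.2 y ∧ ∀ᶠ z in 𝓝 y, z ∈ Z → z ∈ C.1) ∧
      x ∈ closure C.1 ∧ Cut W₀ (closure C.1) ∧ Cov C.2 ((closure C.1 ∩ W₀) \ C.1)) ∧
    Z ∩ W₀ ⊆ ⋃ C ∈ 𝒞, closure C.1

theorem DecAt.cov {Z W : Set E} {x : E} {p : ℕ} (h : DecAt Z W x p) :
    ∃ N ∈ 𝓝 x, Cov p (Z ∩ N) := by
  obtain ⟨W₀, 𝒞, h1, h2, -, h4, h5, h6⟩ := h
  refine ⟨W₀, h1.mem_nhds h2, (cov_biUnion h4.countable (S := fun C => closure C.1 ∩ W₀)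
    fun C hC => ?_).sub fun y hy => ?_⟩
  · obtain ⟨k0, -, -, k3, -, -, k6⟩ := h5 C hC
    refine (((Sh.reg_cov fun y hy => (k3 y hy).1).mono k0).union (k6.mono k0.le)).sub fun y hy => ?_
    by_cases h : y ∈ C.1
    · exact Or.inl h
    · exact Or.inr ⟨hy, h⟩
  · obtain ⟨C, hC, hy'⟩ := mem_iUnion₂.1 (h6 hy)
    exact mem_iUnion₂.2 ⟨C, hC, hy', hy.2⟩

theorem decAt_of_notMem {Z W : Set E} {x : E} (hW : W ∈ 𝓝 x) (h : ∀ᶠ y in 𝓝 x, y ∉ Z) (p : ℕ) :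
    DecAt Z W x p := by
  obtain ⟨W₀, h1, h2, h3⟩ := _root_.mem_nhds_iff.1 (inter_mem hW h)
  exact ⟨W₀, ∅, h2, h3, fun y hy => (h1 hy).1, finite_empty, fun _ h => h.elim,
    fun y hy => ((h1 hy.2).2 hy.1).elim⟩

theorem dec_step {Z W : Set E} {x : E} {p : ℕ} (hW : W ∈ 𝓝 x) (hZ : AnAt Z x) (hs : SDim Z x p)
    (ih : ∀ q, p = q + 1 → ∀ (Z' W' : Set E) (y : E), W' ∈ 𝓝 y → AnAt Z' y → SDim Z' y q →
      DecAt Z' W' y p) : DecAt Z W x (p + 1) := by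
  obtain ⟨l, hl⟩ := hs
  obtain ⟨s, r, h, hrW, b⟩ := exists_mbox hZ (l.analyticAt x) hl hW
  set D := MBox.dom l x s r with hD
  set Zt := MBox.top Z l x s r h with hZt
  set Z₁ := Z ∩ {z | h (l z) = 0} with hZ₁
  have hDo : IsOpen D := b.isOpen_dom
  have hc₁ : Cut D Z₁ := (b.cut.mono inter_subset_left).inter (cut_zero b.an_comp)
  have hlow : ∀ y ∈ D, DecAt Z₁ D y p := by
    intro y hy
    by_cases h0 : h (l y) = 0
    · obtain ⟨q, hq, hq'⟩ := sdim_drop l (b.isolated hy) (b.ha _ hy.2) (b.freq _ hy.2) h0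
      exact ih q hq _ _ y (hDo.mem_nhds hy) (hc₁.anAt (hDo.mem_nhds hy)) hq'
    · refine decAt_of_notMem (hDo.mem_nhds hy) ?_ p
      filter_upwards [(b.an_comp y hy).continuousAt.eventually_ne h0] with z hz hz' using hz hz'.2
  have hcov₁ : Cov p (Z₁ ∩ D) := cov_of_local fun y hy => by
    obtain ⟨N, hN, hc⟩ := (hlow y hy.2).cov
    exact ⟨N, hN, hc.sub fun z hz => ⟨hz.1.1, hz.2⟩⟩
  set 𝒯 := connectedComponentIn Zt '' Zt with h𝒯
  have h𝒯f : 𝒯.Finite := b.top_finite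
  have hfr : ∀ C ∈ 𝒯, Cov p ((closure C ∩ D) \ C) := by
    rintro _ ⟨y₀, -, rfl⟩
    exact hcov₁.sub fun z hz => ⟨b.top_frontier y₀ hz, hz.1.2⟩
  have han : ∀ C ∈ 𝒯, An D (closure C) := by
    intro C hC
    refine shif_closure hDo ?_ (hfr C hC)
    obtain ⟨y₀, -, rfl⟩ := hC
    intro y _ hy
    simpa using b.top_reg hy
  set A := ⋃ C ∈ 𝒯, closure C with hA
  have hAn : An D A := fun y hy => anAt_biUnion h𝒯f fun C hC => han C hC y hy
  have hAc : IsClosed A := h𝒯f.isClosed_biUnion fun _ _ => isClosed_closure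
  have hZA : ∀ z ∈ D, z ∈ Z → z ∉ A → z ∈ Z₁ := fun z hz hzZ hzA =>
    ⟨hzZ, by_contra fun h0 => hzA (mem_iUnion₂.2 ⟨_, ⟨z, ⟨hz, hzZ, h0⟩, rfl⟩,
      subset_closure (mem_connectedComponentIn (show z ∈ Zt from ⟨hz, hzZ, h0⟩))⟩)⟩
  obtain ⟨W₁, 𝒞, k1, k2, k3, k4, k5, k6⟩ := hlow x b.mem_dom
  have hcut : ∀ᶠ W' in (𝓝 x).smallSets, ∀ C ∈ 𝒯, Cut W' (closure C) := by
    rw [eventually_all_finite h𝒯f]
    intro C hC
    obtain ⟨W', h1, h2, h3⟩ := han C hC x b.mem_dom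
    filter_upwards [eventually_smallSets_subset.2 (h1.mem_nhds h2)] with W'' hW'' using h3.mono hW''
  obtain ⟨N, hN, hNc⟩ := eventually_smallSets.1 hcut
  have hid : ∀ C ∈ 𝒞, ¬ C.1 ⊆ A →
      Cov C.2 (C.1 ∩ A) ∧ IsPreconnected (C.1 \ A) ∧ C.1 ⊆ closure (C.1 \ A) := by
    intro C hC hn
    obtain ⟨-, c1, c2, c3, -⟩ := k5 C hC
    refine (ident c2 (fun y hy => (c3 y hy).1.congr ?_) (hAn.mono fun y hy => (c1 hy).2)).resolve_left
      hn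
    filter_upwards [(c3 y hy).2] with z hz using ⟨hz, fun h => (c1 h).1⟩
  have hcl : ∀ C ∈ 𝒞, ¬ C.1 ⊆ A → closure (C.1 \ A) = closure C.1 := fun C hC hn =>
    (closure_mono sdiff_subset).antisymm (closure_minimal (hid C hC hn).2.2 isClosed_closure)
  refine ⟨W₁ ∩ interior N, (fun C => (C, p)) '' 𝒯 ∪
    (fun C : Set E × ℕ => (C.1 \ A, C.2)) '' {C | C ∈ 𝒞 ∧ ¬ C.1 ⊆ A}, k1.inter isOpen_interior,
    ⟨k2, mem_interior_iff_mem_nhds.2 hN⟩, fun y hy => hrW (k3 hy.1).1,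
    (h𝒯f.image _).union ((k4.subset fun C hC => hC.1).image _), ?_, ?_⟩
  · rintro _ (⟨C, hC, rfl⟩ | ⟨C, ⟨hC, hn⟩, rfl⟩)
    · have c5 := hNc _ (inter_subset_right.trans interior_subset : W₁ ∩ interior N ⊆ N) C hC
      have c6 := (hfr C hC).sub (sdiff_subset_sdiff_left (inter_subset_inter_right _
        (inter_subset_left.trans k3 : W₁ ∩ interior N ⊆ D)))
      obtain ⟨y₀, hy₀, rfl⟩ := hC
      refine ⟨Nat.lt_succ_self p, fun y hy => ?_, isPreconnected_connectedComponentIn,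
        fun y hy => ⟨?_, b.top_open' hy⟩, b.top_mem_closure hy₀, c5, c6⟩
      · have h1 := connectedComponentIn_subset _ _ hy
        exact ⟨h1.2.1, hrW h1.1.1⟩
      · have h1 := connectedComponentIn_subset _ _ hy
        simpa using b.reg h1.1 h1.2.1 h1.2.2
    · obtain ⟨c0, c1, -, c3, c4, c5, c6⟩ := k5 C hC
      simp only [hcl C hC hn]
      refine ⟨c0.trans (Nat.lt_succ_self p), fun y hy => ⟨(c1 hy.1).1.1, hrW (c1 hy.1).2.1⟩,
        (hid C hC hn).2.1, fun y hy => ?_, c4, c5.mono inter_subset_left, ?_⟩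
      · have h1 : ∀ᶠ z in 𝓝 y, z ∈ D ∧ z ∉ A :=
          inter_mem (hDo.mem_nhds (c1 hy.1).2) (hAc.isOpen_compl.mem_nhds hy.2)
        refine ⟨(c3 y hy.1).1.congr ?_, ?_⟩
        · filter_upwards [h1] with z hz using ⟨fun h => h.1, fun h => hZA z hz.1 h hz.2⟩
        · filter_upwards [h1, (c3 y hy.1).2] with z hz hz' hzZ
          exact ⟨hz' (hZA z hz.1 hzZ hz.2), hz.2⟩
      · refine (c6.union (hid C hC hn).1).sub fun z hz => ?_
        by_cases hzC : z ∈ C.1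
        · exact Or.inr ⟨hzC, by_contra fun h => hz.2 ⟨hzC, h⟩⟩
        · exact Or.inl ⟨⟨hz.1.1, hz.1.2.1⟩, hzC⟩
  · rintro z ⟨hzZ, hz⟩
    by_cases hzA : z ∈ A
    · obtain ⟨C, hC, hzC⟩ := mem_iUnion₂.1 hzA
      exact mem_iUnion₂.2 ⟨(C, p), Or.inl ⟨C, hC, rfl⟩, hzC⟩
    · obtain ⟨C, hC, hzC⟩ := mem_iUnion₂.1 (k6 ⟨hZA z (k3 hz.1) hzZ hzA, hz.1⟩)
      have hn : ¬ C.1 ⊆ A := fun h => hzA (closure_minimal h hAc hzC)
      exact mem_iUnion₂.2 ⟨(C.1 \ A, C.2), Or.inr ⟨C, ⟨hC, hn⟩, rfl⟩, by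
        simp only [hcl C hC hn]; exact hzC⟩

theorem decAt_of_sdim (p : ℕ) : ∀ (Z W : Set E) (x : E), W ∈ 𝓝 x → AnAt Z x → SDim Z x p →
    DecAt Z W x (p + 1) := by
  induction p with
  | zero => exact fun Z W x hW hZ hs => dec_step hW hZ hs fun q hq => by omega
  | succ p ih =>
    refine fun Z W x hW hZ hs => dec_step hW hZ hs fun q hq => ?_
    obtain rfl : q = p := by omega
    exact ih

theorem sdim_top (Z : Set E) (x : E) : SDim Z x (finrank ℂ E) := by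
  let e : E ≃L[ℂ] (Fin (finrank ℂ E) → ℂ) := ContinuousLinearEquiv.ofFinrankEq (by simp)
  refine ⟨e, ?_⟩
  filter_upwards [self_mem_nhdsWithin] with y hy _ h using hy (e.injective h)

theorem SDim.cov {Z : Set E} {x : E} {p : ℕ} (hZ : AnAt Z x) (h : SDim Z x p) :
    ∃ N ∈ 𝓝 x, Cov (p + 1) (Z ∩ N) :=
  (decAt_of_sdim p Z univ x univ_mem hZ h).cov

/-- **local decomposition** (only analyticity at `x` is needed) -/
theorem dec' {Z W : Set E} {x : E} (hW : W ∈ 𝓝 x) (hZ : AnAt Z x) :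
    ∃ (W₀ : Set E) (𝒞 : Set (Set E × ℕ)), IsOpen W₀ ∧ x ∈ W₀ ∧ W₀ ⊆ W ∧ 𝒞.Finite ∧
      (∀ C ∈ 𝒞, C.1 ⊆ Z ∩ W ∧ IsPreconnected C.1 ∧
        (∀ y ∈ C.1, Reg Z C.2 y ∧ ∀ᶠ z in 𝓝 y, z ∈ Z → z ∈ C.1) ∧
        x ∈ closure C.1 ∧ Cut W₀ (closure C.1) ∧ Cov C.2 ((closure C.1 ∩ W₀) \ C.1)) ∧
      Z ∩ W₀ ⊆ ⋃ C ∈ 𝒞, closure C.1 := by
  obtain ⟨W₀, 𝒞, h1, h2, h3, h4, h5, h6⟩ := decAt_of_sdim _ Z W x hW hZ (sdim_top Z x)
  exact ⟨W₀, 𝒞, h1, h2, h3, h4, fun C hC => (h5 C hC).2, h6⟩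

/-- **local decomposition** -/
theorem dec {Z W : Set E} {x : E} (hW : IsOpen W) (hx : x ∈ W) (hZ : An W Z) :
    ∃ (W₀ : Set E) (𝒞 : Set (Set E × ℕ)), IsOpen W₀ ∧ x ∈ W₀ ∧ W₀ ⊆ W ∧ 𝒞.Finite ∧
      (∀ C ∈ 𝒞, C.1 ⊆ Z ∩ W ∧ IsPreconnected C.1 ∧
        (∀ y ∈ C.1, Reg Z C.2 y ∧ ∀ᶠ z in 𝓝 y, z ∈ Z → z ∈ C.1) ∧
        x ∈ closure C.1 ∧ Cut W₀ (closure C.1) ∧ Cov C.2 ((closure C.1 ∩ W₀) \ C.1)) ∧
      Z ∩ W₀ ⊆ ⋃ C ∈ 𝒞, closure C.1 :=
  dec' (hW.mem_nhds hx) (hZ x hx)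

theorem graph_hol {h : E → F} {U : Set E} (hU : IsOpen U) (hc : ContinuousOn h U)
    {Γ : Set (E × F)} (hΓ : ∀ x ∈ U, (x, h x) ∈ Γ ∧ AnAt Γ (x, h x))
    (hd : Cov (finrank ℂ E + 1) Γ) : AnalyticOnNhd ℂ h U :=
  Sh.graph_hol_of (fun a b c => dec a b c) hU hc hΓ hd

end

end Crest.Agent.X261.Ans
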