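import Crest.Agent.X261.Ans.Defs
import Crest.Agent.R281.Thn5_280
import Crest.Agent.R281.Thn3_280
import Crest.Agent.R266.SCV

/-!
# X261/Ans/Cov (helper97): the covering dimension `Cov`, basic API
-/

set_option autoImplicit false
set_option linter.unusedSectionVars false

open Set Filter Topology Module
open Crest.Agent.R281.Thn_280

namespace Crest.Agent.X261.Ans

variable {E F V : Type} [NormedAddCommGroup E] [NormedSpace ℂ E] [FiniteDimensional ℂ E]
  [NormedAddCommGroup F] [NormedSpace ℂ F] [FiniteDimensional ℂ F]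
  [NormedAddCommGroup V] [NormedSpace ℂ V] [FiniteDimensional ℂ V]

theorem Cov.sub {k : ℕ} {S T : Set E} (h : Cov k T) (hST : S ⊆ T) : Cov k S := by
  obtain ⟨𝒞, h1, h2, h3⟩ := h
  exact ⟨𝒞, h1, h2, hST.trans h3⟩

theorem Cov.mono {k l : ℕ} {S : Set E} (h : Cov k S) (hkl : k ≤ l) : Cov l S := by
  obtain ⟨𝒞, h1, h2, h3⟩ := h
  refine ⟨𝒞, h1, fun T hT => ?_, h3⟩
  obtain ⟨m, U, γ, hm, h⟩ := h2 T hT
  exact ⟨m, U, γ, hm.trans_le hkl, h⟩

theorem cov_empty (k : ℕ) : Cov k (∅ : Set E) :=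
  ⟨∅, countable_empty, fun _ h => h.elim, empty_subset _⟩

theorem cov_zero {S : Set E} : Cov 0 S ↔ S = ∅ := by
  refine ⟨fun ⟨𝒞, _, h2, h3⟩ => eq_empty_of_forall_notMem fun x hx => ?_,
    fun h => h ▸ cov_empty 0⟩
  obtain ⟨T, hT, -⟩ := h3 hx
  obtain ⟨m, -, -, hm, -⟩ := h2 T hT
  exact Nat.not_lt_zero _ hm

theorem Img.cov {k : ℕ} {T : Set E} (h : Img k T) : Cov k T :=
  ⟨{T}, countable_singleton _, fun _ hT => hT ▸ h, by simp⟩

/-- holomorphic images of open subsets of a space of dimension `< k` -/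
theorem cov_img {k : ℕ} (hV : finrank ℂ V < k) {U : Set V} (hU : IsOpen U) {γ : V → E}
    (hγ : AnalyticOnNhd ℂ γ U) : Cov k (γ '' U) := by
  let e : (Fin (finrank ℂ V) → ℂ) ≃L[ℂ] V := ContinuousLinearEquiv.ofFinrankEq (by simp)
  refine Img.cov ⟨finrank ℂ V, e ⁻¹' U, fun t => γ (e t), hV, hU.preimage e.continuous,
    fun t ht => (hγ _ ht).comp (e.analyticAt t), ?_⟩
  rw [show (fun t => γ (e t)) = γ ∘ e from rfl, image_comp,
    image_preimage_eq _ e.surjective]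

theorem cov_iUnion {ι : Sort*} [Countable ι] {k : ℕ} {S : ι → Set E} (h : ∀ i, Cov k (S i)) :
    Cov k (⋃ i, S i) := by
  choose 𝒞 h1 h2 h3 using h
  refine ⟨⋃ i, 𝒞 i, countable_iUnion h1, fun T hT => ?_, fun x hx => ?_⟩
  · obtain ⟨i, hi⟩ := mem_iUnion.1 hT
    exact h2 i T hi
  · obtain ⟨i, hi⟩ := mem_iUnion.1 hx
    obtain ⟨T, hT, hxT⟩ := h3 i hi
    exact ⟨T, mem_iUnion.2 ⟨i, hT⟩, hxT⟩

theorem cov_biUnion {α : Type*} {t : Set α} (ht : t.Countable) {k : ℕ} {S : α → Set E}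
    (h : ∀ i ∈ t, Cov k (S i)) : Cov k (⋃ i ∈ t, S i) := by
  have := ht.to_subtype
  rw [biUnion_eq_iUnion]
  exact cov_iUnion fun i : t => h i.1 i.2

theorem Cov.union {k : ℕ} {S T : Set E} (hS : Cov k S) (hT : Cov k T) : Cov k (S ∪ T) := by
  rw [union_eq_iUnion]
  refine cov_iUnion (fun b => ?_)
  cases b <;> assumption

/-- induction principle: it is enough to treat one piece -/
theorem Cov.of_pieces {k l : ℕ} {S : Set E} (h : Cov k S) {Φ : Set E → Set F} {R : Set F}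
    (hΦ : ∀ T, Img k T → Cov l (Φ T)) (hR : ∀ 𝒞 : Set (Set E), S ⊆ ⋃₀ 𝒞 → R ⊆ ⋃ T ∈ 𝒞, Φ T) :
    Cov l R := by
  obtain ⟨𝒞, h1, h2, h3⟩ := h
  exact (cov_biUnion h1 fun T hT => hΦ T (h2 T hT)).sub (hR 𝒞 h3)

theorem cov_one {S : Set E} : Cov 1 S ↔ S.Countable := by
  constructor
  · rintro ⟨𝒞, h1, h2, h3⟩
    refine (h1.sUnion fun T hT => ?_).mono h3
    obtain ⟨m, U, γ, hm, -, -, rfl⟩ := h2 T hT
    obtain rfl : m = 0 := by omega
    exact (toFinite U).countable.image _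
  · intro h
    rw [← biUnion_of_singleton S]
    refine cov_biUnion h fun x _ => ?_
    refine Img.cov ⟨0, univ, fun _ => x, one_pos, isOpen_univ, analyticOnNhd_const, ?_⟩
    rw [image_univ, range_const]

theorem Cov.image {k : ℕ} {S : Set E} (h : Cov k S) {f : E → F}
    (hf : ∀ x ∈ S, AnalyticAt ℂ f x) : Cov k (f '' S) := by
  have : CompleteSpace F := FiniteDimensional.complete ℂ F
  refine h.of_pieces (Φ := fun T => f '' (T ∩ {x | AnalyticAt ℂ f x})) ?_ ?_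
  · rintro _ ⟨m, U, γ, hm, hU, hγ, rfl⟩
    refine Img.cov ⟨m, U ∩ γ ⁻¹' {x | AnalyticAt ℂ f x}, fun t => f (γ t), hm,
      hγ.continuousOn.isOpen_inter_preimage hU (isOpen_analyticAt ℂ f),
      fun t ht => AnalyticAt.comp ht.2 (hγ t ht.1), ?_⟩
    rw [← image_inter_preimage, image_image]
  · rintro 𝒞 h𝒞 _ ⟨x, hx, rfl⟩
    obtain ⟨T, hT, hxT⟩ := h𝒞 hx
    exact mem_iUnion₂.2 ⟨T, hT, x, ⟨hxT, hf x hx⟩, rfl⟩

theorem cov_of_local {k : ℕ} {S : Set E} (h : ∀ x ∈ S, ∃ N ∈ 𝓝 x, Cov k (S ∩ N)) : Cov k S := by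
  have : ProperSpace E := FiniteDimensional.proper ℂ E
  choose! N hN hS using h
  obtain ⟨t, htE, htc, hcov⟩ := TopologicalSpace.countable_cover_nhdsWithin
    (s := S) (f := N) (fun z hz => mem_nhdsWithin_of_mem_nhds (hN z hz))
  refine (cov_biUnion htc fun z hz => hS z (htE hz)).sub fun z hz => ?_
  obtain ⟨w, hw, hzw⟩ := mem_iUnion₂.1 (hcov hz)
  exact mem_iUnion₂.2 ⟨w, hw, hz, hzw⟩

/-- images: `Cov` is local in the source -/
theorem cov_image_of_local {k : ℕ} {S : Set V} {Φ : V → E}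
    (h : ∀ x ∈ S, ∃ N ∈ 𝓝 x, Cov k (Φ '' (S ∩ N))) : Cov k (Φ '' S) := by
  have : ProperSpace V := FiniteDimensional.proper ℂ V
  choose! N hN hS using h
  obtain ⟨t, htE, htc, hcov⟩ := TopologicalSpace.countable_cover_nhdsWithin
    (s := S) (f := N) (fun z hz => mem_nhdsWithin_of_mem_nhds (hN z hz))
  refine (cov_biUnion htc fun z hz => hS z (htE hz)).sub ?_
  rintro _ ⟨z, hz, rfl⟩
  obtain ⟨w, hw, hzw⟩ := mem_iUnion₂.1 (hcov hz)
  exact mem_iUnion₂.2 ⟨w, hw, z, ⟨hz, hzw⟩, rfl⟩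

theorem cov_univ : Cov (finrank ℂ E + 1) (univ : Set E) := by
  have := cov_img (E := E) (Nat.lt_succ_self _) isOpen_univ (analyticOnNhd_id (s := univ))
  simpa using this

theorem cov_top (S : Set E) : Cov (finrank ℂ E + 1) S := cov_univ.sub (subset_univ _)

theorem Cov.prod {a b : ℕ} {S : Set E} {T : Set F} (hS : Cov a S) (hT : Cov (b + 1) T) :
    Cov (a + b) (S ×ˢ T) := by
  refine hS.of_pieces (Φ := fun S' => S' ×ˢ T) (fun S' hS' => ?_) ?_
  · refine hT.of_pieces (Φ := fun T' => S' ×ˢ T') (fun T' hT' => ?_) ?_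
    · obtain ⟨m, U, γ, hm, hU, hγ, rfl⟩ := hS'
      obtain ⟨m', U', γ', hm', hU', hγ', rfl⟩ := hT'
      rw [prod_image_image_eq]
      refine cov_img (by simp; omega) (hU.prod hU') fun p hp => ?_
      exact ((hγ _ hp.1).comp analyticAt_fst).prod ((hγ' _ hp.2).comp analyticAt_snd)
    · intro 𝒞 h𝒞 p hp
      obtain ⟨T', hT', hx⟩ := h𝒞 hp.2
      exact mem_iUnion₂.2 ⟨T', hT', hp.1, hx⟩
  · intro 𝒞 h𝒞 p hp
    obtain ⟨T', hT', hx⟩ := h𝒞 hp.1
    exact mem_iUnion₂.2 ⟨T', hT', hx, hp.2⟩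

theorem cov_iff_sth {S : Set E} : Cov (finrank ℂ E) S ↔ STh S := by
  have : CompleteSpace E := FiniteDimensional.complete ℂ E
  constructor
  · rintro ⟨𝒞, h1, h2, h3⟩
    have := h1.to_subtype
    refine (sth_iUnion (E := fun T : 𝒞 => (T : Set E)) fun T => ?_).mono
      (by rwa [← sUnion_eq_iUnion])
    obtain ⟨m, U, γ, hm, hU, hγ, hT⟩ := h2 T T.2
    rw [hT]
    refine (sard hU hγ).mono (image_mono fun z hz => ⟨hz, fun hs => ?_⟩)
    have := LinearMap.finrank_le_finrank_of_surjective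
      (f := (fderiv ℂ γ z : (Fin m → ℂ) →ₗ[ℂ] E)) hs
    simp at this
    omega
  · rintro ⟨U, g, h1, h2⟩
    refine (cov_iUnion (S := fun j => {z | z ∈ U j ∧ g j z = 0 ∧ fderiv ℂ (g j) z ≠ 0})
      fun j => cov_of_local fun z₀ hz₀ => ?_).sub fun z hz => mem_iUnion.2 (h2 z hz)
    obtain ⟨hzU, -, hdg⟩ := hz₀
    set L : E →L[ℂ] ℂ := fderiv ℂ (g j) z₀ with hL
    obtain ⟨v, hv⟩ : ∃ v, L v ≠ 0 := by
      by_contra hcon
      push Not at hcon
      exact hdg (ContinuousLinearMap.ext hcon)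
    set A : ℂ →L[ℂ] E := (ContinuousLinearMap.id ℂ ℂ).smulRight ((L v)⁻¹ • v) with hA
    have hLA : ∀ x, L (A x) = x := by
      intro x
      simp [hA, hv]
    obtain ⟨O, O', G, hOo, hO'o, hzO, -, hGa, s1, -⟩ :=
      straighten (F := g j) ((h1 j).1.mem_nhds hzU) (h1 j).2 L hL A hLA
    set K : Submodule ℂ E := LinearMap.ker (L : E →ₗ[ℂ] ℂ) with hK
    have hKlt : finrank ℂ K < finrank ℂ E := by
      refine Submodule.finrank_lt fun h => hv ?_
      have h1 : v ∈ K := by rw [h]; trivial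
      exact h1
    refine ⟨O, hOo.mem_nhds hzO, (cov_img (V := K) hKlt (U := Subtype.val ⁻¹' O')
      (hO'o.preimage continuous_subtype_val) (γ := fun k => G k)
      (fun k hk => (hGa _ hk).comp (K.subtypeL.analyticAt k))).sub ?_⟩
    rintro z ⟨⟨-, hz2, -⟩, hz4⟩
    obtain ⟨t1, t2, t3⟩ := s1 z hz4
    refine ⟨⟨_, ?_⟩, t1, t2⟩
    change L (z + A (g j z - L z)) = 0
    rw [t3, hz2]

theorem Cov.dense_compl {S : Set E} (h : Cov (finrank ℂ E) S) : Dense Sᶜ := by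
  borelize E
  exact (cov_iff_sth.1 h).dense_compl

theorem Cov.null [MeasurableSpace E] [BorelSpace E] (μ : MeasureTheory.Measure E)
    [μ.IsAddHaarMeasure] {S : Set E} (h : Cov (finrank ℂ E) S) : μ S = 0 :=
  (cov_iff_sth.1 h).null μ

theorem Cov.not_mem_nhds {S : Set E} (h : Cov (finrank ℂ E) S) (x : E) : S ∉ 𝓝 x := by
  intro hx
  obtain ⟨y, h1, h2⟩ := h.dense_compl.inter_nhds_nonempty hx
  exact h1 h2

theorem cov_zeros {U : Set E} (hU : IsOpen U) {g : E → ℂ} (hg : AnalyticOnNhd ℂ g U)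
    (hne : ∀ z ∈ U, ∃ᶠ w in 𝓝 z, g w ≠ 0) : Cov (finrank ℂ E) {z | z ∈ U ∧ g z = 0} := by
  have : ProperSpace E := FiniteDimensional.proper ℂ E
  exact cov_iff_sth.2 (sth_zero hU hg hne)

/-- zeros of an analytic function which is not identically zero on a connected open set -/
theorem cov_zeros' {U : Set E} (hU : IsOpen U) (hc : IsPreconnected U) {g : E → ℂ}
    (hg : AnalyticOnNhd ℂ g U) {a : E} (ha : a ∈ U) (hga : g a ≠ 0) :
    Cov (finrank ℂ E) {z | z ∈ U ∧ g z = 0} := by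
  refine cov_zeros hU hg fun z hz h0 => hga ?_
  refine hg.eqOn_zero_of_preconnected_of_eventuallyEq_zero hc hz ?_ ha
  filter_upwards [h0] with w hw
  simpa using hw

theorem not_cov_of_inj {g : V → E} {t : V} (hg : AnalyticAt ℂ g t)
    (hi : Function.Injective (fderiv ℂ g t)) {N : Set V} (hN : N ∈ 𝓝 t) :
    ¬ Cov (finrank ℂ V) (g '' N) := by
  have : CompleteSpace E := FiniteDimensional.complete ℂ E
  have : CompleteSpace V := FiniteDimensional.complete ℂ V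
  intro h
  obtain ⟨L₀, hL₀⟩ := (fderiv ℂ g t : V →ₗ[ℂ] E).exists_leftInverse_of_injective
    (LinearMap.ker_eq_bot.2 hi)
  set L : E →L[ℂ] V := LinearMap.toContinuousLinearMap L₀
  have h1 := h.image (f := L) (fun x _ => L.analyticAt x)
  have h2 : HasStrictFDerivAt (fun s => L (g s)) (L.comp (fderiv ℂ g t)) t :=
    L.hasStrictFDerivAt.comp t hg.hasStrictFDerivAt
  have h3 := h2.map_nhds_eq_of_surj (by
    refine LinearMap.range_eq_top.2 fun v => ⟨v, ?_⟩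
    exact LinearMap.congr_fun hL₀ v)
  refine h1.not_mem_nhds (L (g t)) ?_
  rw [← h3, image_image]
  exact image_mem_map hN

/-- Riemann extension across closed thin sets -/
theorem Cov.extend {U S : Set E} (hU : IsOpen U) (hS : Cov (finrank ℂ E) S)
    (hUS : IsOpen (U \ S)) {f : E → ℂ} (hf : AnalyticOnNhd ℂ f (U \ S))
    (hb : ∀ z ∈ U, ∃ N ∈ 𝓝 z, ∃ C : ℝ, ∀ w ∈ N ∩ (U \ S), ‖f w‖ ≤ C) :
    ∃ g : E → ℂ, AnalyticOnNhd ℂ g U ∧ ∀ z ∈ U \ S, g z = f z := by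
  obtain ⟨g, h1, h2⟩ := (cov_iff_sth.1 hS).extend hU hUS hf.differentiableOn hb
  exact ⟨g, R266.SCV.analyticOnNhd_of_differentiableOn hU h1, h2⟩

/-- a closed thin set does not disconnect -/
theorem preconnected_diff {U S : Set E} (hU : IsOpen U) (hc : IsPreconnected U)
    (hS : Cov (finrank ℂ E) S) (hUS : IsOpen (U \ S)) : IsPreconnected (U \ S) := by
  classical
  rintro u v hu hv huv ⟨a, ha, hau⟩ ⟨b, hb, hbv⟩
  by_contra hne
  rw [not_nonempty_iff_eq_empty] at hne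
  have hdis : ∀ z ∈ U \ S, z ∈ v → z ∉ u := fun z hz hzv hzu =>
    (hne ▸ (⟨hz, hzu, hzv⟩ : z ∈ (U \ S) ∩ (u ∩ v)) : z ∈ (∅ : Set E))
  set f : E → ℂ := fun z => if z ∈ u then 1 else 0 with hf
  have h0 : ∀ z ∈ U \ S, z ∈ v → ∀ᶠ w in 𝓝 z, f w = 0 := by
    intro z hz hzv
    filter_upwards [hUS.mem_nhds hz, hv.mem_nhds hzv] with w h1 h2
    simp only [hf, if_neg (hdis w h1 h2)]
  obtain ⟨g, g1, g2⟩ := hS.extend hU hUS (f := f) (by
    intro z hz
    rcases huv hz with h | h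
    · refine (analyticAt_const (v := (1 : ℂ))).congr ?_
      filter_upwards [hu.mem_nhds h] with w hw
      simp only [hf, if_pos hw]
    · refine (analyticAt_const (v := (0 : ℂ))).congr ?_
      filter_upwards [h0 z hz h] with w hw
      exact hw.symm) (fun z _ => ⟨univ, univ_mem, 1, fun w _ => by
        simp only [hf]; split_ifs <;> simp⟩)
  have h1 : g a = 0 := by
    refine g1.eqOn_zero_of_preconnected_of_eventuallyEq_zero hc hb.1 ?_ ha.1
    filter_upwards [h0 b hb hbv, hUS.mem_nhds hb] with w hw hw'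
    rw [g2 w hw', hw]; rfl
  rw [g2 a ha] at h1
  simp [hf, hau] at h1

end Crest.Agent.X261.Ans
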