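import Crest.Agent.R275.Geo_509

/-!
# X261/Ans/Defs (helper8): analytic sets, definitions

Flat language (`E` a complex normed space):
* `Cut W Z`  : `Z ∩ W` is the common zero set of the holomorphic functions on `W` vanishing on it;
* `AnAt Z x`, `An U Z` : analytic at a point, on a set;
* `Reg Z d x` : `x` is a regular point of `Z` of dimension `d` (parametrisation + retraction);
* `Cov M S`  : `S` is covered by countably many holomorphic images of open sets of `ℂ^m`, `m < M`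
  ("dimension `< M`");
* `Irr U Y d` : irreducible of dimension `d`.

Manifold language: `HA E M` holomorphic atlas with model `E` (`HA.of A` for `A : Atl n M`, products,
the trivial atlas), and the same notions read in the charts.
-/

set_option autoImplicit false
set_option linter.unusedSectionVars false

open Set Filter Topology

namespace Crest.Agent.X261.Ans

noncomputable section

section Flat

variable {E : Type} [NormedAddCommGroup E] [NormedSpace ℂ E]

/-- `f` is holomorphic on `W` and vanishes on `W ∩ Z` -/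
def Van (W Z : Set E) (f : E → ℂ) : Prop := AnalyticOnNhd ℂ f W ∧ ∀ z ∈ W, z ∈ Z → f z = 0

/-- `Z ∩ W` is the common zero set of the holomorphic functions on `W` vanishing on it -/
def Cut (W Z : Set E) : Prop := ∀ y ∈ W, y ∉ Z → ∃ f : E → ℂ, Van W Z f ∧ f y ≠ 0

/-- `Z` is analytic at `x` -/
def AnAt (Z : Set E) (x : E) : Prop := ∃ W : Set E, IsOpen W ∧ x ∈ W ∧ Cut W Z

/-- `Z` is analytic at all points of `U` -/
def An (U Z : Set E) : Prop := ∀ x ∈ U, AnAt Z x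

/-- `x` is a regular point of dimension `d` of `Z` -/
def Reg (Z : Set E) (d : ℕ) (x : E) : Prop :=
  x ∈ Z ∧ ∃ (φ : (Fin d → ℂ) → E) (ρ : E → Fin d → ℂ), AnalyticAt ℂ φ (ρ x) ∧ AnalyticAt ℂ ρ x ∧
    (∀ᶠ t in 𝓝 (ρ x), φ t ∈ Z ∧ ρ (φ t) = t) ∧ ∀ᶠ y in 𝓝 x, y ∈ Z → φ (ρ y) = y

/-- holomorphic image of an open subset of `ℂ^m`, `m < M` -/
def Img (M : ℕ) (T : Set E) : Prop :=
  ∃ (m : ℕ) (U : Set (Fin m → ℂ)) (γ : (Fin m → ℂ) → E), m < M ∧ IsOpen U ∧
    AnalyticOnNhd ℂ γ U ∧ T = γ '' U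

/-- dimension `< M` in the covering sense -/
def Cov (M : ℕ) (S : Set E) : Prop :=
  ∃ 𝒞 : Set (Set E), 𝒞.Countable ∧ (∀ T ∈ 𝒞, Img M T) ∧ S ⊆ ⋃₀ 𝒞

/-- `x` is isolated in `Z ∩ l ⁻¹ (l x)` for a linear map `l` to `ℂ^p` -/
def SDim (Z : Set E) (x : E) (p : ℕ) : Prop :=
  ∃ l : E →L[ℂ] (Fin p → ℂ), ∀ᶠ y in 𝓝[≠] x, y ∈ Z → l y ≠ l x

end Flat

/-- holomorphic atlas with model space `E` -/
structure HA (E : Type) [NormedAddCommGroup E] [NormedSpace ℂ E] (M : Type) [TopologicalSpace M]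
    where
  ι : Type
  e : ι → OpenPartialHomeomorph M E
  cover : ∀ x, ∃ i, x ∈ (e i).source
  holo : ∀ i j, DifferentiableOn ℂ (fun z => e j ((e i).symm z))
    {z | z ∈ (e i).target ∧ (e i).symm z ∈ (e j).source}

namespace HA

variable {E F : Type} [NormedAddCommGroup E] [NormedSpace ℂ E] [NormedAddCommGroup F]
  [NormedSpace ℂ F] {M N : Type} [TopologicalSpace M] [TopologicalSpace N]

/-- the atlas of an `Atl` -/
def of {n : ℕ} (A : R275.Geo.Atl n M) : HA (R275.Geo.Cn n) M := ⟨A.ι, A.e, A.cover, A.holo⟩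

/-- the trivial atlas -/
def self (E : Type) [NormedAddCommGroup E] [NormedSpace ℂ E] : HA E E where
  ι := Unit
  e := fun _ => OpenPartialHomeomorph.refl E
  cover := fun x => ⟨(), mem_univ x⟩
  holo := fun _ _ => differentiableOn_id

/-- the product atlas -/
def prod (A : HA E M) (B : HA F N) : HA (E × F) (M × N) where
  ι := A.ι × B.ι
  e := fun p => (A.e p.1).prod (B.e p.2)
  cover := fun x => by
    obtain ⟨i, hi⟩ := A.cover x.1
    obtain ⟨j, hj⟩ := B.cover x.2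
    exact ⟨(i, j), hi, hj⟩
  holo := fun p q => by
    refine DifferentiableOn.prodMk ?_ ?_
    · exact (A.holo p.1 q.1).comp differentiableOn_fst (fun z hz => ⟨hz.1.1, hz.2.1⟩)
    · exact (B.holo p.2 q.2).comp differentiableOn_snd (fun z hz => ⟨hz.1.2, hz.2.2⟩)

variable (A : HA E M)

/-- `f : M → N` is holomorphic at `x` -/
def Hol (B : HA F N) (f : M → N) (x : M) : Prop :=
  ContinuousAt f x ∧ ∀ i j, x ∈ (A.e i).source → f x ∈ (B.e j).source →
    AnalyticAt ℂ (fun z => B.e j (f ((A.e i).symm z))) (A.e i x)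

/-- analytic at a point -/
def AnAt (Z : Set M) (x : M) : Prop :=
  ∃ i, x ∈ (A.e i).source ∧ Ans.AnAt ((A.e i).symm ⁻¹' Z) (A.e i x)

/-- analytic at all points of `U` -/
def An (U Z : Set M) : Prop := ∀ x ∈ U, A.AnAt Z x

/-- regular point of dimension `d` -/
def Reg (Z : Set M) (d : ℕ) (x : M) : Prop :=
  ∃ i, x ∈ (A.e i).source ∧ Ans.Reg ((A.e i).symm ⁻¹' Z) d (A.e i x)

/-- dimension `< k` -/
def Cov (k : ℕ) (S : Set M) : Prop :=
  ∀ i, Ans.Cov k ((A.e i).target ∩ (A.e i).symm ⁻¹' S)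

/-- irreducible analytic subset of the open set `U`, of dimension `d` -/
def Irr (U Y : Set M) (d : ℕ) : Prop :=
  A.An U Y ∧ {y | y ∈ U ∧ A.Reg Y d y}.Nonempty ∧ IsPreconnected {y | y ∈ U ∧ A.Reg Y d y} ∧
    U ∩ Y ⊆ closure {y | y ∈ U ∧ A.Reg Y d y}

/-- `Y` is an irreducible component of `Z` in `U` -/
def Comp (U Z Y : Set M) : Prop :=
  ∃ y ∈ U, (∃ d, A.Reg Z d y) ∧
    Y = U ∩ closure (connectedComponentIn {y | y ∈ U ∧ ∃ d, A.Reg Z d y} y)

/-- `S` is contained in a countable union of proper analytic subsets -/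
def Mg (S : Set M) : Prop :=
  ∃ B : ℕ → Set M, (∀ k, A.An univ (B k) ∧ B k ≠ univ) ∧ S ⊆ ⋃ k, B k

end HA

/-- a family of analytic relations, closed under inverse and (generically) under composition -/
structure RelD {E : Type} [NormedAddCommGroup E] [NormedSpace ℂ E] {M : Type}
    [TopologicalSpace M] (A : HA E M) where
  I : Type
  ne : Nonempty I
  R : I → Set (M × M)
  an : ∀ c, (A.prod A).An univ (R c)
  diag : ∀ c x, (x, x) ∈ R c
  symm : ∀ c, ∃ c', ∀ x y, (x, y) ∈ R c → (y, x) ∈ R c'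
  comp : ∀ c c', ∃ c'', ∃ B : Set M, A.Mg B ∧ ∀ x y z, x ∉ B → y ∉ B → z ∉ B →
    (x, y) ∈ R c → (y, z) ∈ R c' → (x, z) ∈ R c''

/-- foliation chart of the relation `Y` at `x`: `Y` is the fibre relation of a submersion to `ℂ^p`,
and `Y` is saturated along the fibres -/
def Fol {E : Type} [NormedAddCommGroup E] [NormedSpace ℂ E] {M : Type} [TopologicalSpace M]
    (A : HA E M) (Y : Set (M × M)) (p : ℕ) (x : M) : Prop :=
  ∃ (i : A.ι) (U : Set M) (π : E → Fin p → ℂ), IsOpen U ∧ x ∈ U ∧ U ⊆ (A.e i).source ∧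
    (∀ y ∈ U, AnalyticAt ℂ π (A.e i y) ∧ Function.Surjective (fderiv ℂ π (A.e i y))) ∧
    (∀ y ∈ U, ∀ z ∈ U, (y, z) ∈ Y ↔ π (A.e i y) = π (A.e i z)) ∧
    ∀ y ∈ U, ∀ z ∈ U, (y, z) ∈ Y → ∀ q, (z, q) ∈ Y → (y, q) ∈ Y

/-- the output of the theorem on analytic relations -/
structure EqvD {E : Type} [NormedAddCommGroup E] [NormedSpace ℂ E] {M : Type}
    [TopologicalSpace M] {A : HA E M} (D : RelD A) where
  p : ℕ
  r : ℕ
  hpr : p + r = Module.finrank ℂ E
  Y : Set (M × M)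
  irr : (A.prod A).Irr univ Y (Module.finrank ℂ E + r)
  sub : ∃ c, Y ⊆ D.R c
  diag : ∀ x, (x, x) ∈ Y
  symm : ∀ x y, (x, y) ∈ Y → (y, x) ∈ Y
  /-- every irreducible analytic set between the diagonal and some `R c` is inside `Y` -/
  max : ∀ (Y' : Set (M × M)) (d : ℕ) (c : D.I), (A.prod A).Irr univ Y' d → (∀ x, (x, x) ∈ Y') →
    Y' ⊆ D.R c → Y' ⊆ Y
  /-- the bad set is analytic and proper -/
  an_bad : A.An univ {x | ¬ (A.prod A).Reg Y (Module.finrank ℂ E + r) (x, x)}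
  ne_good : ∃ x, (A.prod A).Reg Y (Module.finrank ℂ E + r) (x, x)
  fol : ∀ x, (A.prod A).Reg Y (Module.finrank ℂ E + r) (x, x) → Fol A Y p x
  /-- generically near the diagonal every `R c` is inside `Y` -/
  an_loc : ∀ c, A.An univ {x | ¬ ∀ᶠ q in 𝓝 (x, x), q ∈ D.R c → q ∈ Y}
  ne_loc : ∀ c, ∃ x, ∀ᶠ q in 𝓝 (x, x), q ∈ D.R c → q ∈ Y
  /-- the conormal determinant is meromorphic -/
  forms : ∀ (i : A.ι), ∀ x ∈ (A.e i).source, ∃ (W : Set E) (f : Fin p → E × E → ℂ), IsOpen W ∧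
    IsPreconnected W ∧ A.e i x ∈ W ∧ W ⊆ (A.e i).target ∧
    (∀ j, AnalyticOnNhd ℂ (f j) (W ×ˢ W)) ∧
    (∀ j, ∀ y ∈ W, ∀ z ∈ W, ((A.e i).symm y, (A.e i).symm z) ∈ Y → f j (y, z) = 0) ∧
    ∃ z ∈ W, Function.Surjective (fderiv ℂ (fun y => fun j => f j (z, y)) z)

end

end Crest.Agent.X261.Ans
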