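import Crest.Agent.X261.Ans.Defs
import Crest.Agent.X261.Ans.PjA

/-!
# X261/Ans/PjB (helper97): Remmert's projection theorem in the language of `Ans/Defs`
-/

set_option autoImplicit false
set_option linter.unusedSectionVars false

open Set Filter Topology Metric

namespace Crest.Agent.X261.Ans.Pj

variable {E F : Type} [NormedAddCommGroup E] [NormedSpace ℂ E] [FiniteDimensional ℂ E]
  [NormedAddCommGroup F] [NormedSpace ℂ F] [FiniteDimensional ℂ F]

theorem cut_iff {W Z : Set E} : Cut W Z ↔ SepOn Z W :=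
  ⟨fun h y hy hyZ => let ⟨f, h1, h2⟩ := h y hy hyZ; ⟨f, h1.1, h1.2, h2⟩,
    fun h y hy hyZ => let ⟨f, h1, h2, h3⟩ := h y hy hyZ; ⟨f, ⟨h1, h2⟩, h3⟩⟩

theorem anAt_iff {Z : Set E} {x : E} : AnAt Z x ↔ ZerAt Z x := by
  constructor
  · rintro ⟨W, h1, h2, h3⟩
    exact ⟨W, h1.mem_nhds h2, cut_iff.1 h3⟩
  · rintro ⟨N, hN, h⟩
    exact ⟨interior N, isOpen_interior, mem_interior_iff_mem_nhds.2 hN,
      cut_iff.2 (h.mono interior_subset)⟩

/-- zeros of a vector valued analytic map -/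
theorem sepOn_zero_vec {g : E → F} {N : Set E} (hg : AnalyticOnNhd ℂ g N) :
    SepOn {x | g x = 0} N := by
  intro x _ hx
  obtain ⟨l, hl⟩ := SeparatingDual.exists_ne_zero (R := ℂ) (show g x ≠ 0 from hx)
  refine ⟨fun y => l (g y), fun y hy => (l.analyticAt _).comp (hg y hy), fun y _ hy => ?_, hl⟩
  show l (g y) = 0
  rw [show g y = 0 from hy, map_zero]

theorem zerAt_zero_vec {g : E → F} {p : E} (hg : AnalyticAt ℂ g p) : ZerAt {x | g x = 0} p := by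
  have : CompleteSpace F := FiniteDimensional.complete ℂ F
  exact ⟨{x | AnalyticAt ℂ g x}, hg.eventually_analyticAt, sepOn_zero_vec fun _ hx => hx⟩

theorem zerAt_eq {g g' : E → F} {p : E} (hg : AnalyticAt ℂ g p) (hg' : AnalyticAt ℂ g' p) :
    ZerAt {x | g x = g' x} p :=
  (zerAt_zero_vec (hg.sub hg')).congr (Eventually.of_forall fun _ => sub_eq_zero)

/-- **PROJ** in the language of `Ans/Defs` -/
theorem an_proj {A : Set (E × F)} {x₀ : E} {K : Set F} (hK : IsCompact K)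
    (hA : ∀ w ∈ K, AnAt A (x₀, w)) (hb : ∀ᶠ x in 𝓝 x₀, ∀ w, (x, w) ∈ A → w ∈ K) :
    AnAt (Prod.fst '' A) x₀ ∧ ∀ᶠ x in 𝓝 x₀, {w | (x, w) ∈ A}.Finite := by
  obtain ⟨h1, h2⟩ := proj hK (fun w hw => anAt_iff.1 (hA w hw)) hb
  exact ⟨anAt_iff.2 h1, h2⟩

theorem finite_of_compact' {K : Set E} (hK : IsCompact K) (h : An K K) : K.Finite :=
  finite_of_compact hK fun w hw => anAt_iff.1 (h w hw)

/-- **finite mapping theorem**: a holomorphic map which is proper on `Z ∩ K` over a neighbourhood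
of `t₀` (no point of the fibre on the frontier of `K`) -/
theorem zer_image {Z K : Set E} (hK : IsCompact K) (hZ : ∀ y ∈ K, ZerAt Z y) {f : E → F}
    (hf : AnalyticOnNhd ℂ f K) {t₀ : F} (h : ∀ y ∈ K, y ∈ Z → f y = t₀ → K ∈ 𝓝 y) :
    ZerAt (f '' (Z ∩ K)) t₀ ∧ ∀ᶠ t in 𝓝 t₀, (Z ∩ K ∩ f ⁻¹' {t}).Finite := by
  have : CompleteSpace E := FiniteDimensional.complete ℂ E
  set A : Set (F × E) := {p | p.2 ∈ Z ∩ K ∧ f p.2 = p.1} with hA
  obtain ⟨h1, h2⟩ := proj (A := A) (x₀ := t₀) hK (fun y hy => by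
    have hfy : AnalyticAt ℂ (fun p : F × E => f p.2) (t₀, y) :=
      AnalyticAt.comp (g := f) (f := Prod.snd) (hf y hy) analyticAt_snd
    by_cases hyZ : y ∈ Z ∧ f y = t₀
    · have k1 : ZerAt ((Prod.snd : F × E → E) ⁻¹' Z) (t₀, y) :=
        ZerAt.preimage (hZ y hy) analyticAt_snd
      refine (k1.inter (zerAt_eq hfy analyticAt_fst)).congr ?_
      filter_upwards [continuousAt_snd (h y hy hyZ.1 hyZ.2)] with p hp
      exact ⟨fun hq => ⟨⟨hq.1, hp⟩, hq.2⟩, fun hq => ⟨hq.1.1, hq.2⟩⟩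
    · refine zerAt_of_eventually_notMem ?_
      by_cases hy1 : y ∈ Z
      · have h3 : f y - t₀ ≠ 0 := fun h0 => hyZ ⟨hy1, sub_eq_zero.1 h0⟩
        filter_upwards [(hfy.sub analyticAt_fst).continuousAt.eventually_ne h3] with p hp hpA
        exact hp (sub_eq_zero.2 hpA.2)
      · filter_upwards [continuousAt_snd.eventually ((hZ y hy).eventually_notMem hy1)]
          with p hp hpA
        exact hp hpA.1.1) (Eventually.of_forall fun _ _ hw => hw.1.2)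
  refine ⟨h1.congr (Eventually.of_forall fun t => ⟨?_, ?_⟩), h2.mono fun t ht => ht⟩
  · rintro ⟨p, hp, rfl⟩
    exact ⟨p.2, hp.1, hp.2⟩
  · rintro ⟨y, hy, rfl⟩
    exact ⟨(f y, y), ⟨hy, rfl⟩, rfl⟩

/-- an isolated point of a fibre: finite map near it, with analytic image; the neighbourhood can
be taken inside any given one -/
theorem fib_usc' {Z : Set E} {x : E} (hZ : AnAt Z x) {f : E → F} (hf : AnalyticAt ℂ f x)
    (h : ∀ᶠ y in 𝓝[≠] x, y ∈ Z → f y ≠ f x) {W : Set E} (hW : W ∈ 𝓝 x) :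
    ∃ N ∈ 𝓝 x, N ⊆ W ∧ (∀ t, (Z ∩ N ∩ f ⁻¹' {t}).Finite) ∧ AnAt (f '' (Z ∩ N)) (f x) := by
  have : CompleteSpace F := FiniteDimensional.complete ℂ F
  have : ProperSpace E := FiniteDimensional.proper ℂ E
  rw [eventually_nhdsWithin_iff] at h
  obtain ⟨r, hr, hsub⟩ := Metric.nhds_basis_closedBall.mem_iff.1 (inter_mem hW
    ((anAt_iff.1 hZ).eventually.and (hf.eventually_analyticAt.and h)))
  obtain ⟨h1, h2⟩ := zer_image (Z := Z) (f := f) (t₀ := f x) (isCompact_closedBall x r)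
    (fun y hy => (hsub hy).2.1) (fun y hy => (hsub hy).2.2.1) (fun y hy hyZ hfy => by
      have : y = x := by
        by_contra hne
        exact (hsub hy).2.2.2 hne hyZ hfy
      rw [this]
      exact closedBall_mem_nhds x hr)
  refine ⟨closedBall x r ∩ f ⁻¹' {t | (Z ∩ closedBall x r ∩ f ⁻¹' {t}).Finite},
    inter_mem (closedBall_mem_nhds x hr) (hf.continuousAt h2), fun y hy => (hsub hy.1).1,
    fun t => ?_, anAt_iff.2 (h1.congr ?_)⟩
  · by_cases ht : (Z ∩ closedBall x r ∩ f ⁻¹' {t}).Finite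
    · exact ht.subset fun y hy => ⟨⟨hy.1.1, hy.1.2.1⟩, hy.2⟩
    · refine finite_empty.subset fun y hy => ht ?_
      have h3 : f y = t := hy.2
      rw [← h3]
      exact hy.1.2.2
  · filter_upwards [h2] with t ht
    constructor
    · rintro ⟨y, hy, rfl⟩
      exact ⟨y, ⟨hy.1, hy.2, ht⟩, rfl⟩
    · rintro ⟨y, hy, rfl⟩
      exact ⟨y, ⟨hy.1, hy.2.1⟩, rfl⟩

theorem fib_usc {Z : Set E} {x : E} (hZ : AnAt Z x) {f : E → F} (hf : AnalyticAt ℂ f x)
    (h : ∀ᶠ y in 𝓝[≠] x, y ∈ Z → f y ≠ f x) :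
    ∃ N ∈ 𝓝 x, (∀ t, (Z ∩ N ∩ f ⁻¹' {t}).Finite) ∧ AnAt (f '' (Z ∩ N)) (f x) := by
  obtain ⟨N, h1, -, h2⟩ := fib_usc' hZ hf h univ_mem
  exact ⟨N, h1, h2⟩

end Crest.Agent.X261.Ans.Pj
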