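import Crest.Agent.X261.Ans.Dim
import Crest.Agent.X261.Ans.Man

/-!
# X261/Ans/DimM (helper97): manifold versions of `Ans/Dim` (USC, finite maps, DOM)
-/

set_option autoImplicit false
set_option linter.unusedSectionVars false

open Set Filter Topology Module

namespace Crest.Agent.X261.Ans

variable {E F : Type} [NormedAddCommGroup E] [NormedSpace ℂ E] [FiniteDimensional ℂ E]
  [NormedAddCommGroup F] [NormedSpace ℂ F] [FiniteDimensional ℂ F]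
  {M N : Type} [TopologicalSpace M] [TopologicalSpace N] {A : HA E M} {B : HA F N}

namespace HA

/-- the domain of `f` read in the charts `i`, `j`, restricted to `W` -/
theorem dm_nhds {f : M → N} {x : M} (hf : ContinuousAt f x) {i : A.ι} {j : B.ι}
    (hi : x ∈ (A.e i).source) (hj : f x ∈ (B.e j).source) {W : Set M} (hW : W ∈ 𝓝 x) :
    (A.e i).target ∩ (A.e i).symm ⁻¹' (W ∩ f ⁻¹' (B.e j).source) ∈ 𝓝 (A.e i x) :=
  inter_mem (ev_target hi) (tendsto_symm hi (inter_mem hW (hf ((B.e j).open_source.mem_nhds hj))))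

/-- **upper semicontinuity of the fibre dimension** -/
theorem usc {Z W : Set M} {x : M} (hZ : A.AnAt Z x) {f : M → N} (hf : A.Hol B f x)
    (hW : W ∈ 𝓝 x) {s : ℕ} (hc : A.Cov (s + 1) (Z ∩ W ∩ f ⁻¹' {f x})) :
    ∃ O : Set M, IsOpen O ∧ x ∈ O ∧ O ⊆ W ∧ (∀ t, A.Cov (s + 1) (Z ∩ O ∩ f ⁻¹' {t})) ∧
      A.Cov (finrank ℂ F + s + 1) (Z ∩ O) := by
  obtain ⟨i, hi, hZ⟩ := hZ
  obtain ⟨j, hj⟩ := B.cover (f x)
  obtain ⟨O, h1, h2, h3, h4, h5⟩ := Dm.usc hZ (hf.2 i j hi hj) (dm_nhds hf.1 hi hj hW) (s := s)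
    ((hc i).sub (by
      rintro z ⟨⟨a, b, c, d⟩, e⟩
      refine ⟨b, ⟨a, c⟩, ?_⟩
      have e' : B.e j (f ((A.e i).symm z)) = B.e j (f ((A.e i).symm (A.e i x))) := e
      rw [(A.e i).left_inv hi] at e'
      exact (B.e j).injOn d hj e'))
  have hOt : O ⊆ (A.e i).target := fun z hz => (h3 hz).1
  refine ⟨(A.e i).symm '' O, isOpen_symm_image hOt h1, ⟨_, h2, (A.e i).left_inv hi⟩, ?_,
    fun t => (cov_symm (fun z hz => hOt hz.1.2) (h4 (B.e j t))).sub ?_,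
    (cov_symm (fun z hz => hOt hz.2) h5).sub ?_⟩
  · rintro _ ⟨z, hz, rfl⟩
    exact (h3 hz).2.1
  · rintro _ ⟨⟨a, z, hz, rfl⟩, b⟩
    exact ⟨z, ⟨⟨a, hz⟩, congrArg (B.e j) b⟩, rfl⟩
  · rintro _ ⟨a, z, hz, rfl⟩
    exact ⟨z, ⟨a, hz⟩, rfl⟩

/-- **dimension from the image and the fibres** -/
theorem cov_of_image {Z W : Set M} (hW : IsOpen W) (hZ : ∀ x ∈ W, x ∈ Z → A.AnAt Z x)
    {f : M → N} (hf : ∀ x ∈ Z ∩ W, A.Hol B f x) {s : ℕ}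
    (hc : ∀ t, A.Cov (s + 1) (Z ∩ W ∩ f ⁻¹' {t})) {m : ℕ} (hm : B.Cov m (f '' (Z ∩ W))) :
    A.Cov (m + s) (Z ∩ W) := by
  refine cov_of_local fun x hx => ?_
  obtain ⟨i, hi⟩ := A.cover x
  obtain ⟨j, hj⟩ := B.cover (f x)
  obtain ⟨O, hO, hOo, hxO⟩ := mem_nhds_iff.1 (dm_nhds (hf x hx).1 hi hj (hW.mem_nhds hx.2))
  have hOt : O ⊆ (A.e i).target := fun z hz => (hO hz).1
  have h1 := Dm.cov_of_image (Z := (A.e i).symm ⁻¹' Z) hOo
    (fun z hz hzZ => (hZ _ (hO hz).2.1 hzZ).chart (hOt hz))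
    (f := fun z => B.e j (f ((A.e i).symm z)))
    (fun z hz => (hf _ ⟨hz.1, (hO hz.2).2.1⟩).an (hOt hz.2) (hO hz.2).2.2) (s := s)
    (fun t => (hc ((B.e j).symm t) i).sub (by
      rintro z ⟨⟨a, b⟩, c⟩
      refine ⟨hOt b, ⟨a, (hO b).2.1⟩, ?_⟩
      have c' : B.e j (f ((A.e i).symm z)) = t := c
      change f ((A.e i).symm z) = (B.e j).symm t
      rw [← c', (B.e j).left_inv (hO b).2.2])) (m := m)
    ((hm j).sub (by
      rintro _ ⟨z, ⟨a, b⟩, rfl⟩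
      refine ⟨(B.e j).map_source (hO b).2.2, (A.e i).symm z, ⟨a, (hO b).2.1⟩, ?_⟩
      exact ((B.e j).left_inv (hO b).2.2).symm))
  refine ⟨(A.e i).symm '' O, (isOpen_symm_image hOt hOo).mem_nhds ⟨_, hxO, (A.e i).left_inv hi⟩,
    (cov_symm (fun z hz => hOt hz.2) h1).sub ?_⟩
  rintro _ ⟨a, z, hz, rfl⟩
  exact ⟨z, ⟨a.1, hz⟩, rfl⟩

/-- **dimension from fibres** -/
theorem cov_of_fibres {Z W : Set M} (hW : IsOpen W) (hZ : ∀ x ∈ W, x ∈ Z → A.AnAt Z x)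
    {f : M → N} (hf : ∀ x ∈ Z ∩ W, A.Hol B f x) {s : ℕ}
    (hc : ∀ t, A.Cov (s + 1) (Z ∩ W ∩ f ⁻¹' {t})) : A.Cov (finrank ℂ F + s + 1) (Z ∩ W) :=
  (cov_of_image hW hZ hf hc (B.cov_top _)).mono (by omega)

theorem ev_chart_ne {x : M} {i : A.ι} (hi : x ∈ (A.e i).source) {p : M → Prop} :
    (∀ᶠ y in 𝓝[≠] x, p y) ↔ ∀ᶠ z in 𝓝[≠] (A.e i x), p ((A.e i).symm z) := by
  rw [eventually_nhdsWithin_iff, eventually_nhdsWithin_iff, ev_chart hi]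
  refine eventually_congr ((ev_target hi).mono fun z hz => imp_congr_left (not_congr ⟨?_, ?_⟩))
  · intro h
    rw [mem_singleton_iff] at h ⊢
    rw [← h, (A.e i).right_inv hz]
  · intro h
    rw [mem_singleton_iff] at h ⊢
    rw [h, (A.e i).left_inv hi]

/-- a countable analytic set is discrete -/
theorem isolated_of_countable {Z W : Set M} {x : M} (hZ : A.AnAt Z x) (hW : W ∈ 𝓝 x)
    (hc : (Z ∩ W).Countable) : ∀ᶠ y in 𝓝[≠] x, y ∉ Z := by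
  obtain ⟨i, hi, hZ⟩ := hZ
  rw [ev_chart_ne hi]
  refine Dm.isolated_of_countable hZ (inter_mem (ev_target hi) (tendsto_symm hi hW))
    ((hc.image (A.e i)).mono fun z hz => ?_)
  exact ⟨(A.e i).symm z, ⟨hz.1, hz.2.2⟩, (A.e i).right_inv hz.2.1⟩

theorem isolated_of_cov_one {Z W : Set M} {x : M} (hZ : A.AnAt Z x) (hW : W ∈ 𝓝 x)
    (hc : A.Cov 1 (Z ∩ W)) : ∀ᶠ y in 𝓝[≠] x, y ∉ Z := by
  obtain ⟨i, hi, hZ⟩ := hZ
  rw [ev_chart_ne hi]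
  refine Dm.isolated_of_countable hZ (inter_mem (ev_target hi) (tendsto_symm hi hW))
    ((Ans.cov_one.1 (hc i)).mono fun z hz => ?_)
  exact ⟨hz.2.1, hz.1, hz.2.2⟩

/-- a compact analytic set of dimension `0` is finite -/
theorem finite_of_cov_one {Z : Set M} (hK : IsCompact Z) (hZ : A.An Z Z) (hc : A.Cov 1 Z) :
    Z.Finite := by
  obtain ⟨t, -, ht⟩ := hK.elim_nhds_subcover (fun x => {y | y ∈ Z → y = x}) fun x hx => by
    have h := isolated_of_cov_one (hZ x hx) univ_mem (hc.sub inter_subset_left)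
    rw [eventually_nhdsWithin_iff] at h
    filter_upwards [h] with y hy hyZ
    exact by_contra fun hne => hy hne hyZ
  refine t.finite_toSet.subset fun y hy => ?_
  obtain ⟨x, hx, hyx⟩ := mem_iUnion₂.1 (ht hy)
  rw [hyx hy]
  exact hx

theorem isol_chart {Z : Set M} {x : M} {f : M → N} (hf : ContinuousAt f x) {i : A.ι} {j : B.ι}
    (hi : x ∈ (A.e i).source) (hj : f x ∈ (B.e j).source)
    (h : ∀ᶠ y in 𝓝[≠] x, y ∈ Z → f y ≠ f x) :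
    ∀ᶠ z in 𝓝[≠] (A.e i x), z ∈ (A.e i).symm ⁻¹' Z →
      B.e j (f ((A.e i).symm z)) ≠ B.e j (f ((A.e i).symm (A.e i x))) := by
  rw [(A.e i).left_inv hi]
  filter_upwards [(ev_chart_ne hi).1 h, nhdsWithin_le_nhds (dm_nhds hf hi hj univ_mem)]
    with z a b c e
  exact a c ((B.e j).injOn b.2.2 hj e)

/-- **finite mapping theorem** at an isolated point of the fibre -/
theorem fib_usc {Z : Set M} {x : M} (hZ : A.AnAt Z x) {f : M → N} (hf : A.Hol B f x)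
    (h : ∀ᶠ y in 𝓝[≠] x, y ∈ Z → f y ≠ f x) {W : Set M} (hW : W ∈ 𝓝 x) :
    ∃ O ∈ 𝓝 x, O ⊆ W ∧ (∀ t, (Z ∩ O ∩ f ⁻¹' {t}).Finite) ∧ B.AnAt (f '' (Z ∩ O)) (f x) := by
  obtain ⟨i, hi, hZ⟩ := hZ
  obtain ⟨j, hj⟩ := B.cover (f x)
  obtain ⟨O, h1, h2, h3, h4⟩ := Pj.fib_usc' hZ (hf.2 i j hi hj) (isol_chart hf.1 hi hj h)
    (dm_nhds hf.1 hi hj hW)
  refine ⟨(A.e i).symm '' O, ?_, ?_, fun t => ((h3 (B.e j t)).image (A.e i).symm).subset ?_,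
    j, hj, ?_⟩
  · filter_upwards [(ev_chart' hi).1 (show ∀ᶠ z in 𝓝 (A.e i x), z ∈ O from h1), ev_source hi]
      with y a b
    exact ⟨_, a, (A.e i).left_inv b⟩
  · rintro _ ⟨z, hz, rfl⟩
    exact (h2 hz).2.1
  · rintro _ ⟨⟨a, z, hz, rfl⟩, b⟩
    exact ⟨z, ⟨⟨a, hz⟩, congrArg (B.e j) b⟩, rfl⟩
  · rw [(A.e i).left_inv hi] at h4
    refine h4.congr ((ev_target hj).mono fun t ht => ⟨?_, ?_⟩)
    · rintro ⟨z, ⟨a, b⟩, rfl⟩
      exact ⟨(A.e i).symm z, ⟨a, z, b, rfl⟩, ((B.e j).left_inv (h2 b).2.2).symm⟩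
    · rintro ⟨_, ⟨a, z, b, rfl⟩, e⟩
      refine ⟨z, ⟨a, b⟩, ?_⟩
      change B.e j (f ((A.e i).symm z)) = t
      rw [e, (B.e j).right_inv ht]

/-- **openness of finite maps** -/
theorem image_mem_nhds {Z : Set M} {x : M} (hZ : A.AnAt Z x) {f : M → N} (hf : A.Hol B f x)
    (h : ∀ᶠ y in 𝓝[≠] x, y ∈ Z → f y ≠ f x) (hd : ∀ O ∈ 𝓝 x, ¬ A.Cov (finrank ℂ F) (Z ∩ O))
    {W : Set M} (hW : W ∈ 𝓝 x) : f '' (Z ∩ W) ∈ 𝓝 (f x) := by
  obtain ⟨i, hi, hZ⟩ := hZ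
  obtain ⟨j, hj⟩ := B.cover (f x)
  have h1 := Dm.image_mem_nhds hZ (hf.2 i j hi hj) (isol_chart hf.1 hi hj h) (fun O hO hc => by
    refine hd ((A.e i).source ∩ A.e i ⁻¹' O) (inter_mem (ev_source hi)
      ((A.e i).continuousAt hi hO)) ((cov_symm (i := i) inter_subset_right
        (hc.sub inter_subset_left)).sub fun y hy => ?_)
    refine ⟨A.e i y, ⟨⟨?_, hy.2.2⟩, (A.e i).map_source hy.2.1⟩, (A.e i).left_inv hy.2.1⟩
    rw [mem_preimage, (A.e i).left_inv hy.2.1]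
    exact hy.1) (dm_nhds hf.1 hi hj hW)
  rw [(A.e i).left_inv hi] at h1
  filter_upwards [(B.e j).continuousAt hj h1, ev_source hj] with t a b
  obtain ⟨z, ⟨c, d⟩, e⟩ := a
  exact ⟨(A.e i).symm z, ⟨c, d.2.1⟩, (B.e j).injOn d.2.2 b e⟩

/-- local dichotomy at a regular point -/
theorem Reg.dom_loc {C : Set M} {d : ℕ} {x : M} (h : A.Reg C d x) {f : M → N}
    (hf : A.Hol B f x) (m : ℕ) : ∃ O ∈ 𝓝 x, B.Cov m (f '' (C ∩ O)) ∨
      ∀ S : Set N, B.Cov m S → A.Cov d (C ∩ O ∩ f ⁻¹' S) := by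
  obtain ⟨φ, ρ, h1, h2, h3, -, h5⟩ := h.param
  obtain ⟨j, hj⟩ := B.cover (f x)
  have h6 : (self (Fin d → ℂ)).Hol B (fun t => f (φ t)) (ρ x) := hf.comp_of_eq h1 h3
  have h7 : ∀ᶠ t in 𝓝 (ρ x), f (φ t) ∈ (B.e j).source :=
    h6.1.eventually_mem ((B.e j).open_source.mem_nhds (by rwa [h3]))
  obtain ⟨r, hr, hb⟩ := Metric.eventually_nhds_iff_ball.1 (h1.eventually.and (h6.eventually.and h7))
  have hO : ∀ᶠ y in 𝓝 x, ρ y ∈ Metric.ball (ρ x) r ∧ (y ∈ C → φ (ρ y) = y) :=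
    (h2.1.eventually_mem (Metric.ball_mem_nhds _ hr)).and h5
  refine ⟨_, hO, (Dm.dom_open (g := fun t => B.e j (f (φ t))) Metric.isOpen_ball
    (convex_ball _ _).isPreconnected
    (fun t ht => ((self_hol_iff' (f := fun t => f (φ t)) (hb t ht).2.2).1 (hb t ht).2.1).2)
      m).imp (fun hc => ?_)
    fun hc S hS => ?_⟩
  · refine (cov_symm (A := B) (i := j) ?_ hc).sub ?_
    · rintro _ ⟨t, ht, rfl⟩
      exact (B.e j).map_source (hb t ht).2.2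
    · rintro _ ⟨y, ⟨a, b, c⟩, rfl⟩
      refine ⟨_, ⟨ρ y, b, rfl⟩, ?_⟩
      rw [(B.e j).left_inv (hb _ b).2.2, c a]
  · have h8 := hc _ (hS j)
    rw [finrank_fin_fun] at h8
    refine (cov_image_chart (B := A) h8 (f := φ) fun t ht => (hb t ht.1).1).sub ?_
    rintro y ⟨⟨a, b, c⟩, e⟩
    refine ⟨ρ y, ⟨b, (B.e j).map_source (hb _ b).2.2, ?_⟩, c a⟩
    rw [mem_preimage, (B.e j).left_inv (hb _ b).2.2, c a]
    exact e

/-- **DOM** on a connected submanifold -/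
theorem dom_reg [Countable A.ι] {C : Set M} {d m : ℕ} (hc : IsPreconnected C)
    (hr : ∀ y ∈ C, A.Reg C d y) {f : M → N} (hf : ∀ y ∈ C, A.Hol B f y)
    (hn : ¬ B.Cov m (f '' C)) {S : Set N} (hS : B.Cov m S) : A.Cov d (C ∩ f ⁻¹' S) := by
  have := A.secondCountable
  set u : Set M := {y | ∃ O ∈ 𝓝 y, B.Cov m (f '' (C ∩ O))} with hu
  set v : Set M := {y | ∃ O ∈ 𝓝 y, ∀ S : Set N, B.Cov m S → A.Cov d (C ∩ O ∩ f ⁻¹' S)} with hv
  have huo : IsOpen u := isOpen_iff_mem_nhds.2 fun y ⟨O, hO, h⟩ =>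
    (eventually_mem_nhds_iff.2 hO).mono fun z hz => ⟨O, hz, h⟩
  have hvo : IsOpen v := isOpen_iff_mem_nhds.2 fun y ⟨O, hO, h⟩ =>
    (eventually_mem_nhds_iff.2 hO).mono fun z hz => ⟨O, hz, h⟩
  have hcov : C ⊆ u ∪ v := fun y hy => by
    obtain ⟨O, hO, h⟩ := (hr y hy).dom_loc (hf y hy) m
    exact h.imp (fun h => ⟨O, hO, h⟩) fun h => ⟨O, hO, h⟩
  have hdis : C ∩ (u ∩ v) = ∅ := by
    refine eq_empty_of_forall_notMem ?_
    rintro y ⟨hy, ⟨O, hO, h⟩, O', hO', h'⟩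
    refine (hr y hy).not_cov (inter_mem hO hO') ((h' _ h).sub fun z hz => ?_)
    exact ⟨⟨hz.1, hz.2.2⟩, z, ⟨hz.1, hz.2.1⟩, rfl⟩
  rcases (isPreconnected_iff_subset_of_disjoint.1 hc) u v huo hvo hcov hdis with h | h
  · exfalso
    choose! O hO hS using h
    obtain ⟨t, htE, htc, hcov⟩ := TopologicalSpace.countable_cover_nhdsWithin
      (s := C) (f := O) (fun z hz => mem_nhdsWithin_of_mem_nhds (hO hz))
    refine hn ((cov_biUnion htc fun z hz => hS (htE hz)).sub ?_)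
    rintro _ ⟨z, hz, rfl⟩
    obtain ⟨w, hw, hzw⟩ := mem_iUnion₂.1 (hcov hz)
    exact mem_iUnion₂.2 ⟨w, hw, z, ⟨hz, hzw⟩, rfl⟩
  · refine cov_of_local fun y hy => ?_
    obtain ⟨O, hO, h'⟩ := h hy.1
    exact ⟨O, hO, (h' S hS).sub fun z hz => ⟨⟨hz.1.1, hz.2⟩, hz.1.2⟩⟩

/-- images: `Cov` is local in the source -/
theorem cov_image_of_local (A : HA E M) [Countable A.ι] {k : ℕ} {S : Set M} {f : M → N}
    (h : ∀ x ∈ S, ∃ O ∈ 𝓝 x, B.Cov k (f '' (S ∩ O))) : B.Cov k (f '' S) := by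
  have := A.secondCountable
  choose! O hO hS using h
  obtain ⟨t, htE, htc, hcov⟩ := TopologicalSpace.countable_cover_nhdsWithin
    (s := S) (f := O) (fun z hz => mem_nhdsWithin_of_mem_nhds (hO z hz))
  refine (cov_biUnion htc fun z hz => hS z (htE hz)).sub ?_
  rintro _ ⟨z, hz, rfl⟩
  obtain ⟨w, hw, hzw⟩ := mem_iUnion₂.1 (hcov hz)
  exact mem_iUnion₂.2 ⟨w, hw, z, ⟨hz, hzw⟩, rfl⟩

/-- fibres which are big at every point force a small image -/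
theorem cov_image_of_big [Countable A.ι] {Z W : Set M} (hW : IsOpen W)
    (hZ : ∀ x ∈ W, x ∈ Z → A.AnAt Z x) {f : M → N} (hf : ∀ x ∈ Z ∩ W, A.Hol B f x) {d m : ℕ}
    (hd : A.Cov (d + 1) (Z ∩ W))
    (hb : ∀ x ∈ Z ∩ W, ∀ O ∈ 𝓝 x, ¬ A.Cov (d + 1 - m) (Z ∩ O ∩ f ⁻¹' {f x})) :
    B.Cov m (f '' (Z ∩ W)) := by
  refine cov_image_of_local A fun x hx => ?_
  obtain ⟨i, hi⟩ := A.cover x
  obtain ⟨j, hj⟩ := B.cover (f x)
  obtain ⟨O, hO, hOo, hxO⟩ := mem_nhds_iff.1 (dm_nhds (hf x hx).1 hi hj (hW.mem_nhds hx.2))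
  have hOt : O ⊆ (A.e i).target := fun z hz => (hO hz).1
  have hO' := isOpen_symm_image hOt hOo
  have h1 := Dm.cov_image_of_big (Z := (A.e i).symm ⁻¹' Z) hOo
    (fun z hz hzZ => (hZ _ (hO hz).2.1 hzZ).chart (hOt hz))
    (f := fun z => B.e j (f ((A.e i).symm z)))
    (fun z hz => (hf _ ⟨hz.1, (hO hz.2).2.1⟩).an (hOt hz.2) (hO hz.2).2.2) (d := d) (m := m)
    ((hd i).sub fun z hz => ⟨hOt hz.2, hz.1, (hO hz.2).2.1⟩) fun z hz hc => by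
      refine hb _ ⟨hz.1, (hO hz.2).2.1⟩ _ (hO'.mem_nhds ⟨z, hz.2, rfl⟩)
        ((cov_symm (fun w hw => hOt hw.1.2) hc).sub ?_)
      rintro _ ⟨⟨a, w, hw, rfl⟩, b⟩
      exact ⟨w, ⟨⟨a, hw⟩, congrArg (B.e j) b⟩, rfl⟩
  refine ⟨_, hO'.mem_nhds ⟨_, hxO, (A.e i).left_inv hi⟩,
    (cov_symm (A := B) (i := j) ?_ h1).sub ?_⟩
  · rintro _ ⟨z, hz, rfl⟩
    exact (B.e j).map_source (hO hz.2).2.2
  · rintro _ ⟨_, ⟨a, z, hz, rfl⟩, rfl⟩
    exact ⟨_, ⟨z, ⟨a.1, hz⟩, rfl⟩, (B.e j).left_inv (hO hz).2.2⟩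

/-- the image of an analytic set of pure dimension `d` is not bigger than the image of its
regular points -/
theorem cov_image_of_reg [Countable A.ι] {U Y : Set M} {d m : ℕ} (hU : IsOpen U)
    (hY : A.An U Y) (hp : U ∩ Y ⊆ closure {y | y ∈ U ∧ A.Reg Y d y}) (hd : A.Cov (d + 1) (U ∩ Y))
    {f : M → N} (hf : ∀ y ∈ U ∩ Y, A.Hol B f y)
    (hm : B.Cov m (f '' {y | y ∈ U ∧ A.Reg Y d y})) : B.Cov m (f '' (U ∩ Y)) := by
  rcases lt_or_ge d m with hlt | hle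
  · exact (hd.image hf).mono hlt
  rw [inter_comm] at hd hf ⊢
  refine cov_image_of_big hU (fun x hx _ => hY x hx) hf hd fun x hx O hO hc => ?_
  rw [show d + 1 - m = d - m + 1 by omega] at hc
  obtain ⟨O', h1, h2, -, h4, -⟩ := usc (hY x hx.2) (hf x hx) hO hc
  obtain ⟨y, hy1, hy2⟩ := mem_closure_iff_nhds.1 (hp ⟨hx.2, hx.1⟩) _ (h1.mem_nhds h2)
  obtain ⟨W, hW, hWo, hyW⟩ := eventually_nhds_iff.1 (hy2.2.eventually.and
    ((show ∀ᶠ z in 𝓝 y, z ∈ U from hU.mem_nhds hy2.1).and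
      (show ∀ᶠ z in 𝓝 y, z ∈ O' from h1.mem_nhds hy1)))
  have h5 := cov_of_image (B := B) hWo (fun z hz _ => hY z (hW z hz).2.1)
    (fun z hz => hf z ⟨hz.1, (hW z hz.2).2.1⟩) (s := d - m)
    (fun t => (h4 t).sub fun z hz => ⟨⟨hz.1.1, (hW z hz.1.2).2.2⟩, hz.2⟩)
    (hm.sub (image_mono fun z hz => ⟨(hW z hz.2).2.1, (hW z hz.2).1 hz.1⟩))
  rw [show m + (d - m) = d by omega] at h5
  exact hy2.2.not_cov (hWo.mem_nhds hyW) h5

/-- **DOM** for an irreducible analytic set, given that its singular set is thin -/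
theorem Irr.dom_of [Countable A.ι] {U Y : Set M} {d m : ℕ} (hU : IsOpen U) (h : A.Irr U Y d)
    (hs : A.Cov d {y | y ∈ U ∩ Y ∧ ¬ A.Reg Y d y})
    {f : M → N} (hf : ∀ y ∈ U ∩ Y, A.Hol B f y) (hn : ¬ B.Cov m (f '' (U ∩ Y)))
    {S : Set N} (hS : B.Cov m S) : A.Cov d (U ∩ Y ∩ f ⁻¹' S) := by
  have hd : A.Cov (d + 1) (U ∩ Y) := by
    refine ((hs.mono (Nat.le_succ d)).union
      (cov_of_reg (S := {y | A.Reg Y d y}) fun _ hy => hy)).sub fun y hy => ?_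
    by_cases hr : A.Reg Y d y
    · exact Or.inr hr
    · exact Or.inl ⟨hy, hr⟩
  have h1 := dom_reg (d := d) h.2.2.1 (fun y hy => hy.2.congr (by
    filter_upwards [hy.2.eventually, hU.mem_nhds hy.1] with z a b
    exact ⟨fun c => ⟨b, a c⟩, fun c => c.2.mem⟩)) (fun y hy => hf y ⟨hy.1, hy.2.mem⟩)
    (fun hm => hn (cov_image_of_reg hU h.1 h.2.2.2 hd hf hm)) hS
  refine (hs.union h1).sub fun y hy => ?_
  by_cases hr : A.Reg Y d y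
  · exact Or.inr ⟨⟨hy.1.1, hr⟩, hy.2⟩
  · exact Or.inl ⟨hy.1, hr⟩

end HA

end Crest.Agent.X261.Ans
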