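import Crest.Agent.X261.Ans.EqvD

/-!
# X261/Ans/EqA (helper7): a class `RelK` is directed; its member of maximal dimension is maximal
-/

set_option autoImplicit false
set_option linter.unusedSectionVars false

open Set Filter Topology Module

namespace Crest.Agent.X261.Ans

variable {E F : Type} [NormedAddCommGroup E] [NormedSpace ℂ E] [FiniteDimensional ℂ E]
  [NormedAddCommGroup F] [NormedSpace ℂ F] [FiniteDimensional ℂ F]
  {M N : Type} [TopologicalSpace M] [TopologicalSpace N] {A : HA E M} {B : HA F N}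

namespace HA

instance countable_prod [Countable A.ι] [Countable B.ι] : Countable (A.prod B).ι :=
  inferInstanceAs (Countable (A.ι × B.ι))

instance countable_self : Countable (self E).ι := inferInstanceAs (Countable Unit)

theorem comp_finite_at {U Z : Set M} (hU : IsOpen U) (hZ : A.An U Z) {x : M} (hx : x ∈ U) :
    {Y | A.Comp U Z Y ∧ x ∈ Y}.Finite := by
  obtain ⟨W, hW, h⟩ := comp_lf hU hZ hx
  exact h.subset fun Y hY => ⟨hY.1, x, hY.2, mem_of_mem_nhds hW⟩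

/-- near `x` only the components through `x` matter -/
theorem comp_near {U Z : Set M} (hU : IsOpen U) (hZ : A.An U Z) {x : M} (hx : x ∈ U) :
    ∀ᶠ z in 𝓝 x, z ∈ Z → ∃ Y, A.Comp U Z Y ∧ x ∈ Y ∧ z ∈ Y := by
  have h1 := (an_sUnion_comp hU hZ (T := {Y | A.Comp U Z Y ∧ x ∉ Y}) (fun _ h => h.1) x
    hx).eventually_notMem fun ⟨_, h1, h2⟩ => h1.2 h2
  filter_upwards [h1, hU.mem_nhds hx] with z h2 h3 h4
  obtain ⟨Y, h5, h6⟩ := comp_cover hU hZ h3 h4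
  exact ⟨Y, h5, by_contra fun h7 => h2 ⟨Y, ⟨h5, h7⟩, h6⟩, h6⟩

/-- a component of large dimension through a point of large local dimension -/
theorem exists_comp_not_cov {U Z : Set M} (hU : IsOpen U) (hZ : A.An U Z) {x : M} (hx : x ∈ U)
    {r : ℕ} (h : ∀ W ∈ 𝓝 x, ¬ A.Cov r (Z ∩ W)) : ∃ Y, A.Comp U Z Y ∧ x ∈ Y ∧ ¬ A.Cov r Y := by
  by_contra h1
  refine h _ (comp_near hU hZ hx) ((cov_biUnion (comp_finite_at hU hZ hx).countable (S := id)
    fun Y hY => by_contra fun h2 => h1 ⟨Y, hY.1, hY.2, h2⟩).sub fun z hz => ?_)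
  obtain ⟨Y, a, b, c⟩ := hz.2 hz.1
  exact mem_biUnion (t := id) ⟨a, b⟩ c

theorem not_cov_univ [Nonempty M] (A : HA E M) : ¬ A.Cov (finrank ℂ E) univ :=
  fun h => h.ne_univ rfl

/-- a countable cover has a member which is not thin -/
theorem exists_not_cov [Nonempty M] (A : HA E M) {α : Type*} {t : Set α} (ht : t.Countable)
    {c : M → α} (hc : ∀ y, c y ∈ t) : ∃ a ∈ t, ¬ A.Cov (finrank ℂ E) {y | c y = a} := by
  by_contra h
  refine A.not_cov_univ ((cov_biUnion ht (S := fun a => {y | c y = a})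
    fun a ha => by_contra fun h1 => h ⟨a, ha, h1⟩).sub fun y _ => mem_biUnion (hc y) rfl)

theorem An.eq_univ_of_not_cov [PreconnectedSpace M] {Z S : Set M} (hZ : A.An univ Z)
    (hS : ¬ A.Cov (finrank ℂ E) S) (h : S ⊆ Z) : Z = univ :=
  by_contra fun h1 => hS ((hZ.cov_of_ne h1).sub h)

theorem hol_12 (A : HA E M) (t : M × M × M) :
    (A.prod (A.prod A)).Hol (A.prod A) (fun t => (t.1, t.2.1)) t :=
  (hol_fst _ _ t).prodMk (hol_snd _ _ t).fst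

theorem hol_13 (A : HA E M) (t : M × M × M) :
    (A.prod (A.prod A)).Hol (A.prod A) (fun t => (t.1, t.2.2)) t :=
  (hol_fst _ _ t).prodMk (hol_snd _ _ t).snd

theorem hol_diag3 (A : HA E M) (x : M) : A.Hol (A.prod (A.prod A)) (fun y => (y, y, y)) x :=
  (hol_id A x).prodMk (hol_diag A x)

/-- the fibres of an irreducible set have dimension at least the expected one at every point -/
theorem Irr.fib_low {U Y : Set N} {r : ℕ} (hU : IsOpen U)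
    (h : B.Irr U Y (finrank ℂ E + r)) {p : N} (hp : p ∈ U ∩ Y) {f : N → M} (hf : B.Hol A f p)
    {W : Set N} (hW : W ∈ 𝓝 p) : ¬ B.Cov r (Y ∩ W ∩ f ⁻¹' {f p}) := by
  intro h1
  rcases r with _ | s
  · exact eq_empty_iff_forall_notMem.1 (cov_zero.1 h1) p ⟨⟨hp.2, mem_of_mem_nhds hW⟩, rfl⟩
  obtain ⟨O, a1, a2, -, -, a3⟩ := usc (h.1 p hp.1) hf hW h1
  exact h.not_cov hU a1 ⟨p, ⟨a2, hp.1⟩, hp.2⟩ (a3.sub fun z hz => ⟨hz.2, hz.1.1⟩)

theorem Cov.fibre' [Countable B.ι] {r : ℕ} {S : Set N} (h : B.Cov (finrank ℂ E + r) S) {f : N → M}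
    (hf : ∀ x ∈ S, B.Hol A f x) : A.Cov (finrank ℂ E) {t | ¬ B.Cov r (S ∩ f ⁻¹' {t})} := by
  rcases Nat.eq_zero_or_pos (finrank ℂ E + r) with h0 | h0
  · rw [h0] at h
    refine (A.cov_empty _).sub fun t ht => ht ?_
    rw [cov_zero.1 h, empty_inter]
    exact B.cov_empty r
  · have h1 := (h.mono (l := finrank ℂ E + r - 1 + 1) (by omega)).fibre hf
    rwa [show finrank ℂ E + r - 1 + 1 - finrank ℂ E = r by omega] at h1

/-- an irreducible relation is determined by large parts of many fibres -/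
theorem Irr.sub_of_fibres [Countable A.ι] [Countable B.ι] {Y Z : Set (N × M)} {r : ℕ}
    (h : (B.prod A).Irr univ Y (finrank ℂ E + r)) (hZ : (B.prod A).An univ Z) {S : Set M}
    (hS : ¬ A.Cov (finrank ℂ E) S) (h1 : ∀ y ∈ S, ¬ B.Cov r {x | (x, y) ∈ Y ∩ Z}) : Y ⊆ Z := by
  rcases h.drop isOpen_univ hZ with h2 | h2
  · exact fun q hq => h2 ⟨mem_univ _, hq⟩
  rw [univ_inter] at h2
  refine absurd ((h2.fibre' fun q _ => hol_snd B A q).sub fun y hy h4 => h1 y hy ?_) hS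
  exact (h4.image fun q _ => hol_fst B A q).sub fun x hx => ⟨(x, y), ⟨hx, rfl⟩, rfl⟩

theorem Irr.le_of_diag [Nonempty M] [Countable A.ι] {Y : Set (M × M)} {d : ℕ}
    (h : (A.prod A).Irr univ Y d) (hd : ∀ x, (x, x) ∈ Y) : finrank ℂ E ≤ d := by
  by_contra h1
  exact A.not_cov_univ ((((h.cov isOpen_univ).mono (not_le.1 h1)).image
    fun q _ => hol_fst A A q).sub fun x _ => ⟨(x, x), ⟨mem_univ _, hd x⟩, rfl⟩)

/-- a large irreducible subset of the fibre through the diagonal point -/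
theorem Irr.exists_leaf [Countable A.ι] {Y : Set (M × M)} {r : ℕ}
    (h : (A.prod A).Irr univ Y (finrank ℂ E + r)) {y : M} (hy : (y, y) ∈ Y) :
    ∃ (S : Set M) (k : ℕ), A.Irr univ S k ∧ y ∈ S ∧ (∀ x ∈ S, (x, y) ∈ Y) ∧ ¬ A.Cov r S := by
  have h1 : A.An univ {x | (x, y) ∈ Y} :=
    h.1.preimage (fun x _ => hol_inl A A y x) (mapsTo_univ _ _)
  obtain ⟨S, a1, a2, a3⟩ := exists_comp_not_cov isOpen_univ h1 (mem_univ y) (r := r)
    fun W hW h2 => h.fib_low isOpen_univ ⟨mem_univ (y, y), hy⟩ (hol_snd A A _)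
      (continuousAt_fst.preimage_mem_nhds hW)
      ((h2.image fun x _ => hol_inl A A y x).sub (by
        rintro ⟨x, z⟩ ⟨⟨b1, b2⟩, b3⟩
        obtain rfl : z = y := b3
        exact ⟨x, ⟨b1, b2⟩, rfl⟩))
  obtain ⟨b1, k, hk⟩ := a1.irr isOpen_univ h1
  exact ⟨S, k, hk, a2, b1, a3⟩

end HA

open HA

variable [ConnectedSpace M] [Countable A.ι]

/-- the class is directed -/
theorem RelK.directed (D : RelK A) {Y₁ Y₂ : Set (M × M)}
    (h1 : Y₁ ∈ D.K) (h2 : Y₂ ∈ D.K) : ∃ Y₃ ∈ D.K, Y₁ ⊆ Y₃ ∧ Y₂ ⊆ Y₃ := by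
  obtain ⟨d₁, i1⟩ := D.irr Y₁ h1
  obtain ⟨d₂, i2⟩ := D.irr Y₂ h2
  obtain ⟨r₁, rfl⟩ := Nat.exists_eq_add_of_le (i1.le_of_diag (D.diag Y₁ h1))
  obtain ⟨r₂, rfl⟩ := Nat.exists_eq_add_of_le (i2.le_of_diag (D.diag Y₂ h2))
  choose S k a1 a2 a3 a4 using fun y => i1.exists_leaf (D.diag Y₁ h1 y)
  choose T l b1 b2 b3 b4 using fun y => i2.swap.exists_leaf (y := y) (D.diag Y₂ h2 y)
  have hFP := an_FP i1.1 i2.1
  choose C c1 c2 using fun y => Irr.img_comp isOpen_univ hFP isOpen_univ ((a1 y).prod_univ (b1 y))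
    (f := fun q => (q.1, y, q.2))
    (fun q _ => (hol_fst A A q).prodMk ((hol_const _ _ y q).prodMk (hol_snd A A q)))
    fun q hq => ⟨mem_univ _, a3 y _ hq.2.1, b3 y _ hq.2.2⟩
  obtain ⟨C0, d1, d2⟩ := A.exists_not_cov (comp_countable isOpen_univ hFP) c1
  have d3 : ∀ y, C y = C0 → ∀ x ∈ S y, ∀ z ∈ T y, (x, y, z) ∈ C0 := fun y hy x hx z hz =>
    hy ▸ c2 y (x, z) ⟨mem_univ _, hx, hz⟩
  have d4 := ((Comp.an isOpen_univ hFP d1).preimage (fun x _ => hol_diag3 A x)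
    (mapsTo_univ _ _)).eq_univ_of_not_cov d2 fun y hy => d3 y hy y (a2 y) y (b2 y)
  obtain ⟨Y₃, e1, e2⟩ := D.up Y₁ h1 Y₂ h2 C0 d1 fun x => eq_univ_iff_forall.1 d4 x
  obtain ⟨d₃, i3⟩ := D.irr Y₃ e1
  refine ⟨Y₃, e1, i1.sub_of_fibres i3.1 d2 fun y hy h => a4 y (h.sub fun x hx =>
    ⟨a3 y x hx, e2 _ (d3 y hy x hx y (b2 y))⟩), fun q hq => ?_⟩
  exact i2.swap.sub_of_fibres i3.swap.1 d2 (fun y hy h => b4 y (h.sub fun x hx =>
    ⟨b3 y x hx, e2 _ (d3 y hy y (a2 y) x hx)⟩)) (a := q.swap) hq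

/-- the class has a largest member -/
theorem RelK.exists_max (D : RelK A) :
    ∃ Y ∈ D.K, ∀ Y' ∈ D.K, Y' ⊆ Y := by
  have hb : BddAbove {d | ∃ Y ∈ D.K, (A.prod A).Irr univ Y d} := ⟨finrank ℂ (E × E), by
    rintro d ⟨Y, -, h⟩
    obtain ⟨q, hq⟩ := h.2.1
    exact hq.2.le⟩
  obtain ⟨Y0, h0⟩ := D.ne
  obtain ⟨Y, h1, h2⟩ := Nat.sSup_mem (s := {d | ∃ Y ∈ D.K, (A.prod A).Irr univ Y d})
    ⟨_, Y0, h0, (D.irr Y0 h0).choose_spec⟩ hb
  refine ⟨Y, h1, fun Y' h' => ?_⟩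
  obtain ⟨Y₃, a1, a2, a3⟩ := D.directed h1 h'
  obtain ⟨k, hk⟩ := D.irr Y₃ a1
  exact fun q hq => h2.sub_of_sub isOpen_univ hk (fun z hz => a2 hz.2) (le_csSup hb ⟨Y₃, a1, hk⟩)
    ⟨mem_univ _, a3 hq⟩

/-- the properties of the largest member which are used later -/
structure MaxR (A : HA E M) (Y : Set (M × M)) (r : ℕ) : Prop where
  irr : (A.prod A).Irr univ Y (finrank ℂ E + r)
  diag : ∀ x, (x, x) ∈ Y
  symm : ∀ x y, (x, y) ∈ Y → (y, x) ∈ Y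
  up : ∀ C, (A.prod (A.prod A)).Comp univ (FP Y Y) C → (∀ x, (x, x, x) ∈ C) →
    ∀ t ∈ C, (t.1, t.2.2) ∈ Y

theorem RelK.exists_maxR (D : RelK A) :
    ∃ Y ∈ D.K, (∀ Y' ∈ D.K, Y' ⊆ Y) ∧ ∃ r, MaxR A Y r := by
  obtain ⟨Y, h1, h2⟩ := D.exists_max
  obtain ⟨d, hd⟩ := D.irr Y h1
  obtain ⟨r, rfl⟩ := Nat.exists_eq_add_of_le (hd.le_of_diag (D.diag Y h1))
  refine ⟨Y, h1, h2, r, hd, D.diag Y h1, fun x y h => ?_, fun C a b t ht => ?_⟩
  · obtain ⟨Y', a, b⟩ := D.symm Y h1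
    exact h2 Y' a (b x y h)
  · obtain ⟨Y', c, e⟩ := D.up Y h1 Y h1 C a b
    exact h2 Y' c (e t ht)

theorem MaxR.le {Y : Set (M × M)} {r : ℕ} (h : MaxR A Y r) : r ≤ finrank ℂ E := by
  obtain ⟨q, hq⟩ := h.irr.2.1
  have h1 := hq.2.le
  rw [finrank_prod] at h1
  omega

end Crest.Agent.X261.Ans
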