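import Crest.Agent.X261.Ans.EqA

/-!
# X261/Ans/EqB (helper7): the maximal relation is regular at some point of the diagonal
-/

set_option autoImplicit false
set_option linter.unusedSectionVars false

open Set Filter Topology Module

namespace Crest.Agent.X261.Ans

variable {E F V : Type} [NormedAddCommGroup E] [NormedSpace ℂ E] [FiniteDimensional ℂ E]
  [NormedAddCommGroup F] [NormedSpace ℂ F] [FiniteDimensional ℂ F]
  [NormedAddCommGroup V] [NormedSpace ℂ V] [FiniteDimensional ℂ V]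
  {M N : Type} [TopologicalSpace M] [TopologicalSpace N] {A : HA E M} {B : HA F N}

/-- a common complement of the kernels of two surjections -/
theorem C2.exists_two {L L' : V →L[ℂ] E} (h : Function.Surjective L)
    (h' : Function.Surjective L') : ∃ ι : E →L[ℂ] V, Function.Surjective (L.comp ι) ∧
      Function.Surjective (L'.comp ι) := by
  obtain ⟨a, ha⟩ := C2.exists_rinv h
  obtain ⟨b, hb⟩ := C2.exists_rinv h'
  have h1 : ∀ T : V →L[ℂ] E, AnalyticOnNhd ℂ (fun t : ℂ => T.comp (a + t • (b - a))) univ :=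
    fun T t _ => ((ContinuousLinearMap.compL ℂ E V E T).analyticAt _).comp
      (analyticAt_const.add (analyticAt_id.smul analyticAt_const))
  have h2 : ∀ (T : V →L[ℂ] E) (t : ℂ), Function.Surjective (T.comp (a + t • (b - a))) →
      (HA.self ℂ).Cov (finrank ℂ ℂ) {t : ℂ | ¬ Function.Surjective (T.comp (a + t • (b - a)))} :=
    fun T t ht => HA.An.cov_of_ne (fun x _ => HA.self_anAt.2
      ⟨univ, isOpen_univ, mem_univ x, Man.cut_crit (h1 T)⟩)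
      fun h3 => (eq_univ_iff_forall.1 h3 t) ht
  have h3 := ((h2 L 0 fun x => ⟨x, by simp [ha]⟩).union
    (h2 L' 1 fun x => ⟨x, by simp [hb]⟩)).ne_univ
  obtain ⟨t, ht⟩ := (ne_univ_iff_exists_notMem _).1 h3
  exact ⟨_, by_contra fun h4 => ht (Or.inl h4), by_contra fun h4 => ht (Or.inr h4)⟩

namespace HA

/-- a common transversal of two submersions -/
theorem exists_two {α β : V → M} {t : V} (hα : (self V).Subm A α t) (hβ : (self V).Subm A β t) :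
    ∃ u : E → V, AnalyticAt ℂ u 0 ∧ u 0 = t ∧ (self E).Subm A (fun s => α (u s)) 0 ∧
      (self E).Subm A (fun s => β (u s)) 0 := by
  obtain ⟨i, hi⟩ := A.cover (α t)
  obtain ⟨j, hj⟩ := A.cover (β t)
  obtain ⟨ι, h1, h2⟩ := C2.exists_two (hα.2 () i (mem_univ _) hi) (hβ.2 () j (mem_univ _) hj)
  have h0 : t + ι 0 = t := by simp
  have hu : AnalyticAt ℂ (fun s => t + ι s) 0 := analyticAt_const.add (ι.analyticAt 0)
  have key : ∀ {γ : V → M} {k : A.ι}, (self V).Hol A γ t → γ t ∈ (A.e k).source →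
      Function.Surjective ((fderiv ℂ (fun z => A.e k (γ z)) t).comp ι) →
      (self E).Subm A (fun s => γ (t + ι s)) 0 := by
    intro γ k a1 a2 a3
    refine subm_of (i := ()) (j := k) (a1.comp_of_eq (self_hol_iff.2 hu) h0) (mem_univ _)
      (by rw [h0]; exact a2) ?_
    have a4 : HasFDerivAt (fun z => A.e k (γ z)) (fderiv ℂ (fun z => A.e k (γ z)) t) (t + ι 0) := by
      rw [h0]
      exact (a1.2 () k (mem_univ _) a2).differentiableAt.hasFDerivAt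
    have a5 : HasFDerivAt (fun s => A.e k (γ (t + ι s)))
        ((fderiv ℂ (fun z => A.e k (γ z)) t).comp ι) 0 :=
      HasFDerivAt.comp (f := fun s => t + ι s) (0 : E) a4 (ι.hasFDerivAt.const_add t)
    exact a5.fderiv.symm ▸ a3
  exact ⟨fun s => t + ι s, hu, h0, key hα.1 hi h1, key hβ.1 hj h2⟩

/-- `f` has a local section through `p` with values in `Y` -/
def SecY (B : HA F N) (A : HA E M) (f : N → M) (Y : Set N) (p : N) : Prop :=
  ∃ σ : M → N, A.Hol B σ (f p) ∧ σ (f p) = p ∧ ∀ᶠ t in 𝓝 (f p), σ t ∈ Y ∧ f (σ t) = t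

/-- in a parametrisation `SecY` means submersion -/
theorem secY_iff {Y : Set N} {f : N → M} {φ : V → N} {ρ : N → V} {p : N}
    (hφ : (self V).Hol B φ (ρ p)) (hρ : B.Hol (self V) ρ p) (hf : B.Hol A f p) (h0 : φ (ρ p) = p)
    (h1 : ∀ᶠ t in 𝓝 (ρ p), φ t ∈ Y) (h2 : ∀ᶠ y in 𝓝 p, y ∈ Y → φ (ρ y) = y) :
    SecY B A f Y p ↔ (self V).Subm A (fun t => f (φ t)) (ρ p) := by
  constructor
  · rintro ⟨σ, a1, a2, a3⟩
    refine subm_of_sec (hf.comp_of_eq hφ h0) (σ := fun t => ρ (σ t)) ?_ ?_ ?_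
    · rw [h0]
      exact hρ.comp_of_eq a1 a2
    · rw [h0, a2]
    · rw [h0]
      filter_upwards [a3, a1.1.eventually (a2.symm ▸ h2)] with t b1 b2
      rw [b2 b1.1, b1.2]
  · intro h
    obtain ⟨σ, a1, a2, a3⟩ := h.sec
    rw [h0] at a1 a2 a3
    refine ⟨fun t => φ (σ t), hφ.comp_of_eq a1 a2, by beta_reduce; rw [a2, h0], ?_⟩
    filter_upwards [a3, a1.1.eventually (a2.symm ▸ h1)] with t b1 b2 using ⟨b2, b1⟩

theorem Reg.loc_sec {Y : Set N} {d : ℕ} {p : N} (h : B.Reg Y d p) {f : N → M} (hf : B.Hol A f p) :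
    ∃ (φ : (Fin d → ℂ) → N) (ρ : N → Fin d → ℂ), (self _).Hol A (fun t => f (φ t)) (ρ p) ∧
      B.Hol (self _) ρ p ∧ ∀ᶠ q in 𝓝 p, q ∈ Y → φ (ρ q) = q ∧
        (SecY B A f Y q ↔ (self _).Subm A (fun t => f (φ t)) (ρ q)) := by
  obtain ⟨φ, ρ, a1, a2, a3, a4, a5⟩ := h.param
  refine ⟨φ, ρ, hf.comp_of_eq a1 a3, a2, ?_⟩
  filter_upwards [a2.1.eventually a1.eventually, a2.eventually, hf.eventually,
    a2.1.eventually a4.eventually_nhds, a5.eventually_nhds] with q b1 b2 b3 b4 b5 hq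
  exact ⟨b5.self_of_nhds hq, secY_iff b1 b2 b3 (b5.self_of_nhds hq) (b4.mono fun _ h => h.1) b5⟩

theorem Reg.anAt_sec {Y : Set N} {d : ℕ} {p : N} (h : B.Reg Y d p) {f : N → M}
    (hf : B.Hol A f p) : B.AnAt {q | q ∈ Y ∧ ¬ SecY B A f Y q} p := by
  obtain ⟨φ, ρ, a1, a2, a3⟩ := h.loc_sec hf
  refine (h.anAt.inter ((anAt_crit a1).preimage a2)).congr (a3.mono fun q hq => ?_)
  exact and_congr_right fun h1 => (not_congr (hq h1).2).symm

/-- Sard's theorem on the regular locus -/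
theorem cov_sec [Countable B.ι] {Y S : Set N} {d : ℕ} {f : N → M}
    (h : ∀ q ∈ S, B.Reg Y d q ∧ B.Hol A f q ∧ ¬ SecY B A f Y q) :
    A.Cov (finrank ℂ E) (f '' S) := by
  refine HA.cov_image_of_local B fun p hp => ?_
  obtain ⟨φ, ρ, a1, a2, a3⟩ := (h p hp).1.loc_sec (h p hp).2.1
  refine ⟨_, a3.and (a2.1.eventually a1.eventually), (cov_critval
    (U := {t | (self _).Hol A (fun t => f (φ t)) t}) fun _ h => h).sub ?_⟩
  rintro _ ⟨q, ⟨b1, b2, b3⟩, rfl⟩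
  obtain ⟨c1, c2⟩ := b2 (h q b1).1.mem
  exact ⟨ρ q, ⟨b3, fun h1 => (h q b1).2.2 (c2.2 h1)⟩, congrArg f c1⟩

/-- a dominant map is a submersion at the generic point -/
theorem Irr.cov_crit [Countable B.ι] {U Y : Set N} {r : ℕ} (hU : IsOpen U)
    (h : B.Irr U Y (finrank ℂ E + r)) {f : N → M} (hf : ∀ q ∈ U ∩ Y, B.Hol A f q)
    (hd : ¬ A.Cov (finrank ℂ E) (f '' (U ∩ Y))) :
    B.Cov (finrank ℂ E + r) {q | q ∈ U ∩ Y ∧ ¬ SecY B A f Y q} := by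
  have hs := h.cov_sing hU
  rcases ident h.2.2.1 (fun y hy => reg_reg hU hy.1 hy.2) (Z := {q | q ∈ Y ∧ ¬ SecY B A f Y q})
    (fun q hq => hq.2.anAt_sec (hf q ⟨hq.1, hq.2.mem⟩)) with h1 | h1
  · refine absurd (((cov_sec (S := {y | y ∈ U ∧ B.Reg Y (finrank ℂ E + r) y}) fun q hq =>
      ⟨hq.2, hf q ⟨hq.1, hq.2.mem⟩, (h1 hq).2⟩).union
      (hs.fibre' fun q hq => hf q hq.1)).sub ?_) hd
    rintro _ ⟨p, hp, rfl⟩
    by_contra h2
    rw [mem_union, not_or] at h2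
    refine h.fib_low hU hp (hf p hp) (hU.mem_nhds hp.1) ((not_not.1 h2.2).sub fun q hq => ?_)
    exact ⟨⟨⟨hq.1.2, hq.1.1⟩, fun h3 => h2.1 ⟨q, ⟨hq.1.2, h3⟩, hq.2⟩⟩, hq.2⟩
  · refine (h1.1.union hs).sub fun q hq => ?_
    by_cases h2 : B.Reg Y (finrank ℂ E + r) q
    · exact Or.inl ⟨⟨hq.1.1, h2⟩, hq.1.2, hq.2⟩
    · exact Or.inr ⟨hq.1, h2⟩

/-- through a doubly submersive regular point there is the graph of a local biholomorphism -/
theorem exists_graph {Y : Set (M × M)} {d : ℕ} {a b : M} (h : (A.prod A).Reg Y d (a, b))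
    (h1 : SecY (A.prod A) A Prod.fst Y (a, b)) (h2 : SecY (A.prod A) A Prod.snd Y (a, b)) :
    ∃ ψ ψ' : M → M, A.Hol A ψ a ∧ A.Hol A ψ' b ∧ ψ a = b ∧ ψ' b = a ∧
      (∀ᶠ s in 𝓝 a, (s, ψ s) ∈ Y ∧ ψ' (ψ s) = s) ∧ ∀ᶠ s in 𝓝 b, ψ (ψ' s) = s := by
  obtain ⟨φ, ρ, a1, a2, a3, a4, a5⟩ := h.param
  have a6 := a4.mono fun _ h => h.1
  obtain ⟨u, b1, b2, b3, b4⟩ := exists_two ((secY_iff a1 a2 (hol_fst A A _) a3 a6 a5).1 h1)
    ((secY_iff a1 a2 (hol_snd A A _) a3 a6 a5).1 h2)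
  obtain ⟨σ, c1, c2, c3⟩ := b3.inv rfl
  obtain ⟨τ, d1, d2, d3⟩ := b4.inv rfl
  have c4 := c2.self_of_nhds
  have d4 := d2.self_of_nhds
  beta_reduce at c1 c3 c4 d1 d3 d4
  rw [b2, a3] at c1 c3 c4 d1 d3 d4
  have e1 : ∀ᶠ s in 𝓝 (0 : E), φ (u s) ∈ Y := b1.continuousAt.eventually (b2.symm ▸ a6)
  refine ⟨fun s => (φ (u (σ s))).2, fun s => (φ (u (τ s))).1, b4.1.comp_of_eq c1 c4,
    b3.1.comp_of_eq d1 d4, ?_, ?_, ?_, ?_⟩
  · beta_reduce
    rw [c4, b2, a3]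
  · beta_reduce
    rw [d4, b2, a3]
  · filter_upwards [c3, c1.1.eventually (c4.symm ▸ e1.and d2)] with s f1 f2
    refine ⟨?_, by rw [f2.2, f1]⟩
    have f3 : (s, (φ (u (σ s))).2) = φ (u (σ s)) := Prod.ext f1.symm rfl
    exact f3 ▸ f2.1
  · filter_upwards [d3, d1.1.eventually (d4.symm ▸ c2)] with s f1 f2
    rw [f2, f1]

end HA

open HA

variable [ConnectedSpace M] [Countable A.ι] {Y : Set (M × M)} {r : ℕ}

/-- the relation is transitive near some point -/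
theorem MaxR.exists_trans (h : MaxR A Y r) :
    ∃ x, ∀ᶠ t in 𝓝 (x, x, x), t ∈ FP Y Y → (t.1, t.2.2) ∈ Y := by
  have hFP := an_FP h.irr.1 h.irr.1
  have h1 : A.Cov (finrank ℂ E) (⋃ C ∈ {C | (A.prod (A.prod A)).Comp univ (FP Y Y) C ∧
      ¬ ∀ x, (x, x, x) ∈ C}, {x | (x, x, x) ∈ C}) :=
    HA.cov_biUnion ((comp_countable isOpen_univ hFP).mono fun C hC => hC.1) fun C hC =>
      ((hC.1.an isOpen_univ hFP).preimage (fun x _ => hol_diag3 A x)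
        (mapsTo_univ _ _)).cov_of_ne fun h2 => hC.2 (eq_univ_iff_forall.1 h2)
  obtain ⟨x, hx⟩ := (ne_univ_iff_exists_notMem _).1 h1.ne_univ
  refine ⟨x, (comp_near isOpen_univ hFP (mem_univ _)).mono fun t ht h2 => ?_⟩
  obtain ⟨C, a, b, c⟩ := ht h2
  exact h.up C a (by_contra fun h3 => hx (mem_biUnion ⟨a, h3⟩ b)) t c

theorem MaxR.ne_good (h : MaxR A Y r) :
    ∃ x, (A.prod A).Reg Y (finrank ℂ E + r) (x, x) := by
  obtain ⟨x, hx⟩ := h.exists_trans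
  obtain ⟨U, hU, hxU, htr⟩ : ∃ U : Set M, IsOpen U ∧ x ∈ U ∧ ∀ a ∈ U, ∀ b ∈ U, ∀ c ∈ U,
      (a, b) ∈ Y → (b, c) ∈ Y → (a, c) ∈ Y := by
    rw [nhds_prod_eq, nhds_prod_eq] at hx
    obtain ⟨s, h1, t, h2, h3⟩ := mem_prod_iff.1 hx
    obtain ⟨u, h4, h5⟩ := mem_prod_self_iff.1 h2
    obtain ⟨U, a1, a2, a3⟩ := _root_.mem_nhds_iff.1 (inter_mem h1 h4)
    exact ⟨U, a2, a3, fun a ha b hb c hc e1 e2 =>
      h3 (a := (a, b, c)) ⟨(a1 ha).1, h5 ⟨(a1 hb).2, (a1 hc).2⟩⟩ ⟨e1, e2⟩⟩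
  have h1 := h.irr.cov_crit isOpen_univ (fun q _ => hol_fst A A q) fun h1 =>
    A.not_cov_univ (h1.sub fun y _ => ⟨(y, y), ⟨mem_univ _, h.diag y⟩, rfl⟩)
  have h2 := h.irr.cov_crit isOpen_univ (fun q _ => hol_snd A A q) fun h1 =>
    A.not_cov_univ (h1.sub fun y _ => ⟨(y, y), ⟨mem_univ _, h.diag y⟩, rfl⟩)
  obtain ⟨⟨a, b⟩, h3, h4, h5⟩ := mem_closure_iff.1 (h.irr.sub_closure_diff isOpen_univ
    ((h1.union h2).union (h.irr.cov_sing isOpen_univ)) ⟨mem_univ _, h.diag x⟩) _ (hU.prod hU)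
    ⟨hxU, hxU⟩
  have h6 : (A.prod A).Reg Y (finrank ℂ E + r) (a, b) := by_contra fun h6 => h5 (Or.inr ⟨h4, h6⟩)
  obtain ⟨ψ, ψ', a1, a2, a3, a4, a5, a6⟩ := exists_graph h6
    (by_contra fun h7 => h5 (Or.inl (Or.inl ⟨h4, h7⟩)))
    (by_contra fun h7 => h5 (Or.inl (Or.inr ⟨h4, h7⟩)))
  have h7 := h6.biholo (B := A.prod A) (f := fun q => (q.1, ψ q.2)) (g := fun q => (q.1, ψ' q.2))
    ((hol_id A _).prodMap a2) ((hol_id A _).prodMap (a4.symm ▸ a1))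
    ((continuousAt_snd.eventually a6).mono fun q hq => Prod.ext rfl hq)
    ((continuousAt_snd.eventually (a4.symm ▸ a5)).mono fun q hq => Prod.ext rfl hq.2)
  beta_reduce at h7
  rw [a4] at h7
  refine ⟨a, h7.congr ?_⟩
  have h8 : ∀ᶠ s in 𝓝 a, ψ s ∈ U := a1.1.eventually (a3.symm ▸ hU.mem_nhds h3.2)
  filter_upwards [continuousAt_fst.eventually (hU.eventually_mem h3.1),
    continuousAt_snd.eventually ((hU.eventually_mem h3.1).and (h8.and a5))] with q b1 b2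
  exact ⟨fun h9 => htr _ b1 _ b2.2.1 _ b2.1 h9 (h.symm _ _ b2.2.2.1),
    fun h9 => htr _ b1 _ b2.1 _ b2.2.1 h9 b2.2.2.1⟩

end Crest.Agent.X261.Ans
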