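import Crest.Agent.X261.Ans.EqB

/-!
# X261/Ans/EqC (helper7): foliation charts of the maximal relation
-/

set_option autoImplicit false
set_option linter.unusedSectionVars false

open Set Filter Topology Module

namespace Crest.Agent.X261.Ans

variable {E : Type} [NormedAddCommGroup E] [NormedSpace ℂ E] [FiniteDimensional ℂ E]
  {M : Type} [TopologicalSpace M] {A : HA E M}

/-- normal form of a relation which contains the diagonal, at a regular point of the diagonal -/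
theorem C2.flat_h {Z : Set (E × E)} {x : E} {p r : ℕ} (hpr : p + r = finrank ℂ E)
    (hr : Reg Z (finrank ℂ E + r) (x, x)) (hd : ∀ᶠ s in 𝓝 x, (s, s) ∈ Z) :
    ∃ (κ : E →L[ℂ] (Fin p → ℂ)) (l : E →L[ℂ] (Fin r → ℂ)) (h : (Fin r → ℂ) × E → E),
      Function.Bijective (κ.prod l) ∧ AnalyticAt ℂ h (l x, x) ∧
      (∀ᶠ q in 𝓝 (l x, x), (h q, q.2) ∈ Z ∧ l (h q) = q.1) ∧
      ∀ᶠ q in 𝓝 (x, x), q ∈ Z → h (l q.1, q.2) = q.1 := by
  obtain ⟨c, g, hc, hg, hs, hZ⟩ := hr.exists_subm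
  obtain rfl : c = p := by
    rw [finrank_prod] at hc
    omega
  have hg0 : g (x, x) = 0 := hZ.self_of_nhds.1 hr.1
  set T := fderiv ℂ g (x, x) with hT
  have hdg : HasFDerivAt g T (x, x) := hg.differentiableAt.hasFDerivAt
  have hTd : ∀ v, T (v, v) = 0 := by
    intro v
    have h1 : HasFDerivAt (fun s => g (s, s))
        (T.comp ((ContinuousLinearMap.id ℂ E).prod (ContinuousLinearMap.id ℂ E))) x :=
      HasFDerivAt.comp (f := fun s => (s, s)) x hdg ((hasFDerivAt_id x).prodMk (hasFDerivAt_id x))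
    have h2 : HasFDerivAt (fun s => g (s, s)) (0 : E →L[ℂ] (Fin c → ℂ)) x := by
      refine (hasFDerivAt_const (0 : Fin c → ℂ) x).congr_of_eventuallyEq ?_
      filter_upwards [hd, (continuousAt_id.prodMk continuousAt_id).eventually hZ] with s a b
        using b.1 a
    exact congrArg (fun L : E →L[ℂ] (Fin c → ℂ) => L v) (h1.unique h2)
  let κ : E →L[ℂ] (Fin c → ℂ) := T.comp (ContinuousLinearMap.inl ℂ E E)
  have hκ : Function.Surjective κ := by
    intro y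
    obtain ⟨⟨v, w⟩, h⟩ := hs y
    refine ⟨v - w, ?_⟩
    change T (v - w, 0) = y
    rw [show ((v - w, 0) : E × E) = (v, w) - (w, w) by simp, map_sub, h, hTd, sub_zero]
  have hK := C2.finrank_ker hκ
  set K := LinearMap.ker (κ : E →ₗ[ℂ] (Fin c → ℂ))
  obtain ⟨P, hP⟩ := C2.exists_linv (L := K.subtypeL) Subtype.val_injective
  let e : K ≃L[ℂ] (Fin r → ℂ) := ContinuousLinearEquiv.ofFinrankEq (by
    simp only [finrank_fintype_fun_eq_card, Fintype.card_fin] at hK ⊢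
    omega)
  let l : E →L[ℂ] (Fin r → ℂ) := (e : K →L[ℂ] (Fin r → ℂ)).comp P
  have hinj : ∀ v, κ v = 0 → l v = 0 → v = 0 := by
    intro v h1 h2
    have h3 : e (P (K.subtypeL ⟨v, h1⟩)) = 0 := h2
    rw [hP, map_eq_zero_iff _ e.injective] at h3
    exact congrArg Subtype.val h3
  have hbij : ∀ {X Y : Type} [NormedAddCommGroup X] [NormedSpace ℂ X] [FiniteDimensional ℂ X]
      [NormedAddCommGroup Y] [NormedSpace ℂ Y] [FiniteDimensional ℂ Y] (L : X →L[ℂ] Y),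
      finrank ℂ X = finrank ℂ Y → (∀ v, L v = 0 → v = 0) → Function.Bijective L := by
    intro X Y _ _ _ _ _ _ L h1 h2
    have h3 : Function.Injective L := (injective_iff_map_eq_zero L).2 h2
    exact ⟨h3, (LinearMap.injective_iff_surjective_of_finrank_eq_finrank h1
      (f := (L : X →ₗ[ℂ] Y))).1 h3⟩
  let H : E × E → ((Fin c → ℂ) × (Fin r → ℂ)) × E := fun q => ((g q, l q.1), q.2)
  have hH : AnalyticAt ℂ H (x, x) :=
    (hg.prod ((l.analyticAt _).comp analyticAt_fst)).prod analyticAt_snd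
  have hH' : HasFDerivAt H ((T.prod (l.comp (ContinuousLinearMap.fst ℂ E E))).prod
      (ContinuousLinearMap.snd ℂ E E)) (x, x) :=
    (hdg.prodMk (l.comp (ContinuousLinearMap.fst ℂ E E)).hasFDerivAt).prodMk hasFDerivAt_snd
  obtain ⟨σ, a1, a2, a3⟩ := Man.exists_inv' hH (by
    rw [hH'.fderiv]
    refine hbij _ ?_ ?_
    · simp only [finrank_prod, finrank_fintype_fun_eq_card, Fintype.card_fin]
      omega
    · rintro ⟨v, w⟩ h
      obtain rfl : w = 0 := congrArg Prod.snd h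
      exact Prod.ext (hinj v (congrArg (fun y => y.1.1) h) (congrArg (fun y => y.1.2) h)) rfl)
  have h0 : H (x, x) = ((0, l x), x) := by simp only [H, hg0]
  have hσ0 : σ ((0, l x), x) = (x, x) := h0 ▸ a2.self_of_nhds
  rw [h0] at a1 a3
  have hj : AnalyticAt ℂ (fun q : (Fin r → ℂ) × E => (((0 : Fin c → ℂ), q.1), q.2)) (l x, x) :=
    (analyticAt_const.prod analyticAt_fst).prod analyticAt_snd
  have hσ : AnalyticAt ℂ (fun q : (Fin r → ℂ) × E => σ ((0, q.1), q.2)) (l x, x) :=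
    AnalyticAt.comp (g := σ) a1 hj
  refine ⟨κ, l, fun q => (σ ((0, q.1), q.2)).1, hbij _ ?_ fun v hv =>
    hinj v (congrArg Prod.fst hv) (congrArg Prod.snd hv),
    AnalyticAt.comp (g := Prod.fst) analyticAt_fst hσ, ?_, ?_⟩
  · simp only [finrank_prod, finrank_fintype_fun_eq_card, Fintype.card_fin]
    omega
  · filter_upwards [hj.continuousAt.eventually a3, hσ.continuousAt.eventually (hσ0.symm ▸ hZ)]
      with q b1 b2
    have b3 : (σ ((0, q.1), q.2)).2 = q.2 := congrArg Prod.snd b1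
    refine ⟨?_, congrArg (fun y => y.1.2) b1⟩
    have b4 : ((σ ((0, q.1), q.2)).1, q.2) = σ ((0, q.1), q.2) := Prod.ext rfl b3.symm
    exact b4 ▸ b2.2 (congrArg (fun y => y.1.1) b1)
  · filter_upwards [a2, hZ] with q b1 b2 hq
    have b3 : H q = ((0, l q.1), q.2) := by simp only [H, b2.1 hq]
    rw [← b3, b1]

open HA

variable [ConnectedSpace M] [Countable A.ι] {Y : Set (M × M)} {r : ℕ}

/-- saturation along plaques -/
theorem MaxR.sat (h : MaxR A Y r) {V : Type} [NormedAddCommGroup V] [NormedSpace ℂ V]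
    [FiniteDimensional ℂ V] {D : Set V} (hD : IsOpen D) (hc : IsConnected D) {U : Set M}
    (hU : IsOpen U) {η : V × M → M} (h1 : ∀ q ∈ D ×ˢ U, ((self V).prod A).Hol A η q ∧ (η q, q.2) ∈ Y)
    (h2 : ∀ z ∈ U, ∃ a ∈ D, η (a, z) = z) {a : V} (ha : a ∈ D) {z q : M} (hz : z ∈ U)
    (hq : (z, q) ∈ Y) : (η (a, z), q) ∈ Y := by
  have hFP := an_FP h.irr.1 h.irr.1
  have hO : IsOpen (U ×ˢ (univ : Set M)) := hU.prod isOpen_univ
  have hY : (A.prod A).An (U ×ˢ univ) Y := h.irr.1.mono (subset_univ _)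
  obtain ⟨Y', a1, a2⟩ := comp_cover hO hY (x := (z, q)) ⟨hz, mem_univ _⟩ hq
  obtain ⟨a3, d, a4⟩ := a1.irr hO hY
  obtain ⟨C, b1, b2⟩ := Irr.img_comp isOpen_univ hFP (hD.prod hO)
    ((irr_open (A := self V) hD hc Subset.rfl).prod a4) (f := fun t => (η (t.1, t.2.1), t.2))
    (fun t ht => (Hol.comp (g := η) (f := fun t : V × M × M => (t.1, t.2.1))
      (h1 (t.1, t.2.1) ⟨ht.1.1, ht.1.2.1⟩).1
      ((hol_fst _ _ t).prodMk (hol_snd _ _ t).fst)).prodMk (hol_snd _ _ t))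
    fun t ht => ⟨mem_univ _, (h1 (t.1, t.2.1) ⟨ht.1.1, ht.1.2.1⟩).2, a3 ht.2.2⟩
  have b3 : ∀ a ∈ D, ∀ w ∈ Y', (η (a, w.1), w) ∈ C := fun a ha w hw =>
    b2 (a, w) ⟨⟨ha, (a1.sub hY hw).1⟩, ha, hw⟩
  obtain ⟨k, K, ⟨w, hw⟩, -, -, c1, c2⟩ := a1.core hO hY
  have b4 := h.irr.sub_of_open isOpen_univ ((b1.an isOpen_univ hFP).preimage
    (f := fun w : M × M => (w.1, w)) (fun w _ => (hol_fst A A w).prodMk (hol_id _ w))
    (mapsTo_univ _ _)) ⟨mem_univ w, a3 (c1 hw)⟩ ((c2 w hw).2.2.mono fun v hv hvY => by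
      obtain ⟨b, hb, e⟩ := h2 v.1 (a1.sub hY (c1 (hv hvY))).1.1
      have := b3 b hb v (c1 (hv hvY))
      rwa [e] at this)
  exact h.up C b1 (fun x => b4 ⟨mem_univ (x, x), h.diag x⟩) _ (b3 a ha (z, q) a2)

theorem MaxR.fol (h : MaxR A Y r) {p : ℕ} (hpr : p + r = finrank ℂ E) {x : M}
    (hx : (A.prod A).Reg Y (finrank ℂ E + r) (x, x)) : Fol A Y p x := by
  obtain ⟨i, hi⟩ := A.cover x
  obtain ⟨κ, l, g, hb, hg, g1, g2⟩ := C2.flat_h hpr
    ((reg_iff (A := A.prod A) (i := (i, i)) ⟨hi, hi⟩).1 hx) (x := A.e i x)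
    (Eventually.of_forall fun s => h.diag _)
  have hx0 : g (l (A.e i x), A.e i x) = A.e i x := g2.self_of_nhds (h.diag _)
  have g3 := (g1.and hg.eventually_analyticAt).and
    (hg.continuousAt.eventually (hx0.symm ▸ ev_target hi))
  rw [nhds_prod_eq] at g2 g3
  obtain ⟨D0, d1, V0, d2, d3⟩ := mem_prod_iff.1 g3
  obtain ⟨V1, d4, d5⟩ := mem_prod_self_iff.1 g2
  obtain ⟨ε, hε, d6⟩ := Metric.mem_nhds_iff.1 d1
  obtain ⟨U, u1, hU, hxU⟩ := _root_.eventually_nhds_iff.1 ((ev_source hi).and ((ev_chart' hi).1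
    (Filter.Eventually.and d2 (Filter.Eventually.and d4
      (l.continuous.continuousAt.eventually (Metric.ball_mem_nhds _ hε))))))
  -- the plaque map
  let η : (Fin r → ℂ) × M → M := fun q => (A.e i).symm (g (q.1, A.e i q.2))
  have e0 : ∀ q ∈ Metric.ball (l (A.e i x)) ε ×ˢ U, ((η q, q.2) ∈ Y ∧ l (A.e i (η q)) = q.1) ∧
      AnalyticAt ℂ g (q.1, A.e i q.2) ∧ g (q.1, A.e i q.2) ∈ (A.e i).target := by
    intro q hq
    obtain ⟨⟨⟨b1, b2⟩, b3⟩, b4⟩ := d3 (a := (q.1, A.e i q.2)) ⟨d6 hq.1, (u1 _ hq.2).2.1⟩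
    refine ⟨⟨?_, ?_⟩, b3, b4⟩
    · have b5 : (η q, (A.e i).symm (A.e i q.2)) ∈ Y := b1
      rwa [(A.e i).left_inv (u1 _ hq.2).1] at b5
    · exact (congrArg l ((A.e i).right_inv b4)).trans b2
  have e1 : ∀ y ∈ U, ∀ z ∈ U, (y, z) ∈ Y → η (l (A.e i y), z) = y := by
    intro y hy z hz hyz
    have b1 := d5 (a := (A.e i y, A.e i z)) ⟨(u1 y hy).2.2.1, (u1 z hz).2.2.1⟩ (by
      change ((A.e i).symm (A.e i y), (A.e i).symm (A.e i z)) ∈ Y
      rwa [(A.e i).left_inv (u1 y hy).1, (A.e i).left_inv (u1 z hz).1])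
    exact (congrArg (A.e i).symm b1).trans ((A.e i).left_inv (u1 y hy).1)
  have sat : ∀ y ∈ U, ∀ z ∈ U, (y, z) ∈ Y → ∀ q, (z, q) ∈ Y → (y, q) ∈ Y := by
    intro y hy z hz hyz q hq
    rw [← e1 y hy z hz hyz]
    refine h.sat Metric.isOpen_ball (Metric.isConnected_ball hε) hU (fun q hq => ⟨?_, (e0 q hq).1.1⟩)
      (fun z hz => ⟨_, (u1 z hz).2.2.2, e1 z hz z hz (h.diag z)⟩) (u1 y hy).2.2.2 hz hq
    exact Hol.comp (g := (A.e i).symm) (f := fun q : (Fin r → ℂ) × M => g (q.1, A.e i q.2))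
      (hol_symm (e0 q hq).2.2) (Hol.an_comp (g := g)
      (f := fun q : (Fin r → ℂ) × M => (q.1, A.e i q.2)) ((hol_fst _ _ q).pair
      ((hol_chart (u1 _ hq.2).1).comp (hol_snd _ _ q))) (e0 q hq).2.1)
  -- the projection
  have hs : AnalyticAt ℂ (fun z => g (l (A.e i x), z)) (A.e i x) :=
    AnalyticAt.comp (g := g) hg (analyticAt_const.prod analyticAt_id)
  have hπ : AnalyticAt ℂ (fun z => κ (g (l (A.e i x), z))) (A.e i x) := (κ.analyticAt _).comp hs
  have hsurj : Function.Surjective (fderiv ℂ (fun z => κ (g (l (A.e i x), z))) (A.e i x)) := by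
    obtain ⟨J, hJ⟩ := C2.exists_rinv hb.2
    have j0 : J (κ (g (l (A.e i x), A.e i x)), l (A.e i x)) = A.e i x := by
      rw [hx0]
      exact hb.1 (hJ _)
    have j1 : AnalyticAt ℂ (fun c => J (c, l (A.e i x))) (κ (g (l (A.e i x), A.e i x))) :=
      (J.analyticAt _).comp (analyticAt_id.prod analyticAt_const)
    refine Man.surj_of_sec hπ j1 j0 ?_
    filter_upwards [j1.continuousAt.eventually (j0.symm ▸ (ev_target hi).and d4)] with c hc
    have j2 : l (J (c, l (A.e i x))) = l (A.e i x) := congrArg Prod.snd (hJ (c, l (A.e i x)))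
    have j3 := d5 (a := (J (c, l (A.e i x)), J (c, l (A.e i x)))) ⟨hc.2, hc.2⟩ (h.diag _)
    beta_reduce at j3
    rw [j2] at j3
    rw [j3]
    exact congrArg Prod.fst (hJ (c, l (A.e i x)))
  have hη : ∀ᶠ z in 𝓝 (A.e i x), (A.e i).symm (g (l (A.e i x), z)) ∈ U := by
    refine (ContinuousAt.comp (f := fun z => g (l (A.e i x), z))
      (by beta_reduce; rw [hx0]; exact cont_symm hi) hs.continuousAt).eventually ?_
    have e2 : (A.e i).symm (g (l (A.e i x), A.e i x)) = x := by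
      rw [hx0, (A.e i).left_inv hi]
    exact (congrArg 𝓝 e2).symm ▸ hU.mem_nhds hxU
  obtain ⟨U', v1, hU', hxU'⟩ := _root_.eventually_nhds_iff.1 ((hU.eventually_mem hxU).and
    ((ev_chart' hi).1 (hη.and (hπ.eventually_analyticAt.and
      (C2.eventually_surj hπ (B := ContinuousLinearMap.id ℂ _) hsurj)))))
  have hl0 : l (A.e i x) ∈ Metric.ball (l (A.e i x)) ε := Metric.mem_ball_self hε
  refine ⟨i, U', fun z => κ (g (l (A.e i x), z)), hU', hxU', fun y hy => (u1 y (v1 y hy).1).1,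
    fun y hy => (v1 y hy).2.2, fun y hy z hz => ⟨fun hyz => ?_, fun hyz => ?_⟩,
    fun y hy z hz => sat y (v1 y hy).1 z (v1 z hz).1⟩
  · obtain ⟨⟨b1, b2⟩, -, b3⟩ := e0 (l (A.e i x), y) ⟨hl0, (v1 y hy).1⟩
    have b4 := e1 _ (v1 y hy).2.1 z (v1 z hz).1 (sat _ (v1 y hy).2.1 y (v1 y hy).1 b1 z hyz)
    have b5 : l (A.e i ((A.e i).symm (g (l (A.e i x), A.e i y)))) = l (A.e i x) := b2
    rw [b5] at b4
    exact congrArg κ ((A.e i).symm.injOn b3 (e0 (l (A.e i x), z) ⟨hl0, (v1 z hz).1⟩).2.2 b4.symm)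
  · obtain ⟨⟨b1, b2⟩, -, b3⟩ := e0 (l (A.e i x), y) ⟨hl0, (v1 y hy).1⟩
    obtain ⟨⟨c1, c2⟩, -, c3⟩ := e0 (l (A.e i x), z) ⟨hl0, (v1 z hz).1⟩
    have b5 : l (A.e i ((A.e i).symm (g (l (A.e i x), A.e i y)))) = l (A.e i x) := b2
    have c5 : l (A.e i ((A.e i).symm (g (l (A.e i x), A.e i z)))) = l (A.e i x) := c2
    rw [(A.e i).right_inv b3] at b5
    rw [(A.e i).right_inv c3] at c5
    have b6 : g (l (A.e i x), A.e i y) = g (l (A.e i x), A.e i z) :=
      hb.1 (Prod.ext hyz (b5.trans c5.symm))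
    have b7 : η (l (A.e i x), y) = η (l (A.e i x), z) := congrArg (A.e i).symm b6
    exact sat y (v1 y hy).1 _ (v1 y hy).2.1 (h.symm _ _ b1) z
      (show (η (l (A.e i x), y), z) ∈ Y from b7.symm ▸ c1)

end Crest.Agent.X261.Ans
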