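import Crest.Agent.X261.Ans.EqvD

/-!
# X261/Ans/EqF (helper8): the maximal relation is a foliation at its regular diagonal points
-/

set_option autoImplicit false
set_option linter.unusedSectionVars false

open Set Filter Topology Metric Module

namespace Crest.Agent.X261.Ans

namespace EqF

noncomputable section

variable {E : Type} [NormedAddCommGroup E] [NormedSpace ℂ E] [FiniteDimensional ℂ E]

/-- a manifold `Y` of dimension `n + r` containing the diagonal is parametrised by the first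
coordinate and `r` linear coordinates of the second one -/
theorem flat_param {Y : Set (E × E)} {a : E} {p r : ℕ} (hpr : p + r = finrank ℂ E)
    (hY : Reg Y (finrank ℂ E + r) (a, a)) (hd : ∀ᶠ y in 𝓝 a, (y, y) ∈ Y) :
    ∃ (J : E ≃L[ℂ] (Fin p → ℂ) × (Fin r → ℂ)) (η : E × (Fin r → ℂ) → E),
      AnalyticAt ℂ η (a, (J a).2) ∧
      (∀ᶠ t in 𝓝 (a, (J a).2), (t.1, η t) ∈ Y ∧ (J (η t)).2 = t.2) ∧
      ∀ᶠ q in 𝓝 (a, a), q ∈ Y → η (q.1, (J q.2).2) = q.2 := by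
  obtain ⟨c, g, hc, hg, hs, hz⟩ := hY.exists_subm
  obtain rfl : p = c := by
    rw [finrank_prod] at hc
    omega
  set T := fderiv ℂ g (a, a) with hT
  have hΔ : HasFDerivAt (fun y : E => (y, y)) ((ContinuousLinearMap.id ℂ E).prod
      (ContinuousLinearMap.id ℂ E)) a := (hasFDerivAt_id a).prodMk (hasFDerivAt_id a)
  have hT0 : ∀ v, T (v, v) = 0 := fun v => by
    have h1 : HasFDerivAt (fun y : E => g (y, y)) (T.comp ((ContinuousLinearMap.id ℂ E).prod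
        (ContinuousLinearMap.id ℂ E))) a :=
      HasFDerivAt.comp (g := g) a hg.differentiableAt.hasFDerivAt hΔ
    have h2 : (fun y : E => g (y, y)) =ᶠ[𝓝 a] fun _ => 0 := by
      filter_upwards [hd, hΔ.continuousAt.eventually hz] with y h1 h2 using h2.1 h1
    have h3 := h1.unique ((hasFDerivAt_const (0 : Fin p → ℂ) a).congr_of_eventuallyEq h2)
    exact congrArg (fun L : E →L[ℂ] (Fin p → ℂ) => L v) h3
  set lam : E →L[ℂ] (Fin p → ℂ) := T.comp (ContinuousLinearMap.inr ℂ E E) with hlam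
  have hsurj : Function.Surjective lam := fun w => by
    obtain ⟨v, hv⟩ := hs w
    refine ⟨v.2 - v.1, ?_⟩
    have h1 : ((0 : E), v.2 - v.1) = v - (v.1, v.1) := by ext <;> simp
    simp only [hlam, ContinuousLinearMap.comp_apply, ContinuousLinearMap.inr_apply]
    rw [h1, map_sub, hT0, sub_zero, hv]
  obtain ⟨s, κ, hs', hκ⟩ := Rg.exists_compl hsurj
  obtain rfl : r = s := by
    rw [finrank_fin_fun] at hs'
    omega
  have hinj : Function.Injective (lam.prod κ) := (injective_iff_map_eq_zero _).2 fun v hv =>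
    hκ v (congrArg Prod.fst hv) (congrArg Prod.snd hv)
  have hdim : finrank ℂ E = finrank ℂ ((Fin p → ℂ) × (Fin r → ℂ)) := by simp [hpr]
  let J : E ≃L[ℂ] (Fin p → ℂ) × (Fin r → ℂ) :=
    (LinearMap.linearEquivOfInjective (lam.prod κ : E →ₗ[ℂ] _) hinj hdim).toContinuousLinearEquiv
  have hJ : ∀ v, (J v).2 = κ v := fun _ => rfl
  let G : E × E → E × (Fin p → ℂ) × (Fin r → ℂ) := fun q => (q.1, g q, κ q.2)
  have hG : AnalyticAt ℂ G (a, a) :=
    analyticAt_fst.prod (hg.prod ((κ.analyticAt _).comp analyticAt_snd))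
  have hG' : HasFDerivAt G ((ContinuousLinearMap.fst ℂ E E).prod
      (T.prod (κ.comp (ContinuousLinearMap.snd ℂ E E)))) (a, a) :=
    hasFDerivAt_fst.prodMk (hg.differentiableAt.hasFDerivAt.prodMk
      (κ.hasFDerivAt.comp (a, a) hasFDerivAt_snd))
  obtain ⟨H, hH, h1, h2⟩ := Rg.exists_inv hG (by
    rw [hG'.fderiv]
    refine (injective_iff_map_eq_zero _).2 fun v hv => ?_
    have e1 : v.1 = 0 := congrArg Prod.fst hv
    have e2 : T v = 0 := congrArg (fun t => t.2.1) hv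
    have e3 : κ v.2 = 0 := congrArg (fun t => t.2.2) hv
    have e4 : v = (0, v.2) := Prod.ext e1 rfl
    refine Prod.ext e1 (hκ _ ?_ e3)
    rw [e4] at e2
    exact e2) (by simp [← hpr])
  have hga : g (a, a) = 0 := hz.self_of_nhds.1 hY.mem
  let ι : E × (Fin r → ℂ) → E × (Fin p → ℂ) × (Fin r → ℂ) := fun t => (t.1, 0, t.2)
  have hι : AnalyticAt ℂ ι (a, κ a) := analyticAt_fst.prod (analyticAt_const.prod analyticAt_snd)
  have hιa : ι (a, κ a) = G (a, a) := by simp [ι, G, hga]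
  have hHι : AnalyticAt ℂ (fun t => H (ι t)) (a, κ a) := hH.comp_of_eq hι hιa
  have hHa : H (ι (a, κ a)) = (a, a) := by rw [hιa]; exact h1.self_of_nhds
  refine ⟨J, fun t => (H (ι t)).2, analyticAt_snd.comp hHι, ?_, ?_⟩
  · have k1 : Tendsto ι (𝓝 (a, κ a)) (𝓝 (G (a, a))) := hιa ▸ hι.continuousAt
    have k2 : Tendsto (fun t => H (ι t)) (𝓝 (a, κ a)) (𝓝 (a, a)) := hHa ▸ hHι.continuousAt
    filter_upwards [k1.eventually h2, k2.eventually hz] with t e1 e2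
    have e3 : (H (ι t)).1 = t.1 := congrArg Prod.fst e1
    refine ⟨?_, congrArg (fun t => t.2.2) e1⟩
    rw [← e3]
    exact e2.2 (congrArg (fun t => t.2.1) e1)
  · filter_upwards [h1, hz] with q e1 e2 hq
    have e3 : ι (q.1, κ q.2) = G q := by simp [ι, G, e2.1 hq]
    rw [hJ, e3, e1]

variable {M : Type} [TopologicalSpace M] {A : HA E M}

theorem param {Y : Set (M × M)} {x : M} {i : A.ι} (hi : x ∈ (A.e i).source) {p r : ℕ}
    (hpr : p + r = finrank ℂ E) (hY : (A.prod A).Reg Y (finrank ℂ E + r) (x, x))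
    (hd : ∀ᶠ y in 𝓝 x, (y, y) ∈ Y) :
    ∃ (J : E ≃L[ℂ] (Fin p → ℂ) × (Fin r → ℂ)) (η : M × (Fin r → ℂ) → M),
      (A.prod (HA.self (Fin r → ℂ))).Hol A η (x, (J (A.e i x)).2) ∧
      (∀ᶠ t in 𝓝 (x, (J (A.e i x)).2), (t.1, η t) ∈ Y ∧ (J (A.e i (η t))).2 = t.2) ∧
      ∀ᶠ q in 𝓝 (x, x), q ∈ Y → η (q.1, (J (A.e i q.2)).2) = q.2 := by
  have hi2 : (x, x) ∈ ((A.prod A).e (i, i)).source := ⟨hi, hi⟩
  obtain ⟨J, η, h1, h2, h3⟩ := flat_param (a := A.e i x) hpr ((HA.reg_iff hi2).1 hY)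
    ((HA.ev_chart hi).1 hd)
  have ha : η (A.e i x, (J (A.e i x)).2) = A.e i x := h3.self_of_nhds (by
    show ((A.e i).symm (A.e i x), (A.e i).symm (A.e i x)) ∈ Y
    rw [(A.e i).left_inv hi]
    exact hY.mem)
  have hc : (A.prod (HA.self (Fin r → ℂ))).Hol (HA.self (E × (Fin r → ℂ)))
      (fun t => (A.e i t.1, t.2)) (x, (J (A.e i x)).2) :=
    ((HA.hol_chart hi).comp (HA.hol_fst _ _ _)).pair (HA.hol_snd _ _ _)
  have hη := hc.an_comp h1
  refine ⟨J, fun t => (A.e i).symm (η (A.e i t.1, t.2)),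
    (HA.hol_symm ((A.e i).map_source hi)).comp_of_eq hη ha, ?_, ?_⟩
  · have k1 : Tendsto (fun t : M × (Fin r → ℂ) => η (A.e i t.1, t.2)) (𝓝 (x, (J (A.e i x)).2))
        (𝓝 (A.e i x)) := by simpa only [ContinuousAt, ha] using hη.cont
    filter_upwards [hc.cont.eventually h2, k1.eventually (HA.ev_target hi),
      continuousAt_fst.eventually (HA.ev_source hi)] with t e1 e2 e3
    refine ⟨?_, by rw [(A.e i).right_inv e2]; exact e1.2⟩
    have e4 : ((A.e i).symm (A.e i t.1), (A.e i).symm (η (A.e i t.1, t.2))) ∈ Y := e1.1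
    rwa [(A.e i).left_inv e3] at e4
  · filter_upwards [(HA.ev_chart' hi2).1 h3, HA.ev_source hi2] with q e1 e2 hq
    have e3 := e1 (by
      show ((A.e i).symm (A.e i q.1), (A.e i).symm (A.e i q.2)) ∈ Y
      rwa [(A.e i).left_inv e2.1, (A.e i).left_inv e2.2])
    have e4 : η (A.e i q.1, (J (A.e i q.2)).2) = A.e i q.2 := e3
    rw [e4, (A.e i).left_inv e2.2]

/-- a component of the fibre product which contains an open piece of `Y` (embedded by
`(z, q) ↦ (z, z, q)`) is projected into the maximal relation -/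
theorem comp_sub [ConnectedSpace M] (D : RelK A) {Y : Set (M × M)} (hY : Y ∈ D.K)
    (hmax : ∀ Y' ∈ D.K, Y' ⊆ Y) {C : Set (M × M × M)}
    (hC : (A.prod (A.prod A)).Comp univ (FP Y Y) C) {q₀ : M × M} (hq₀ : q₀ ∈ Y)
    (h : ∀ᶠ q in 𝓝 q₀, q ∈ Y → (q.1, q.1, q.2) ∈ C) : ∀ t ∈ C, (t.1, t.2.2) ∈ Y := by
  obtain ⟨d, hd⟩ := D.irr Y hY
  have h1 : (A.prod A).An univ ((fun q : M × M => (q.1, q.1, q.2)) ⁻¹' C) :=
    (hC.an isOpen_univ (HA.an_FP hd.an hd.an)).preimage (fun q _ => (HA.hol_fst A A q).prodMk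
      ((HA.hol_fst A A q).prodMk (HA.hol_snd A A q))) (mapsTo_univ _ _)
  have h2 := hd.sub_of_open isOpen_univ h1 ⟨mem_univ _, hq₀⟩ h
  obtain ⟨Y₃, h3, h4⟩ := D.up Y hY Y hY C hC fun x => h2 ⟨mem_univ _, D.diag Y hY x⟩
  exact fun t ht => hmax Y₃ h3 (h4 t ht)

/-- saturation along holomorphic families of moves -/
theorem sat [ConnectedSpace M] (D : RelK A) {Y : Set (M × M)} (hY : Y ∈ D.K)
    (hmax : ∀ Y' ∈ D.K, Y' ⊆ Y) {F : Type} [NormedAddCommGroup F] [NormedSpace ℂ F]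
    [FiniteDimensional ℂ F] {U : Set M} (hU : IsOpen U) {B : Set F} (hB : IsOpen B)
    (hc : IsConnected B) {η : M × F → M}
    (h1 : ∀ z ∈ U, ∀ u ∈ B, (A.prod (HA.self F)).Hol A η (z, u) ∧ (η (z, u), z) ∈ Y)
    (h2 : ∀ z ∈ U, ∃ u ∈ B, η (z, u) = z) {z q : M} (hz : z ∈ U) (hq : (z, q) ∈ Y) {u : F}
    (hu : u ∈ B) : (η (z, u), q) ∈ Y := by
  obtain ⟨d, hd⟩ := D.irr Y hY
  have hO : IsOpen (U ×ˢ (univ : Set M)) := hU.prod isOpen_univ
  have hA : (A.prod A).An (U ×ˢ univ) Y := hd.an.mono (subset_univ _)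
  obtain ⟨C, hC, hzC⟩ := HA.comp_cover hO hA (x := (z, q)) ⟨hz, mem_univ _⟩ hq
  obtain ⟨hCY, k, hk⟩ := hC.irr hO hA
  have hI := hk.prod (HA.irr_open (A := HA.self F) hB hc (Subset.refl B))
  obtain ⟨C', hC', h3⟩ := HA.Irr.img_comp isOpen_univ (HA.an_FP hd.an hd.an)
    (hO.prod hB) hI (f := fun t : (M × M) × F => (η (t.1.1, t.2), t.1.1, t.1.2))
    (fun t ht => by
      have e1 := (HA.hol_fst (A.prod A) (HA.self F) t)
      exact ((h1 _ ht.1.1.1 _ ht.1.2).1.comp_of_eq (e1.fst.prodMk (HA.hol_snd _ _ t)) rfl).prodMk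
        (e1.fst.prodMk e1.snd))
    fun t ht => ⟨mem_univ _, (h1 _ ht.1.1.1 _ ht.1.2).2, hCY ht.2.1⟩
  obtain ⟨_, K, ⟨q₀, hq₀⟩, -, -, hK, hK'⟩ := hC.core hO hA
  refine comp_sub D hY hmax hC' (hCY (hK hq₀)) ?_ (η (z, u), z, q)
    (h3 ((z, q), u) ⟨⟨⟨hz, mem_univ _⟩, hu⟩, hzC, hu⟩)
  filter_upwards [(hK' q₀ hq₀).2.2] with w hw hwY
  have e1 := (hC.sub hA (hK (hw hwY))).1
  obtain ⟨v, hv, e2⟩ := h2 _ e1.1
  have e3 := h3 (w, v) ⟨⟨e1, hv⟩, hK (hw hwY), hv⟩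
  simp only [e2] at e3
  exact e3

theorem symm_of_max (D : RelK A) {Y : Set (M × M)} (hY : Y ∈ D.K) (hmax : ∀ Y' ∈ D.K, Y' ⊆ Y)
    {x y : M} (h : (x, y) ∈ Y) : (y, x) ∈ Y := by
  obtain ⟨Y', h1, h2⟩ := D.symm Y hY
  exact hmax Y' h1 (h2 x y h)

/-- **the maximal relation is a foliation at its regular diagonal points** -/
theorem fol_of_max [ConnectedSpace M] (D : RelK A) {Y : Set (M × M)} (hY : Y ∈ D.K)
    (hmax : ∀ Y' ∈ D.K, Y' ⊆ Y) {p r : ℕ} (hpr : p + r = finrank ℂ E) {x : M}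
    (hx : (A.prod A).Reg Y (finrank ℂ E + r) (x, x)) : Fol A Y p x := by
  obtain ⟨i, hi⟩ := A.cover x
  obtain ⟨J, η, h1, h2, h3⟩ := param hi hpr hx (Eventually.of_forall (D.diag Y hY))
  set κ : M → Fin r → ℂ := fun y => (J (A.e i y)).2 with hκ
  have hκc : ContinuousAt κ x :=
    (continuous_snd.comp J.continuous).continuousAt.comp ((A.e i).continuousAt hi)
  obtain ⟨N₁, hN₁, B', hB', k1⟩ := mem_nhds_prod_iff.1 (h1.eventually.and h2)
  obtain ⟨N₂, hN₂, N₃, hN₃, k2⟩ := mem_nhds_prod_iff.1 h3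
  obtain ⟨ε, hε, hεB⟩ := Metric.mem_nhds_iff.1 hB'
  obtain ⟨U₁, hU₁, hU₁o, hxU₁⟩ := _root_.mem_nhds_iff.1 (inter_mem (inter_mem hN₁
    (inter_mem hN₂ hN₃)) (inter_mem (HA.ev_source hi) (hκc (ball_mem_nhds _ hε))))
  have P : ∀ z ∈ U₁, ∀ u ∈ ball (κ x) ε, (A.prod (HA.self (Fin r → ℂ))).Hol A η (z, u) ∧
      (z, η (z, u)) ∈ Y ∧ κ (η (z, u)) = u := fun z hz u hu =>
    k1 (mk_mem_prod (hU₁ hz).1.1 (hεB hu))
  have Q : ∀ y ∈ U₁, ∀ z ∈ U₁, (y, z) ∈ Y → η (y, κ z) = z := fun y hy z hz =>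
    k2 (mk_mem_prod (hU₁ hy).1.2.1 (hU₁ hz).1.2.2)
  have S : ∀ y ∈ U₁, ∀ z ∈ U₁, (y, z) ∈ Y → ∀ q, (z, q) ∈ Y → (y, q) ∈ Y := by
    intro y hy z hz hyz q hq
    rw [← Q z hz y hy (symm_of_max D hY hmax hyz)]
    exact sat D hY hmax hU₁o isOpen_ball ((convex_ball _ _).isConnected ⟨_, mem_ball_self hε⟩)
      (fun z hz u hu => ⟨(P z hz u hu).1, symm_of_max D hY hmax (P z hz u hu).2.1⟩)
      (fun z hz => ⟨κ z, (hU₁ hz).2.2, Q z hz z hz (D.diag Y hY z)⟩) hz hq (hU₁ hy).2.2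
  set ψ : M → M := fun y => η (y, κ x) with hψ
  have hψx : ψ x = x := Q x hxU₁ x hxU₁ (D.diag Y hY x)
  have hψh : A.Hol A ψ x := h1.comp_of_eq (HA.hol_inl A (HA.self (Fin r → ℂ)) (κ x) x) rfl
  set π : M → Fin p → ℂ := fun y => (J (A.e i (ψ y))).1 with hπ
  have hπh : A.Hol (HA.self (Fin p → ℂ)) π x :=
    ((HA.hol_chart hi).comp_of_eq hψh hψx).an_comp (g := fun w => (J w).1)
      (analyticAt_fst.comp (J.analyticAt _))
  have hπx : π x = (J (A.e i x)).1 := by simp only [hπ, hψx]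
  have hπs : A.Subm (HA.self (Fin p → ℂ)) π x := by
    have e0 : J.symm (π x, κ x) = A.e i x := by
      rw [hπx]
      exact J.symm_apply_apply _
    have e1 : AnalyticAt ℂ (fun t : Fin p → ℂ => J.symm (t, κ x)) (π x) :=
      (J.symm.analyticAt _).comp (analyticAt_id.prod analyticAt_const)
    have e2 : (HA.self (Fin p → ℂ)).Hol A (fun t => (A.e i).symm (J.symm (t, κ x))) (π x) :=
      (HA.hol_symm ((A.e i).map_source hi)).comp_of_eq (HA.self_hol_iff.2 e1) e0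
    have e3 : (A.e i).symm (J.symm (π x, κ x)) = x := by rw [e0, (A.e i).left_inv hi]
    refine HA.subm_of_sec hπh e2 e3 ?_
    have e4 : Tendsto (fun t : Fin p → ℂ => J.symm (t, κ x)) (𝓝 (π x)) (𝓝 (A.e i x)) :=
      e0 ▸ e1.continuousAt
    have e5 : Tendsto (fun t : Fin p → ℂ => (A.e i).symm (J.symm (t, κ x))) (𝓝 (π x)) (𝓝 x) :=
      (HA.tendsto_symm hi).comp e4
    filter_upwards [e4.eventually (HA.ev_target hi), e5.eventually (hU₁o.mem_nhds hxU₁)]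
      with t f1 f2
    have f3 : κ ((A.e i).symm (J.symm (t, κ x))) = κ x := by
      simp only [hκ]
      rw [(A.e i).right_inv f1, J.apply_symm_apply]
    have f4 : ψ ((A.e i).symm (J.symm (t, κ x))) = (A.e i).symm (J.symm (t, κ x)) := by
      have f5 := Q _ f2 _ f2 (D.diag Y hY _)
      rwa [f3] at f5
    simp only [hπ]
    rw [f4, (A.e i).right_inv f1, J.apply_symm_apply]
  have hψU : ∀ᶠ y in 𝓝 x, ψ y ∈ U₁ := hψh.cont.eventually (by rw [hψx]; exact hU₁o.mem_nhds hxU₁)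
  obtain ⟨U, hU, hUo, hxU⟩ := _root_.mem_nhds_iff.1
    ((hU₁o.eventually_mem hxU₁).and (hψU.and hπs.eventually))
  have hsrc : ∀ y ∈ U₁, y ∈ (A.e i).source := fun y hy => (hU₁ hy).2.1
  refine ⟨i, U, fun w => π ((A.e i).symm w), hUo, hxU, fun y hy => hsrc y (hU hy).1,
    fun y hy => ?_, fun y hy z hz => ?_, fun y hy z hz => S y (hU hy).1 z (hU hz).1⟩
  · have e1 := (hU hy).2.2
    exact ⟨(HA.hol_self_iff (hsrc y (hU hy).1)).1 e1.hol,
      (HA.subm_self_iff e1.hol (hsrc y (hU hy).1)).1 e1⟩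
  · simp only [(A.e i).left_inv (hsrc y (hU hy).1), (A.e i).left_inv (hsrc z (hU hz).1)]
    have Py := P y (hU hy).1 _ (mem_ball_self hε)
    have Pz := P z (hU hz).1 _ (mem_ball_self hε)
    refine ⟨fun h => ?_, fun h => ?_⟩
    · have e1 := Q z (hU hz).1 _ (hU hy).2.1
        (S z (hU hz).1 y (hU hy).1 (symm_of_max D hY hmax h) _ Py.2.1)
      have e2 : κ (ψ y) = κ x := Py.2.2
      rw [e2] at e1
      have e3 : ψ z = ψ y := e1
      simp only [hπ, e3]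
    · have e1 : J (A.e i (ψ y)) = J (A.e i (ψ z)) := Prod.ext h (Py.2.2.trans Pz.2.2.symm)
      have e2 : ψ y = ψ z := (A.e i).injOn (hsrc _ (hU hy).2.1) (hsrc _ (hU hz).2.1)
        (J.injective e1)
      refine S y (hU hy).1 (ψ y) (hU hy).2.1 Py.2.1 z ?_
      rw [e2]
      exact symm_of_max D hY hmax Pz.2.1

end

end EqF

end Crest.Agent.X261.Ans
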