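import Crest.Agent.X261.Ans.Shif
import Crest.Agent.X261.Ans.Reg
import Crest.Agent.X261.Ans.PjB

/-!
# X261/Ans/Sing (helper4): the conormal spaces at the regular points are generated by functions on
a fixed neighbourhood; the singular locus is analytic (both modulo `dec`).
-/

set_option autoImplicit false
set_option linter.unusedSectionVars false

open Set Filter Topology Module Metric
open Crest.Agent.R281.Thn_280

namespace Crest.Agent.X261.Ans.Sn

open Sh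

variable {E V : Type} [NormedAddCommGroup E] [NormedSpace ℂ E] [FiniteDimensional ℂ E]
  [NormedAddCommGroup V] [NormedSpace ℂ V] [FiniteDimensional ℂ V]

/-- the image of the bad points -/
def Bad (A K : Set E) (l : E →L[ℂ] V) : Set V := l '' {y | y ∈ A ∩ K ∧ ¬ Good A l y}

variable {A K : Set E} {l : E →L[ℂ] V}

theorem isClosed_bad (hK : IsCompact (A ∩ K)) : IsClosed (Bad A K l) :=
  ((isCompact_bad hK).image l.continuous).isClosed

theorem cov_pre (hsurj : Function.Surjective l) {S : Set V} (hS : Cov (finrank ℂ V) S) :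
    Cov (finrank ℂ E) (l ⁻¹' S) :=
  (cov_iff_sth.2 ((cov_iff_sth.1 hS).preimage isOpen_univ
    (fun y _ => l.analyticAt y) (fun y _ => by rwa [l.fderiv]))).sub fun _ hy => ⟨mem_univ _, hy⟩

/-- canonical equations of a branched cover -/
theorem canon (hK : IsCompact (A ∩ K)) {O : Set V} (hO : IsOpen O) (hOc : IsPreconnected O)
    (hOK : ∀ y ∈ A ∩ K, l y ∈ O → K ∈ 𝓝 y) (hsurj : Function.Surjective l)
    (hbad : Cov (finrank ℂ V) (Bad A K l)) :
    ∃ (k : ℕ) (en : V → Fin k → E),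
      (∀ t ∈ O \ Bad A K l, Function.Injective (en t) ∧ range (en t) = A ∩ K ∩ l ⁻¹' {t}) ∧
      ∀ lam : E →L[ℂ] ℂ, ∃ g : E → ℂ, AnalyticOnNhd ℂ g (l ⁻¹' O) ∧
        ∀ y, l y ∈ O \ Bad A K l → g y = ∏ i, (lam y - lam (en (l y) i)) := by
  have : CompleteSpace E := FiniteDimensional.complete ℂ E
  set G := O \ Bad A K l with hG
  have hGo : IsOpen G := hO.sdiff (isClosed_bad hK)
  have hGc : IsPreconnected G := preconnected_diff hO hOc hbad hGo
  set Z : V → Set E := fun t => A ∩ K ∩ l ⁻¹' {t} with hZ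
  have hgood : ∀ t ∈ G, ∀ y ∈ A ∩ K, l y = t → Good A l y ∧ K ∈ 𝓝 y := fun t ht y hy hl =>
    ⟨by_contra fun hn => ht.2 ⟨y, ⟨hy, hn⟩, hl⟩, hOK y hy (hl ▸ ht.1)⟩
  have hfin : ∀ t ∈ G, (Z t).Finite := fun t ht =>
    finite_fib hK fun y hy hl => (hgood t ht y hy hl).1
  obtain ⟨k, hcard⟩ : ∃ k, ∀ t ∈ G, (Z t).ncard = k := by
    rcases G.eq_empty_or_nonempty with h0 | ⟨t₁, ht₁⟩
    · exact ⟨0, fun t ht => by rw [h0] at ht; exact ht.elim⟩
    refine ⟨(Z t₁).ncard, fun t ht => ?_⟩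
    refine hGc.constant (f := fun t => (Z t).ncard) (fun s hs => ?_) ht ht₁
    obtain ⟨σ, -, h2⟩ := sheets hK (hgood s hs)
    refine (continuousAt_const (y := (Z s).ncard)).continuousWithinAt.congr_of_eventuallyEq
      (nhdsWithin_le_nhds ?_) rfl
    filter_upwards [h2] with u hu
    show (A ∩ K ∩ l ⁻¹' {u}).ncard = _
    rw [hu.2, hu.1.ncard_image]
  have hen : ∀ t ∈ G, ∃ en : Fin k → E, Function.Injective en ∧ range en = Z t := by
    intro t ht
    have := (hfin t ht).to_subtype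
    let e := Finite.equivFinOfCardEq (α := Z t) (n := k) (by
      rw [Nat.card_coe_set_eq]; exact hcard t ht)
    refine ⟨fun i => e.symm i, Subtype.val_injective.comp e.symm.injective, ?_⟩
    rw [show (fun i => (e.symm i : E)) = Subtype.val ∘ e.symm from rfl, range_comp,
      e.symm.surjective.range_eq, image_univ, Subtype.range_coe]
  choose! en hen1 hen2 using hen
  have henZ : ∀ t ∈ G, ∀ i, en t i ∈ Z t := fun t ht i => hen2 t ht ▸ mem_range_self i
  have hS : Cov (finrank ℂ E) (l ⁻¹' Bad A K l) := cov_pre hsurj hbad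
  have hdiff : l ⁻¹' O \ l ⁻¹' Bad A K l = l ⁻¹' G := rfl
  obtain ⟨R, hR⟩ := hK.isBounded.exists_norm_le
  refine ⟨k, en, fun t ht => ⟨hen1 t ht, hen2 t ht⟩, fun lam => ?_⟩
  obtain ⟨g, g1, g2⟩ := hS.extend (hO.preimage l.continuous)
    (by rw [hdiff]; exact hGo.preimage l.continuous)
    (f := fun y => ∏ i, (lam y - lam (en (l y) i))) (by
      rw [hdiff]
      intro y hy
      obtain ⟨σ, h1, h2⟩ := sheets hK (hgood _ hy)
      have ha : AnalyticAt ℂ (fun z => ∏ w ∈ (hfin _ hy).toFinset,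
          (lam z - lam (σ w (l z)))) y := by
        refine Finset.analyticAt_fun_prod _ fun w hw => (lam.analyticAt _).sub ?_
        exact (lam.analyticAt _).comp
          ((h1 w ((hfin _ hy).mem_toFinset.1 hw)).1.comp (l.analyticAt y))
      refine ha.congr ?_
      filter_upwards [l.continuous.continuousAt.eventually h2,
        (hGo.preimage l.continuous).mem_nhds hy] with z hz hzG
      rw [← finprod_mem_eq_finite_toFinset_prod,
        ← finprod_mem_image (f := fun w => lam z - lam w) hz.1, ← hz.2,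
        ← finprod_eq_prod_of_fintype,
        ← finprod_mem_range (f := fun w => lam z - lam w) (hen1 _ hzG), hen2 _ hzG])
    (fun z _ => ⟨ball z 1, ball_mem_nhds z one_pos, (‖lam‖ * (‖z‖ + 1 + R)) ^ k, fun w hw => by
      rw [hdiff] at hw
      rw [norm_prod]
      refine (Finset.prod_le_prod (g := fun _ => ‖lam‖ * (‖z‖ + 1 + R))
        (fun _ _ => norm_nonneg _) fun i _ => ?_).trans_eq
          (by rw [Finset.prod_const, Finset.card_univ, Fintype.card_fin])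
      rw [← map_sub]
      refine (lam.le_opNorm _).trans (mul_le_mul_of_nonneg_left ?_ (norm_nonneg _))
      have h1 := hR _ (henZ _ hw.2 i).1
      have h2 : ‖w‖ ≤ ‖z‖ + 1 := by
        have := norm_le_norm_add_norm_sub' w z
        have h3 := mem_ball_iff_norm.1 hw.1
        linarith
      linarith [norm_sub_le w (en (l w) i)]⟩)
  exact ⟨g, g1, fun y hy => g2 y (by rw [hdiff]; exact hy)⟩

/-- comparison of directional derivatives -/
theorem deriv_le {g p : E → ℂ} {y : E} (hg : AnalyticAt ℂ g y) (hp : AnalyticAt ℂ p y)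
    (hg0 : g y = 0) (hp0 : p y = 0) {c : ℝ} (h : ∀ᶠ z in 𝓝 y, c * ‖p z‖ ≤ ‖g z‖) (v : E) :
    c * ‖fderiv ℂ p y v‖ ≤ ‖fderiv ℂ g y v‖ := by
  have hl : HasDerivAt (fun s : ℂ => y + s • v) v 0 := by
    simpa using ((hasDerivAt_id (0 : ℂ)).smul_const v).const_add y
  have key : ∀ f : E → ℂ, AnalyticAt ℂ f y → f y = 0 →
      Tendsto (fun s : ℂ => ‖s⁻¹‖ * ‖f (y + s • v)‖) (𝓝[≠] 0) (𝓝 ‖fderiv ℂ f y v‖) := by
    intro f hf hf0
    have h1 : HasDerivAt (fun s : ℂ => f (y + s • v)) (fderiv ℂ f y v) 0 :=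
      HasFDerivAt.comp_hasDerivAt_of_eq (0 : ℂ) hf.differentiableAt.hasFDerivAt hl (by simp)
    have h2 := (hasDerivAt_iff_tendsto_slope_zero.1 h1).norm
    simpa [hf0, norm_smul] using h2
  have ht : Tendsto (fun s : ℂ => y + s • v) (𝓝[≠] 0) (𝓝 y) := by
    have := hl.continuousAt.tendsto
    simp only [zero_smul, add_zero] at this
    exact this.mono_left nhdsWithin_le_nhds
  refine le_of_tendsto_of_tendsto ((key p hp hp0).const_mul c) (key g hg hg0) ?_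
  filter_upwards [ht.eventually h] with s hs
  rw [mul_left_comm]
  exact mul_le_mul_of_nonneg_left hs (norm_nonneg _)

/-- a canonical equation whose differential at a good point does not kill a transverse vector -/
theorem sep (hK : IsCompact (A ∩ K)) {O : Set V} (hO : IsOpen O) (hOc : IsPreconnected O)
    (hOK : ∀ y ∈ A ∩ K, l y ∈ O → K ∈ 𝓝 y) (hA : ∀ y ∈ K, AnAt A y)
    (hbad : Cov (finrank ℂ V) (Bad A K l)) {y : E} (hy : y ∈ A ∩ K) (hyO : l y ∈ O)
    {σ : V → E} (hσ : AnalyticAt ℂ σ (l y)) (h1 : ∀ᶠ t in 𝓝 (l y), σ t ∈ A ∧ l (σ t) = t)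
    (h2 : ∀ᶠ z in 𝓝 y, z ∈ A → σ (l z) = z) {v : E} (hv : v ≠ fderiv ℂ σ (l y) (l v)) :
    ∃ g : E → ℂ, AnalyticOnNhd ℂ g (l ⁻¹' O) ∧
      (∀ z, K ∈ 𝓝 z → l z ∈ O → z ∈ closure {z | Good A l z} → g z = 0) ∧
      fderiv ℂ g y v ≠ 0 := by
  classical
  have : CompleteSpace V := FiniteDimensional.complete ℂ V
  have hgood : Good A l y := ⟨hy.1, σ, hσ, h1, h2⟩
  obtain ⟨k, en, hen, hg⟩ := canon hK hO hOc hOK hgood.surjective hbad
  have hfin : (A ∩ K ∩ l ⁻¹' {l y}).Finite := by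
    refine Pj.finite_of_compact' (hK.inter_right (isClosed_singleton.preimage l.continuous))
      fun w hw => ?_
    exact ((hA w hw.1.2).inter (anAt_of_mem (hOK w hw.1 (by rw [hw.2]; exact hyO)))).inter
      (anAt_eq (l.analyticAt w) analyticAt_const)
  set T : Set E := insert (v - fderiv ℂ σ (l y) (l v))
    ((fun w => y - w) '' ((A ∩ K ∩ l ⁻¹' {l y}) \ {y})) with hT
  have hTf : T.Finite := (hfin.sdiff.image _).insert _
  have := hTf.to_subtype
  obtain ⟨lam₀, hlam⟩ := Module.exists_dual_forall_apply_ne_zero (K := ℂ) (fun i : T => (i : E))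
    (by
      rintro ⟨_, rfl | ⟨w, hw, rfl⟩⟩
      · exact sub_ne_zero.2 hv
      · exact sub_ne_zero.2 (Ne.symm hw.2))
  set lam : E →L[ℂ] ℂ := LinearMap.toContinuousLinearMap lam₀
  have hlam' : ∀ u ∈ T, lam u ≠ 0 := fun u hu => hlam ⟨u, hu⟩
  obtain ⟨g, g1, g2⟩ := hg lam
  have hvan : ∀ z, K ∈ 𝓝 z → l z ∈ O → z ∈ closure {z | Good A l z} → g z = 0 := by
    intro z hzK hzO hz
    have hfr : ∃ᶠ u in 𝓝 z, u ∈ A ∧ l u ∉ Bad A K l := by
      have h1 : ∃ᶠ u in 𝓝 z, u ∈ {z | Good A l z} := mem_closure_iff_frequently.1 hz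
      exact fun h2 => h1 (h2.eventually_nhds.mono fun u hu hg => Good.frequently hg hbad hu)
    refine (isClosed_singleton (x := (0 : ℂ))).mem_of_frequently_of_tendsto ?_
      (g1 z hzO).continuousAt
    refine (hfr.and_eventually (inter_mem hzK
      ((hO.preimage l.continuous).mem_nhds hzO))).mono fun u hu => ?_
    have huG : l u ∈ O \ Bad A K l := ⟨hu.2.2, hu.1.2⟩
    obtain ⟨i, hi⟩ : u ∈ range (en (l u)) := by
      rw [(hen _ huG).2]
      exact ⟨⟨hu.1.1, hu.2.1⟩, rfl⟩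
    rw [mem_singleton_iff, g2 u huG]
    exact Finset.prod_eq_zero (Finset.mem_univ i) (by rw [hi, sub_self])
  refine ⟨g, g1, hvan, ?_⟩
  obtain ⟨c, hc0, hc1, hc⟩ : ∃ c : ℝ, 0 < c ∧ c < 1 ∧ ∀ u ∈ T, c < ‖lam u‖ := by
    have h3 : ∀ᶠ c in 𝓝[>] (0 : ℝ), ∀ u ∈ T, c < ‖lam u‖ :=
      (eventually_all_finite hTf).2 fun u hu =>
        nhdsWithin_le_nhds (gt_mem_nhds (norm_pos_iff.2 (hlam' u hu)))
    obtain ⟨c, h4, h5, h6⟩ := (h3.and ((show ∀ᶠ c in 𝓝[>] (0 : ℝ), 0 < c from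
      self_mem_nhdsWithin).and (nhdsWithin_le_nhds (gt_mem_nhds one_pos)))).exists
    exact ⟨c, h5, h6, h4⟩
  have h0 : σ (l y) = y := h2.self_of_nhds hy.1
  have hlc : ContinuousAt l y := l.continuous.continuousAt
  have hnear : ∀ᶠ z in 𝓝 y, ∀ w ∈ A ∩ K,
      w ∈ A → l w = l z → w = σ (l z) ∨ c ≤ ‖lam z - lam w‖ := by
    refine hK.eventually_forall_of_forall_eventually
      (P := fun z w => w ∈ A → l w = l z → w = σ (l z) ∨ c ≤ ‖lam z - lam w‖) fun w hw => ?_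
    by_cases hl : l w = l y
    swap
    · have hc : ContinuousAt (fun p : E × E => l p.2 - l p.1) (y, w) := by fun_prop
      filter_upwards [hc.eventually_ne (sub_ne_zero.2 hl)] with p hp _ hpl
      exact (hp (sub_eq_zero.2 hpl)).elim
    by_cases hwy : w = y
    · subst hwy
      filter_upwards [continuousAt_snd.eventually (p := fun z => z ∈ A → σ (l z) = z) h2]
        with p hp hpA hpl
      exact Or.inl (by rw [← hpl, hp hpA])
    · have hc' : ContinuousAt (fun p : E × E => ‖lam p.1 - lam p.2‖) (y, w) := by fun_prop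
      have h3 := hc (y - w) (Or.inr ⟨w, ⟨⟨hw, hl⟩, hwy⟩, rfl⟩)
      rw [map_sub] at h3
      filter_upwards [hc'.eventually (lt_mem_nhds h3)] with p hp _ _
      exact Or.inr hp.le
  have hσl : AnalyticAt ℂ (fun z => σ (l z)) y := hσ.comp (l.analyticAt y)
  have hp : AnalyticAt ℂ (fun z => lam z - lam (σ (l z))) y :=
    (lam.analyticAt y).sub ((lam.analyticAt _).comp hσl)
  have hσK : ∀ᶠ z in 𝓝 y, σ (l z) ∈ K :=
    hσl.continuousAt.eventually (p := fun z => z ∈ K) (by simp only [h0]; exact hOK y hy hyO)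
  have hlow : ∀ᶠ z in 𝓝 y, l z ∉ Bad A K l → c ^ k * ‖lam z - lam (σ (l z))‖ ≤ ‖g z‖ := by
    filter_upwards [hnear, hσK, hlc.eventually h1, hlc.eventually (hO.mem_nhds hyO)]
      with z k1 k2 k3 k4 hz
    have hzG : l z ∈ O \ Bad A K l := ⟨k4, hz⟩
    obtain ⟨i, hi⟩ : σ (l z) ∈ range (en (l z)) := by
      rw [(hen _ hzG).2]
      exact ⟨⟨k3.1, k2⟩, k3.2⟩
    rw [g2 z hzG, ← Finset.mul_prod_erase _ _ (Finset.mem_univ i), hi, norm_mul, mul_comm]
    refine mul_le_mul_of_nonneg_left ?_ (norm_nonneg _)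
    rw [norm_prod]
    calc c ^ k ≤ c ^ (Finset.univ.erase i).card :=
          pow_le_pow_of_le_one hc0.le hc1.le (by
            refine (Finset.card_le_univ _).trans_eq (Fintype.card_fin k))
      _ = ∏ _j ∈ Finset.univ.erase i, c := (Finset.prod_const c).symm
      _ ≤ _ := by
        refine Finset.prod_le_prod (fun _ _ => hc0.le) fun j hj => ?_
        have hj' : en (l z) j ∈ A ∩ K ∩ l ⁻¹' {l z} := (hen _ hzG).2 ▸ mem_range_self j
        refine (k1 _ hj'.1 hj'.1.1 hj'.2).resolve_left fun h => ?_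
        exact (Finset.mem_erase.1 hj).1 ((hen _ hzG).1 (h.trans hi.symm))
  have hall : ∀ᶠ z in 𝓝 y, c ^ k * ‖lam z - lam (σ (l z))‖ ≤ ‖g z‖ := by
    filter_upwards [hlow.eventually_nhds, hp.eventually_analyticAt,
      (g1 y hyO).eventually_analyticAt] with z k1 k2 k3
    have hfr : ∃ᶠ u in 𝓝 z, u ∈ (l ⁻¹' Bad A K l)ᶜ :=
      mem_closure_iff_frequently.1 ((cov_pre hgood.surjective hbad).dense_compl z)
    have hcl : IsClosed {q : ℝ × ℝ | q.1 ≤ q.2} := isClosed_le continuous_fst continuous_snd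
    have h3 : ContinuousAt (fun u => (c ^ k * ‖lam u - lam (σ (l u))‖, ‖g u‖)) z :=
      (k2.continuousAt.norm.const_mul _).prodMk k3.continuousAt.norm
    have h4 := hcl.mem_of_frequently_of_tendsto
      ((hfr.and_eventually k1).mono fun u hu => hu.2 hu.1) h3
    exact h4
  have hd := deriv_le (g1 y hyO) hp (hvan y (hOK y hy hyO) hyO (subset_closure hgood))
    (by rw [h0, sub_self]) hall v
  have hpd : HasFDerivAt (fun z => lam z - lam (σ (l z)))
      (lam - lam.comp ((fderiv ℂ σ (l y)).comp l)) y :=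
    lam.hasFDerivAt.sub (lam.hasFDerivAt.comp y
      (hσ.differentiableAt.hasFDerivAt.comp y l.hasFDerivAt))
  rw [hpd.fderiv] at hd
  intro hz
  rw [hz, norm_zero] at hd
  have h3 := hlam' _ (mem_insert _ _)
  rw [map_sub] at h3
  exact absurd hd (not_le.2 (mul_pos (pow_pos hc0 k) (norm_pos_iff.2 h3)))

theorem cov_not_good {d : ℕ} {y : E} (h : Reg A d y) :
    Cov (finrank ℂ (E →L[ℂ] (Fin d → ℂ))) {l : E →L[ℂ] (Fin d → ℂ) | ¬ Good A l y} := by
  obtain ⟨hyA, φ, ρ, hφ, hρ, h1, h2⟩ := h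
  have h0 : φ (ρ y) = y := h2.self_of_nhds hyA
  have hJ : Function.Injective (fderiv ℂ φ (ρ y)) := Function.LeftInverse.injective
    (Rg.fderiv_comp_eq hφ (by rw [h0]; exact hρ) (h1.mono fun _ h => h.2))
  refine (cov_not_surj hJ).sub fun l hl hs => hl ?_
  refine good_of_param hyA (by simp) hφ hρ.continuousAt h1 h2 ?_
  have h6 : HasFDerivAt (fun t => l (φ t)) (l.comp (fderiv ℂ φ (ρ y))) (ρ y) :=
    l.hasFDerivAt.comp (ρ y) hφ.differentiableAt.hasFDerivAt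
  rwa [h6.fderiv]

/-- the non regular points of a pure dimensional set are thin -/
theorem pure_thin (dec : DecS E) {Z : Set E} {x : E} {d : ℕ} (hZ : AnAt Z x)
    (hp : ∀ᶠ y in 𝓝 x, y ∈ Z → y ∈ closure {z | Reg Z d z}) :
    ∃ U : Set E, IsOpen U ∧ x ∈ U ∧ An U Z ∧ (∀ y ∈ U, y ∈ Z → y ∈ closure {z | Reg Z d z}) ∧
      Cov d {p | p ∈ Z ∩ U ∧ ¬ Reg Z d p} := by
  obtain ⟨W, hW, hWo, hxW⟩ := _root_.eventually_nhds_iff.1 (hZ.eventually.and hp)
  obtain ⟨W₀, 𝒞, h1, h2, h3, h4, h5, h6⟩ := dec hWo hxW (fun y hy => (hW y hy).1)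
  refine ⟨W₀, h1, h2, fun y hy => (hW y (h3 hy)).1, fun y hy => (hW y (h3 hy)).2, ?_⟩
  have hd : ∀ C ∈ 𝒞, C.2 = d := by
    intro C hC
    obtain ⟨c1, -, c3, c4, -, -⟩ := h5 C hC
    obtain ⟨y, hy⟩ := closure_nonempty_iff.1 ⟨x, c4⟩
    obtain ⟨z, hz, hz'⟩ := mem_closure_iff_nhds.1 ((hW y (c1 hy).2).2 (c1 hy).1) _
      (c3 y hy).1.eventually
    exact (hz hz'.1).unique hz'
  refine (cov_biUnion h4.countable (S := fun C => (closure C.1 ∩ W₀) \ C.1)
    fun C hC => hd C hC ▸ (h5 C hC).2.2.2.2.2).sub fun p hp => ?_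
  obtain ⟨C, hC, hpC⟩ := mem_iUnion₂.1 (h6 hp.1)
  exact mem_iUnion₂.2 ⟨C, hC, ⟨hpC, hp.1.2⟩,
    fun h => hp.2 (hd C hC ▸ ((h5 C hC).2.2.1 p h).1)⟩

theorem isCompact_inter {Z U K : Set E} (hUZ : An U Z) (hK : IsCompact K) (hKU : K ⊆ U) :
    IsCompact (Z ∩ K) :=
  hK.of_isClosed_subset (isClosed_of_closure_subset fun y hy => by
    have h1 : y ∈ K := hK.isClosed.closure_subset_iff.2 inter_subset_right hy
    exact ⟨(hUZ y (hKU h1)).mem_of_closure (closure_mono inter_subset_left hy), h1⟩)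
    inter_subset_right

/-- an open set of linear projections which are proper on `Z` over a common ball -/
theorem exists_box {Z U : Set E} {x : E} {d : ℕ} (hU : IsOpen U) (hxU : x ∈ U) (hUZ : An U Z)
    (hcov : Cov (d + 1) (Z ∩ U)) :
    ∃ (r δ : ℝ) (l₀ : E →L[ℂ] (Fin d → ℂ)) (L : Set (E →L[ℂ] (Fin d → ℂ))) (W₁ : Set E),
      0 < r ∧ closedBall x r ⊆ U ∧ L ∈ 𝓝 l₀ ∧ W₁ ∈ 𝓝 x ∧
      (∀ l ∈ L, ∀ y ∈ Z ∩ closedBall x r, l y ∈ ball (l₀ x) δ → y ∈ ball x r) ∧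
      ∀ l ∈ L, ∀ z ∈ W₁, l z ∈ ball (l₀ x) δ := by
  have : ProperSpace E := FiniteDimensional.proper ℂ E
  obtain ⟨l₀, hl₀⟩ := (hcov.dense_slice x).nonempty
  obtain ⟨ε, hε, hεU⟩ := Metric.isOpen_iff.1 hU x hxU
  obtain ⟨r, hr1, hr2⟩ := ((Set.Countable.image hl₀ fun y => dist y x).dense_compl ℝ).exists_mem_open
    isOpen_Ioo (nonempty_Ioo.2 hε)
  have hKU : closedBall x r ⊆ U := (closedBall_subset_ball hr2.2).trans hεU
  have h1 : ∀ᶠ q : (E →L[ℂ] (Fin d → ℂ)) × (Fin d → ℂ) in 𝓝 (l₀, l₀ x),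
      ∀ y ∈ Z ∩ sphere x r, q.1 y ≠ q.2 := by
    refine (isCompact_inter hUZ (isCompact_sphere x r)
      (sphere_subset_closedBall.trans hKU)).eventually_forall_of_forall_eventually
      (P := fun (q : (E →L[ℂ] (Fin d → ℂ)) × (Fin d → ℂ)) y => q.1 y ≠ q.2) fun y hy => ?_
    have hc : ContinuousAt (fun p : ((E →L[ℂ] (Fin d → ℂ)) × (Fin d → ℂ)) × E =>
        p.1.1 p.2 - p.1.2) ((l₀, l₀ x), y) :=
      ((continuous_fst.fst.clm_apply continuous_snd).sub continuous_fst.snd).continuousAt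
    have h0 : l₀ y - l₀ x ≠ 0 := fun h0 => hr1
      ⟨y, ⟨⟨hy.1, hKU (sphere_subset_closedBall hy.2)⟩, sub_eq_zero.1 h0⟩, hy.2⟩
    filter_upwards [hc.eventually_ne h0] with p hp
    exact sub_ne_zero.1 hp
  rw [nhds_prod_eq, eventually_prod_iff] at h1
  obtain ⟨L₁, hL₁, O₁, hO₁, h2⟩ := h1
  obtain ⟨δ, hδ, hδO⟩ := Metric.mem_nhds_iff.1 hO₁
  have h3 : ∀ᶠ q : (E →L[ℂ] (Fin d → ℂ)) × E in 𝓝 (l₀, x), q.1 q.2 ∈ ball (l₀ x) δ := by
    have hc : ContinuousAt (fun p : (E →L[ℂ] (Fin d → ℂ)) × E => p.1 p.2) (l₀, x) :=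
      (continuous_fst.clm_apply continuous_snd).continuousAt
    exact hc.eventually (ball_mem_nhds _ hδ)
  rw [nhds_prod_eq, eventually_prod_iff] at h3
  obtain ⟨L₂, hL₂, W₁, hW₁, h4⟩ := h3
  refine ⟨r, δ, l₀, {l | L₁ l ∧ L₂ l}, {z | W₁ z}, hr2.1, hKU, hL₁.and hL₂, hW₁,
    fun l hl z hz hlz => ?_, fun l hl z hz => h4 hl.2 hz⟩
  exact lt_of_le_of_ne hz.2 fun h => h2 hl.1 (hδO hlz) z ⟨hz.1, h⟩ rfl

/-- the tangent space of a good point -/
theorem mem_range_of_good {Z : Set E} {d : ℕ} {l : E →L[ℂ] (Fin d → ℂ)} {y : E}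
    {σ φ : (Fin d → ℂ) → E} {t : Fin d → ℂ} (hσ : AnalyticAt ℂ σ (l y))
    (s2 : ∀ᶠ z in 𝓝 y, z ∈ Z → σ (l z) = z) (hφ : AnalyticAt ℂ φ t) (hφy : φ t = y)
    (hφZ : ∀ᶠ s in 𝓝 t, φ s ∈ Z) (hinj : Function.Injective (fderiv ℂ φ t)) (u : Fin d → ℂ) :
    fderiv ℂ σ (l y) u ∈ range (fderiv ℂ φ t) := by
  subst hφy
  have e1 : ∀ᶠ s in 𝓝 t, φ s = σ (l (φ s)) := by
    filter_upwards [hφZ, hφ.continuousAt.eventually (p := fun z => z ∈ Z → σ (l z) = z) s2]
      with s a b using (b a).symm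
  have e2 : HasFDerivAt (fun s => σ (l (φ s)))
      ((fderiv ℂ σ (l (φ t))).comp (l.comp (fderiv ℂ φ t))) t :=
    HasFDerivAt.comp t hσ.differentiableAt.hasFDerivAt
      (l.hasFDerivAt.comp t hφ.differentiableAt.hasFDerivAt)
  have e3 := hφ.differentiableAt.hasFDerivAt.unique (e2.congr_of_eventuallyEq e1)
  have e4 : ∀ w, fderiv ℂ φ t w = fderiv ℂ σ (l (φ t)) (l (fderiv ℂ φ t w)) :=
    fun w => DFunLike.congr_fun e3 w
  have e5 : Function.Injective (l.comp (fderiv ℂ φ t)) := fun a b hab =>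
    hinj (by rw [e4 a, e4 b]; exact congrArg _ hab)
  obtain ⟨w, hw⟩ := LinearMap.injective_iff_surjective.1
    (show Function.Injective ((l.comp (fderiv ℂ φ t) : _ →L[ℂ] _) :
      (Fin d → ℂ) →ₗ[ℂ] (Fin d → ℂ)) from e5) u
  exact ⟨w, by rw [e4, ← hw]; rfl⟩

theorem conorm_of (dec : DecS E) {Z : Set E} {x : E} {d : ℕ} (hZ : AnAt Z x)
    (hp : ∀ᶠ y in 𝓝 x, y ∈ Z → y ∈ closure {z | Reg Z d z}) :
    ∃ W : Set E, IsOpen W ∧ x ∈ W ∧ Cut W Z ∧ ∀ y ∈ W, ∀ (φ : (Fin d → ℂ) → E) (t : Fin d → ℂ),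
      Reg Z d y → AnalyticAt ℂ φ t → φ t = y → (∀ᶠ s in 𝓝 t, φ s ∈ Z) →
      Function.Injective (fderiv ℂ φ t) →
      ∀ v, (∀ f, Van W Z f → fderiv ℂ f y v = 0) → v ∈ range (fderiv ℂ φ t) := by
  have : ProperSpace E := FiniteDimensional.proper ℂ E
  obtain ⟨U, hU, hxU, hUZ, hpure, hthin⟩ := pure_thin dec hZ hp
  have hSr : ∀ y ∈ {z | Reg Z d z}, Reg Z d y := fun _ h => h
  have hcov : Cov (d + 1) (Z ∩ U) := by
    refine ((hthin.mono (Nat.le_succ d)).union (reg_cov hSr)).sub fun y hy => ?_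
    by_cases h : Reg Z d y
    · exact Or.inr h
    · exact Or.inl ⟨hy, h⟩
  obtain ⟨r, δ, l₀, L, W₁, hr, hKU, hL, hW₁, h2, h4⟩ := exists_box hU hxU hUZ hcov
  obtain ⟨W, hWo, hxW, hWs, hcut⟩ := hZ.exists_sub (inter_mem hW₁ (ball_mem_nhds x hr))
  refine ⟨W, hWo, hxW, hcut, fun y hy φ t hreg hφ hφy hφZ hinj v hv => ?_⟩
  by_contra hvn
  obtain ⟨l, hl1, hl2⟩ := ((cov_not_good hreg).union
    (cov_not_dense hSr)).dense_compl.inter_nhds_nonempty hL
  rw [mem_compl_iff, mem_union, not_or] at hl1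
  obtain ⟨hyZ, σ, hσ, s1, s2⟩ : Good Z l y := not_not.1 hl1.1
  have hl3 : {z | Reg Z d z} ⊆ closure {z | Good Z l z} := not_not.1 hl1.2
  have hWO : ∀ z ∈ W, l z ∈ ball (l₀ x) δ := fun z hz => h4 l hl2 z (hWs hz).1
  have hWK : ∀ z ∈ W, closedBall x r ∈ 𝓝 z := fun z hz =>
    mem_of_superset (isOpen_ball.mem_nhds (hWs hz).2) ball_subset_closedBall
  have hbad : Cov (finrank ℂ (Fin d → ℂ)) (Bad Z (closedBall x r) l) := by
    have h5 : Cov (finrank ℂ (Fin d → ℂ)) (l '' {p | p ∈ Z ∩ U ∧ ¬ Reg Z d p}) := by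
      rw [finrank_fin_fun]
      exact hthin.image fun y _ => l.analyticAt y
    refine (h5.union (cov_bad (l := l) (finrank_fin_fun ℂ) hSr)).sub ?_
    rintro _ ⟨z, hz, rfl⟩
    by_cases h : Reg Z d z
    · exact Or.inr ⟨z, ⟨h, hz.2⟩, rfl⟩
    · exact Or.inl ⟨z, ⟨⟨hz.1.1, hKU hz.1.2⟩, h⟩, rfl⟩
  have hvσ : v ≠ fderiv ℂ σ (l y) (l v) := fun hvv =>
    hvn (hvv ▸ mem_range_of_good hσ s2 hφ hφy hφZ hinj (l v))
  obtain ⟨g, g1, g2, g3⟩ := sep (isCompact_inter hUZ (isCompact_closedBall x r) hKU) isOpen_ball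
    (convex_ball (l₀ x) δ).isPreconnected
    (fun z hz hlz => mem_of_superset (isOpen_ball.mem_nhds (h2 l hl2 z hz hlz))
      ball_subset_closedBall)
    (fun z hz => hUZ z (hKU hz)) hbad ⟨hyZ, mem_of_mem_nhds (hWK y hy)⟩ (hWO y hy) hσ s1 s2 hvσ
  refine g3 (hv g ⟨fun z hz => g1 z (hWO z hz), fun z hz hzZ => g2 z (hWK z hz) (hWO z hz) ?_⟩)
  exact closure_minimal hl3 isClosed_closure (hpure z (hKU (mem_of_mem_nhds (hWK z hz))) hzZ)

/-- a pure `d`-dimensional analytic set inside a `d`-dimensional manifold germ is regular -/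
theorem reg_of_sub {Z M : Set E} {y : E} {d : ℕ} (hZ : AnAt Z y) (hM : Reg M d y)
    (hy : y ∈ closure {z | Reg Z d z}) (hs : ∀ᶠ z in 𝓝 y, z ∈ Z → z ∈ M) : Reg Z d y := by
  rcases hM.dich hZ with h | ⟨N, hN, hyN, hc, -⟩
  · exact hM.congr (by filter_upwards [h, hs] with z a b using ⟨a, b⟩)
  · obtain ⟨z, hz, hz'⟩ := mem_closure_iff_nhds.1 hy _
      (hs.eventually_nhds.and (hN.eventually_mem hyN))
    exact (Reg.not_cov hz' (inter_mem hz.1 (hN.mem_nhds hz.2))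
      (hc.sub fun w hw => ⟨⟨hw.2.1 hw.1, hw.1⟩, hw.2.2⟩)).elim

/-- finitely many linear forms of a family with small common kernel -/
theorem exists_forms {ι : Type*} (f : ι → E →L[ℂ] ℂ) (T : Submodule ℂ E)
    (h : ∀ v, (∀ i, f i v = 0) → v ∈ T) {c : ℕ} (hc : c + finrank ℂ T ≤ finrank ℂ E) :
    ∃ j : Fin c → ι, Function.Surjective fun (v : E) (a : Fin c) => f (j a) v := by
  induction c with
  | zero => exact ⟨Fin.elim0, fun w => ⟨0, Subsingleton.elim _ _⟩⟩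
  | succ c ih =>
    obtain ⟨j, hj⟩ := ih (by omega)
    let L : E →ₗ[ℂ] (Fin c → ℂ) := LinearMap.pi fun a => (f (j a) : E →ₗ[ℂ] ℂ)
    have h1 := LinearMap.finrank_range_add_finrank_ker L
    have h2 : finrank ℂ (LinearMap.range L) ≤ c :=
      (Submodule.finrank_le _).trans_eq (finrank_fin_fun ℂ)
    obtain ⟨v, hv, hvT⟩ : ∃ v ∈ LinearMap.ker L, v ∉ T := by
      by_contra hcon
      push Not at hcon
      have := Submodule.finrank_mono (show LinearMap.ker L ≤ T from hcon)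
      omega
    obtain ⟨i, hi⟩ : ∃ i, f i v ≠ 0 := by
      by_contra hcon
      push Not at hcon
      exact hvT (h v hcon)
    refine ⟨Fin.cons i j, fun w => ?_⟩
    obtain ⟨u, hu⟩ := hj (Fin.tail w)
    refine ⟨u + ((w 0 - f i u) / f i v) • v, funext fun a => ?_⟩
    refine Fin.cases ?_ (fun a => ?_) a
    · simp only [Fin.cons_zero, map_add, map_smul, smul_eq_mul]
      field_simp
      ring
    · have h3 : f (j a) v = 0 := congrFun (LinearMap.mem_ker.1 hv) a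
      have h4 : f (j a) u = w a.succ := congrFun hu a
      simp [h3, h4]

/-- at a regular point: a submersion with components vanishing on `Z` -/
theorem exists_subm_van {Z W : Set E} {y : E} {d : ℕ} (hreg : Reg Z d y)
    (h : ∀ (φ : (Fin d → ℂ) → E) (t : Fin d → ℂ), AnalyticAt ℂ φ t → φ t = y →
      (∀ᶠ s in 𝓝 t, φ s ∈ Z) → Function.Injective (fderiv ℂ φ t) →
      ∀ v, (∀ f, Van W Z f → fderiv ℂ f y v = 0) → v ∈ range (fderiv ℂ φ t)) :
    ∃ (c : ℕ) (f : Fin c → E → ℂ), c + d = finrank ℂ E ∧ (∀ a, Van W Z (f a)) ∧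
      Function.Surjective fun (v : E) (a : Fin c) => fderiv ℂ (f a) y v := by
  obtain ⟨c, hc⟩ := Nat.exists_eq_add_of_le' hreg.le_finrank
  obtain ⟨hyZ, φ, ρ, hφ, hρ, h1, h2⟩ := hreg
  have h0 : φ (ρ y) = y := h2.self_of_nhds hyZ
  have hJ : Function.Injective (fderiv ℂ φ (ρ y)) := Function.LeftInverse.injective
    (Rg.fderiv_comp_eq hφ (by rw [h0]; exact hρ) (h1.mono fun _ h => h.2))
  obtain ⟨j, hj⟩ := exists_forms (fun f : {f : E → ℂ // Van W Z f} => fderiv ℂ f.1 y)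
    (LinearMap.range (fderiv ℂ φ (ρ y) : (Fin d → ℂ) →ₗ[ℂ] E))
    (fun v hv => h φ (ρ y) hφ h0 (h1.mono fun _ h => h.1) hJ v fun f hf => hv ⟨f, hf⟩) (c := c)
    (by
      have := LinearMap.finrank_range_le (fderiv ℂ φ (ρ y) : (Fin d → ℂ) →ₗ[ℂ] E)
      rw [finrank_fin_fun] at this
      omega)
  exact ⟨c, fun a => (j a).1, hc.symm, fun a => (j a).2, hj⟩

theorem sing_of (dec : DecS E) {Z : Set E} {x : E} {d : ℕ} (hZ : AnAt Z x)
    (hp : ∀ᶠ y in 𝓝 x, y ∈ Z → y ∈ closure {z | Reg Z d z}) :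
    AnAt {y | y ∈ Z ∧ ¬ Reg Z d y} x := by
  have : CompleteSpace E := FiniteDimensional.complete ℂ E
  obtain ⟨W, hW, hx, hcut, hco⟩ := conorm_of dec hZ hp
  refine Cut.anAt (W := W ∩ {y | y ∈ Z → y ∈ closure {z | Reg Z d z}}) (fun y hy hyS => ?_)
    (inter_mem (hW.mem_nhds hx) hp)
  by_cases hyZ : y ∈ Z
  swap
  · obtain ⟨f, hf, hf0⟩ := hcut y hy.1 hyZ
    exact ⟨f, hf.mono inter_subset_left fun _ _ h => h.1, hf0⟩
  have hreg : Reg Z d y := by_contra fun h => hyS ⟨hyZ, h⟩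
  obtain ⟨c, f, hc, hf, hs⟩ := exists_subm_van hreg fun φ t => hco y hy.1 φ t hreg
  choose J hJ using fun a : Fin c => hs (Pi.single a 1)
  let D : E → ℂ := fun z => (Matrix.of fun a b : Fin c => fderiv ℂ (f a) z (J b)).det
  refine ⟨D, ⟨fun z hz => ?_, fun z hz hzS => ?_⟩, ?_⟩
  · simp only [D, Matrix.det_apply', Matrix.of_apply]
    refine Finset.analyticAt_fun_sum _ fun s _ => analyticAt_const.mul ?_
    refine Finset.analyticAt_fun_prod _ fun i _ => ?_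
    exact ((ContinuousLinearMap.apply ℂ ℂ (J i)).analyticAt _).comp ((hf _).1 z hz.1).fderiv
  · by_contra hD
    refine hzS.2 ?_
    have hg : AnalyticAt ℂ (fun u a => f a u) z := analyticAt_pi_iff.2 fun a => (hf a).1 z hz.1
    have hg' : HasFDerivAt (fun u a => f a u)
        (ContinuousLinearMap.pi fun a => fderiv ℂ (f a) z) z :=
      hasFDerivAt_pi.2 fun a => ((hf a).1 z hz.1).differentiableAt.hasFDerivAt
    have hsz : Function.Surjective (fderiv ℂ (fun u a => f a u) z) := by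
      rw [hg'.fderiv]
      intro w
      obtain ⟨u, hu⟩ := Matrix.mulVec_surjective_iff_isUnit.2
        ((Matrix.isUnit_iff_isUnit_det _).2 (isUnit_iff_ne_zero.2 hD)) w
      refine ⟨∑ b, u b • J b, funext fun a => ?_⟩
      rw [← hu]
      simp [Matrix.mulVec, dotProduct, mul_comm]
    have hM : Reg {u | (fun a => f a u) = fun a => f a z} d z :=
      Reg.of_subm hg hsz (Eventually.of_forall fun _ => Iff.rfl) (by rw [finrank_fin_fun, hc])
    refine reg_of_sub (hcut.an hW z hz.1) hM (hz.2 hzS.1) ?_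
    filter_upwards [hW.mem_nhds hz.1] with u hu huZ
    exact funext fun a => by rw [(hf a).2 u hu huZ, (hf a).2 z hz.1 hzS.1]
  · have : (Matrix.of fun a b : Fin c => fderiv ℂ (f a) y (J b)) = 1 := by
      ext a b
      have h1 : fderiv ℂ (f a) y (J b) = _ := congrFun (hJ b) a
      rw [Matrix.of_apply, h1, Matrix.one_apply, Pi.single_apply]
    simp only [D, this, Matrix.det_one]
    exact one_ne_zero

end Crest.Agent.X261.Ans.Sn
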