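import Crest.Agent.X261.Ans.Forms
import Crest.Agent.X261.Ans.Sing
import Crest.Agent.X261.Ans.Dec

/-!
# X261/Ans/Forms2 (helper72): unconditional versions of `Ans/Forms`
-/

set_option autoImplicit false
set_option linter.unusedSectionVars false

open Set Filter Topology Module

namespace Crest.Agent.X261.Ans

variable {E : Type} [NormedAddCommGroup E] [NormedSpace ℂ E] [FiniteDimensional ℂ E]
  {M : Type} [TopologicalSpace M] {A : HA E M}

theorem conormStmt (E : Type) [NormedAddCommGroup E] [NormedSpace ℂ E] [FiniteDimensional ℂ E] :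
    ConormStmt E := fun _ _ _ hZ hp => Sn.conorm_of (fun h1 h2 h3 => dec h1 h2 h3) hZ hp

theorem singStmt (E : Type) [NormedAddCommGroup E] [NormedSpace ℂ E] [FiniteDimensional ℂ E] :
    SingStmt E := fun _ _ _ hZ hp => Sn.sing_of (fun h1 h2 h3 => dec h1 h2 h3) hZ hp

namespace HA

/-- the singular locus of a pure dimensional analytic set is analytic -/
theorem sing {Z : Set M} {x : M} {d : ℕ} (hZ : A.AnAt Z x)
    (hp : ∀ᶠ y in 𝓝 x, y ∈ Z → y ∈ closure {z | A.Reg Z d z}) :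
    A.AnAt {y | y ∈ Z ∧ ¬ A.Reg Z d y} x := sing_of (singStmt E) hZ hp

theorem Irr.an_sing {U Y : Set M} {d : ℕ} (hU : IsOpen U) (h : A.Irr U Y d) :
    A.An U {y | y ∈ Y ∧ ¬ A.Reg Y d y} := h.an_sing_of (singStmt E) hU

theorem an_bad {Y : Set (M × M)} {d : ℕ} (hY : (A.prod A).Irr univ Y d)
    (hd : ∀ x, (x, x) ∈ Y) : A.An univ {x | ¬ (A.prod A).Reg Y d (x, x)} :=
  an_bad_of (singStmt _) hY hd

theorem forms [PreconnectedSpace M] {Y : Set (M × M)} {p r : ℕ} (hpr : p + r = finrank ℂ E)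
    (hY : (A.prod A).Irr univ Y (finrank ℂ E + r)) (hd : ∀ x, (x, x) ∈ Y)
    (hne : ∃ x, (A.prod A).Reg Y (finrank ℂ E + r) (x, x)) (i : A.ι) (x : M)
    (hx : x ∈ (A.e i).source) : ∃ (W : Set E) (f : Fin p → E × E → ℂ), IsOpen W ∧
    IsPreconnected W ∧ A.e i x ∈ W ∧ W ⊆ (A.e i).target ∧
    (∀ j, AnalyticOnNhd ℂ (f j) (W ×ˢ W)) ∧
    (∀ j, ∀ y ∈ W, ∀ z ∈ W, ((A.e i).symm y, (A.e i).symm z) ∈ Y → f j (y, z) = 0) ∧
    ∃ z ∈ W, Function.Surjective (fderiv ℂ (fun y => fun j => f j (z, y)) z) :=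
  forms_of (conormStmt _) (singStmt _) hpr hY hd hne i x hx

end HA

end Crest.Agent.X261.Ans
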