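import Crest.Agent.X261.Ans.EqC
import Crest.Agent.X261.Ans.Forms2

/-!
# X261/Ans/Eqv (helper7): the maximal relation of a class (`eqvK`, `eqv`)
-/

set_option autoImplicit false
set_option linter.unusedSectionVars false

open Set Filter Topology Module

namespace Crest.Agent.X261.Ans

/-- **EQV** (class form) -/
theorem eqvK : EqvKStmt := by
  intro E _ _ _ M _ _ A _ D
  obtain ⟨Y, h1, h2, r, h⟩ := D.exists_maxR
  have hpr : (finrank ℂ E - r) + r = finrank ℂ E := Nat.sub_add_cancel h.le
  exact ⟨{
    p := finrank ℂ E - r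
    r := r
    hpr := hpr
    Y := Y
    mem := h1
    irr := h.irr
    diag := h.diag
    symm := h.symm
    max := h2
    an_bad := HA.an_bad h.irr h.diag
    ne_good := h.ne_good
    fol := fun _ hx => h.fol hpr hx
    forms := HA.forms hpr h.irr h.diag h.ne_good }⟩

/-- **EQV** (family form) -/
theorem eqv {E : Type} [NormedAddCommGroup E] [NormedSpace ℂ E] [FiniteDimensional ℂ E]
    {M : Type} [TopologicalSpace M] [ConnectedSpace M] {A : HA E M} [Countable A.ι]
    (D : RelD A) : Nonempty (EqvD D) :=
  eqv_of_eqvK eqvK D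

end Crest.Agent.X261.Ans
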