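import Crest.Agent.X261.Ans.Defs2
import Crest.Agent.X261.Ans.Comp
import Crest.Agent.X261.Ans.DimM

/-!
# X261/Ans/EqvD (helper97): `LocStmt`, `Irr.dom`, and `eqv` from `EqvKStmt`
-/

set_option autoImplicit false
set_option linter.unusedSectionVars false

open Set Filter Topology Module

namespace Crest.Agent.X261.Ans

variable {E F : Type} [NormedAddCommGroup E] [NormedSpace ℂ E] [FiniteDimensional ℂ E]
  [NormedAddCommGroup F] [NormedSpace ℂ F] [FiniteDimensional ℂ F]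
  {M N : Type} [TopologicalSpace M] [TopologicalSpace N] {A : HA E M} {B : HA F N}

namespace HA

/-- **DOM**: a map from an irreducible set whose image has dimension `≥ m` pulls sets of dimension
`< m` back to thin sets -/
theorem Irr.dom [Countable A.ι] {U Y : Set M} {d m : ℕ} (hU : IsOpen U) (h : A.Irr U Y d)
    {f : M → N} (hf : ∀ y ∈ U ∩ Y, A.Hol B f y) (hn : ¬ B.Cov m (f '' (U ∩ Y)))
    {S : Set N} (hS : B.Cov m S) : A.Cov d (U ∩ Y ∩ f ⁻¹' S) :=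
  h.dom_of hU (h.cov_sing hU) hf hn hS

/-- the union of the components of `Z` which are not inside `Y` -/
def out (A : HA E M) (U Z Y : Set M) : Set M := ⋃₀ {C | A.Comp U Z C ∧ ¬ C ⊆ Y}

theorem an_out {U Z : Set M} (hU : IsOpen U) (hZ : A.An U Z) (Y : Set M) :
    A.An U (A.out U Z Y) := an_sUnion_comp hU hZ fun _ h => h.1

/-- `Z` is inside `Y` near `q` iff `q` lies on no component of `Z` which is not inside `Y` -/
theorem mem_out_iff {U Z Y : Set M} (hU : IsOpen U) (hZ : A.An U Z) (hY : A.An U Y) {q : M}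
    (hq : q ∈ U) : q ∈ A.out U Z Y ↔ ¬ ∀ᶠ z in 𝓝 q, z ∈ Z → z ∈ Y := by
  constructor
  · rintro ⟨C, ⟨hC, hCY⟩, hqC⟩ h
    obtain ⟨h1, d, h2⟩ := hC.irr hU hZ
    exact hCY fun z hz => h2.sub_of_open hU hY ⟨hq, hqC⟩ (h.mono fun w hw hwC => hw (h1 hwC))
      ⟨(hC.sub hZ hz).1, hz⟩
  · intro h
    by_contra hq'
    apply h
    filter_upwards [(an_out hU hZ Y q hq).eventually_notMem hq', hU.mem_nhds hq] with z a b c
    obtain ⟨C, hC, hzC⟩ := comp_cover hU hZ b c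
    by_contra hzY
    exact a ⟨C, ⟨hC, fun h => hzY (h hzC)⟩, hzC⟩

/-- generic inclusion along a holomorphic map from a connected manifold -/
theorem loc_along [ConnectedSpace N] {Z Y : Set M} (hZ : A.An univ Z) (hY : A.An univ Y)
    {f : N → M} (hf : ∀ x, B.Hol A f x)
    (h : ∀ C, A.Comp univ Z C → (∀ x, f x ∈ C) → C ⊆ Y) :
    B.An univ {x | ¬ ∀ᶠ q in 𝓝 (f x), q ∈ Z → q ∈ Y} ∧
      ∃ x, ∀ᶠ q in 𝓝 (f x), q ∈ Z → q ∈ Y := by
  have e : {x | ¬ ∀ᶠ q in 𝓝 (f x), q ∈ Z → q ∈ Y} = f ⁻¹' A.out univ Z Y :=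
    Set.ext fun x => (mem_out_iff isOpen_univ hZ hY (mem_univ _)).symm
  refine ⟨e ▸ (an_out isOpen_univ hZ Y).preimage (fun x _ => hf x) (mapsTo_univ _ _), ?_⟩
  obtain ⟨x₀⟩ : Nonempty N := inferInstance
  obtain ⟨W, hW, hfin⟩ := comp_lf isOpen_univ hZ (mem_univ (f x₀))
  have h1 : B.Cov (finrank ℂ F)
      (⋃ C ∈ {C | (A.Comp univ Z C ∧ (C ∩ W).Nonempty) ∧ ¬ C ⊆ Y}, f ⁻¹' C) := by
    refine cov_biUnion (hfin.subset fun C hC => hC.1).countable fun C hC => ?_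
    refine An.cov_of_ne ((hC.1.1.an isOpen_univ hZ).preimage (fun x _ => hf x)
      (mapsTo_univ _ _)) fun hu => hC.2 (h C hC.1.1 fun x => ?_)
    exact (hu ▸ mem_univ x : x ∈ f ⁻¹' C)
  obtain ⟨x, hx1, hx2⟩ := ((h1.frequently_notMem x₀).and_eventually ((hf x₀).1 hW)).exists
  refine ⟨x, by_contra fun hn => hx1 ?_⟩
  obtain ⟨C, hC, hxC⟩ := (mem_out_iff isOpen_univ hZ hY (mem_univ _)).2 hn
  exact mem_iUnion₂.2 ⟨C, ⟨⟨hC.1, f x, hxC, hx2⟩, hC.2⟩, hxC⟩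

theorem an_FP {Y₁ Y₂ : Set (M × M)} (h₁ : (A.prod A).An univ Y₁) (h₂ : (A.prod A).An univ Y₂) :
    (A.prod (A.prod A)).An univ (FP Y₁ Y₂) :=
  (h₁.preimage (f := fun t : M × M × M => (t.1, t.2.1))
    (fun t _ => (hol_fst _ _ t).prodMk (hol_snd _ _ t).fst) (mapsTo_univ _ _)).inter
  (h₂.preimage (f := fun t : M × M × M => (t.2.1, t.2.2))
    (fun t _ => (hol_snd _ _ t).fst.prodMk (hol_snd _ _ t).snd) (mapsTo_univ _ _))

theorem hol_pr13 (A : HA E M) (t : M × M × M) :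
    (A.prod (A.prod A)).Hol (A.prod A) (fun t => (t.1, t.2.2)) t :=
  (hol_fst _ _ t).prodMk (hol_snd _ _ t).snd

/-- some component of an analytic relation containing the diagonal contains the diagonal -/
theorem exists_comp_diag [ConnectedSpace M] {Z : Set (M × M)} (hZ : (A.prod A).An univ Z)
    (hd : ∀ x, (x, x) ∈ Z) : ∃ Y, (A.prod A).Comp univ Z Y ∧ ∀ x, (x, x) ∈ Y := by
  obtain ⟨Y, h1, h2⟩ := img_comp (B := A) isOpen_univ hZ isPreconnected_univ univ_nonempty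
    (fun y _ => A.reg_univ y) (f := fun y => (y, y)) (fun y _ => hol_diag A y)
    (fun y _ => ⟨mem_univ _, hd y⟩)
  exact ⟨Y, h1, fun x => h2 x (mem_univ x)⟩

end HA

theorem locStmt : LocStmt := fun _ _ _ _ _ _ _ A _ _ hZ hY h =>
  HA.loc_along hZ hY (fun x => HA.hol_diag A x) h

/-- the class of the irreducible sets between the diagonal and some `R c` -/
def RelD.toK [ConnectedSpace M] (D : RelD A) : RelK A where
  K := {Y | (∃ d, (A.prod A).Irr univ Y d) ∧ (∀ x, (x, x) ∈ Y) ∧ ∃ c, Y ⊆ D.R c}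
  ne := by
    obtain ⟨c⟩ := D.ne
    obtain ⟨Y, h1, h2⟩ := HA.exists_comp_diag (D.an c) (D.diag c)
    obtain ⟨h3, h4⟩ := h1.irr isOpen_univ (D.an c)
    exact ⟨Y, h4, h2, c, h3⟩
  irr := fun _ h => h.1
  diag := fun _ h => h.2.1
  symm := by
    rintro Y ⟨⟨d, h1⟩, h2, c, h3⟩
    obtain ⟨c', hc'⟩ := D.symm c
    exact ⟨Prod.swap ⁻¹' Y, ⟨⟨d, h1.swap⟩, h2, c', fun q hq => hc' _ _ (h3 hq)⟩, fun _ _ h => h⟩
  up := by
    rintro Y₁ ⟨⟨d₁, a1⟩, -, c₁, a3⟩ Y₂ ⟨⟨d₂, b1⟩, -, c₂, b3⟩ C hC hd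
    obtain ⟨c, T, ⟨S, hS, hT⟩, hc⟩ := D.comp c₁ c₂
    obtain ⟨h1, d, h2⟩ := hC.irr isOpen_univ (HA.an_FP a1.1 b1.1)
    have h3 : univ ∩ C ⊆ (fun t : M × M × M => (t.1, t.2.2)) ⁻¹' D.R c := by
      let Z : Option (ℕ × Fin 3) → Set (M × M × M) := fun o => match o with
        | none => (fun t : M × M × M => (t.1, t.2.2)) ⁻¹' D.R c
        | some (k, 0) => (fun t : M × M × M => t.1) ⁻¹' S k
        | some (k, 1) => (fun t : M × M × M => t.2.1) ⁻¹' S k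
        | some (k, 2) => (fun t : M × M × M => t.2.2) ⁻¹' S k
      obtain ⟨o, ho⟩ := h2.sub_iUnion isOpen_univ (Z := Z) (fun o => match o with
        | none => (D.an c).preimage (fun t _ => HA.hol_pr13 A t) (mapsTo_univ _ _)
        | some (k, 0) => (hS k).1.preimage (fun t _ => HA.hol_fst _ _ t) (mapsTo_univ _ _)
        | some (k, 1) => (hS k).1.preimage (fun t _ => (HA.hol_snd _ _ t).fst) (mapsTo_univ _ _)
        | some (k, 2) => (hS k).1.preimage (fun t _ => (HA.hol_snd _ _ t).snd) (mapsTo_univ _ _))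
        (fun t ht => by
          by_cases e1 : t.1 ∈ T
          · obtain ⟨k, hk⟩ := mem_iUnion.1 (hT e1)
            exact mem_iUnion.2 ⟨some (k, 0), hk⟩
          by_cases e2 : t.2.1 ∈ T
          · obtain ⟨k, hk⟩ := mem_iUnion.1 (hT e2)
            exact mem_iUnion.2 ⟨some (k, 1), hk⟩
          by_cases e3 : t.2.2 ∈ T
          · obtain ⟨k, hk⟩ := mem_iUnion.1 (hT e3)
            exact mem_iUnion.2 ⟨some (k, 2), hk⟩
          exact mem_iUnion.2 ⟨none, hc _ _ _ e1 e2 e3 (a3 (h1 ht.2).1) (b3 (h1 ht.2).2)⟩)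
      match o, ho with
      | none, ho => exact ho
      | some (k, 0), ho =>
        exact ((hS k).2 (eq_univ_of_forall fun x => ho ⟨mem_univ _, hd x⟩)).elim
      | some (k, 1), ho =>
        exact ((hS k).2 (eq_univ_of_forall fun x => ho ⟨mem_univ _, hd x⟩)).elim
      | some (k, 2), ho =>
        exact ((hS k).2 (eq_univ_of_forall fun x => ho ⟨mem_univ _, hd x⟩)).elim
    obtain ⟨Y, h4, h5⟩ := HA.Irr.img_comp isOpen_univ (D.an c) isOpen_univ h2
      (f := fun t : M × M × M => (t.1, t.2.2)) (fun t _ => HA.hol_pr13 A t)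
      (fun t ht => ⟨mem_univ _, h3 ht⟩)
    obtain ⟨h6, h7⟩ := h4.irr isOpen_univ (D.an c)
    exact ⟨Y, ⟨h7, fun x => h5 _ ⟨mem_univ _, hd x⟩, c, h6⟩, fun t ht => h5 t ⟨mem_univ _, ht⟩⟩

/-- from the class form to the family form -/
def EqvK.toD [ConnectedSpace M] {D : RelD A} (Q : EqvK D.toK) : EqvD D where
  p := Q.p
  r := Q.r
  hpr := Q.hpr
  Y := Q.Y
  irr := Q.irr
  sub := Q.mem.2.2
  diag := Q.diag
  symm := Q.symm
  max := fun Y' d c h1 h2 h3 => Q.max Y' ⟨⟨d, h1⟩, h2, c, h3⟩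
  an_bad := Q.an_bad
  ne_good := Q.ne_good
  fol := Q.fol
  an_loc := fun c => (HA.loc_along (D.an c) Q.irr.1 (fun x => HA.hol_diag A x) fun C hC hd =>
    Q.max C ⟨(hC.irr isOpen_univ (D.an c)).2, hd, c, (hC.irr isOpen_univ (D.an c)).1⟩).1
  ne_loc := fun c => (HA.loc_along (D.an c) Q.irr.1 (fun x => HA.hol_diag A x) fun C hC hd =>
    Q.max C ⟨(hC.irr isOpen_univ (D.an c)).2, hd, c, (hC.irr isOpen_univ (D.an c)).1⟩).2
  forms := Q.forms

theorem eqv_of_eqvK (h : EqvKStmt) [ConnectedSpace M] [Countable A.ι] (D : RelD A) :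
    Nonempty (EqvD D) :=
  (h E M A D.toK).map EqvK.toD

end Crest.Agent.X261.Ans
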