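import Crest.Agent.X261.Ans.Man2

/-!
# X261/Ans/Forms (helper72): singular locus on manifolds, the fields `an_bad` and `forms` of `EqvK`

The two flat theorems `conorm` and `sing` enter as the hypotheses `ConormStmt`, `SingStmt`.
-/

set_option autoImplicit false
set_option linter.unusedSectionVars false

open Set Filter Topology Module

namespace Crest.Agent.X261.Ans

/-- the statement of `conorm` -/
def ConormStmt (E : Type) [NormedAddCommGroup E] [NormedSpace ℂ E] : Prop :=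
  ∀ (Z : Set E) (x : E) (d : ℕ), AnAt Z x →
    (∀ᶠ y in 𝓝 x, y ∈ Z → y ∈ closure {z | Reg Z d z}) →
    ∃ W : Set E, IsOpen W ∧ x ∈ W ∧ Cut W Z ∧ ∀ y ∈ W, ∀ (φ : (Fin d → ℂ) → E) (t : Fin d → ℂ),
      Reg Z d y → AnalyticAt ℂ φ t → φ t = y → (∀ᶠ s in 𝓝 t, φ s ∈ Z) →
      Function.Injective (fderiv ℂ φ t) →
      ∀ v, (∀ f, Van W Z f → fderiv ℂ f y v = 0) → v ∈ range (fderiv ℂ φ t)

/-- the statement of `sing` -/
def SingStmt (E : Type) [NormedAddCommGroup E] [NormedSpace ℂ E] : Prop :=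
  ∀ (Z : Set E) (x : E) (d : ℕ), AnAt Z x →
    (∀ᶠ y in 𝓝 x, y ∈ Z → y ∈ closure {z | Reg Z d z}) → AnAt {y | y ∈ Z ∧ ¬ Reg Z d y} x

variable {E F : Type} [NormedAddCommGroup E] [NormedSpace ℂ E] [FiniteDimensional ℂ E]
  [NormedAddCommGroup F] [NormedSpace ℂ F] [FiniteDimensional ℂ F]
  {M : Type} [TopologicalSpace M] {A : HA E M}

namespace Frm

/-- independent members of a family of linear forms with small common kernel -/
theorem exists_surj {ι : Type*} (l : ι → E →L[ℂ] ℂ) {K : Submodule ℂ E}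
    (h : ∀ v, (∀ i, l i v = 0) → v ∈ K) (k : ℕ) (hk : k + finrank ℂ K ≤ finrank ℂ E) :
    ∃ σ : Fin k → ι, Function.Surjective fun v j => l (σ j) v := by
  induction k with
  | zero => exact ⟨Fin.elim0, fun t => ⟨0, Subsingleton.elim _ _⟩⟩
  | succ k ih =>
    obtain ⟨σ, hσ⟩ := ih (by omega)
    let L : E →ₗ[ℂ] (Fin k → ℂ) := LinearMap.pi fun j => (l (σ j) : E →ₗ[ℂ] ℂ)
    have h1 := L.finrank_range_add_finrank_ker
    have h2 : finrank ℂ (LinearMap.range L) ≤ k := by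
      simpa using (LinearMap.range L).finrank_le
    have h3 : ¬ LinearMap.ker L ≤ K := fun h3 => by
      have := Submodule.finrank_mono h3
      omega
    obtain ⟨v, hv, hvK⟩ := SetLike.not_le_iff_exists.1 h3
    obtain ⟨i, hi⟩ := not_forall.1 fun h4 => hvK (h v h4)
    refine ⟨Fin.cons i σ, fun t => ?_⟩
    obtain ⟨u, hu⟩ := hσ (Fin.tail t)
    refine ⟨u + ((t 0 - l i u) / l i v) • v, funext fun j => ?_⟩
    refine Fin.cases ?_ (fun j => ?_) j
    · simp only [Fin.cons_zero, map_add, map_smul, smul_eq_mul]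
      field_simp
      ring
    · have h5 : l (σ j) v = 0 := congrFun (LinearMap.mem_ker.1 hv) j
      have h6 : l (σ j) u = t j.succ := congrFun hu j
      simp [h5, h6]

/-- a subspace of `E × E` containing the diagonal -/
theorem finrank_comap_le {T : Submodule ℂ (E × E)} (h : ∀ v, (v, v) ∈ T) :
    finrank ℂ E + finrank ℂ (T.comap (LinearMap.inr ℂ E E)) ≤ finrank ℂ T := by
  let K := T.comap (LinearMap.inr ℂ E E)
  let L : (E × K) →ₗ[ℂ] (E × E) := (LinearMap.fst ℂ E K).prod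
    (LinearMap.fst ℂ E K + K.subtype.comp (LinearMap.snd ℂ E K))
  have h1 : ∀ q, L q ∈ T := fun q => by
    have h2 : L q = (q.1, q.1) + (0, (q.2 : E)) := by simp [L]
    rw [h2]
    exact T.add_mem (h q.1) q.2.2
  have h3 : Function.Injective (L.codRestrict T h1) := by
    rw [injective_iff_map_eq_zero]
    intro q hq
    have h4 : L q = 0 := congrArg Subtype.val hq
    have h5 : q.1 = 0 := congrArg Prod.fst h4
    have h6 : q.1 + (q.2 : E) = 0 := congrArg Prod.snd h4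
    rw [h5, zero_add] at h6
    exact Prod.ext h5 (Subtype.ext h6)
  simpa [Module.finrank_prod] using LinearMap.finrank_le_finrank_of_injective h3

/-- the flat statement at a regular point of the diagonal -/
theorem flat {Z W : Set (E × E)} {z : E} {p r : ℕ} (hpr : p + r = finrank ℂ E)
    (hz : (z, z) ∈ W) (hr : Reg Z (finrank ℂ E + r) (z, z)) (hd : ∀ᶠ y in 𝓝 z, (y, y) ∈ Z)
    (hc : ∀ (φ : (Fin (finrank ℂ E + r) → ℂ) → E × E) (t : Fin (finrank ℂ E + r) → ℂ),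
      AnalyticAt ℂ φ t → φ t = (z, z) → (∀ᶠ s in 𝓝 t, φ s ∈ Z) →
      Function.Injective (fderiv ℂ φ t) →
      ∀ v, (∀ f, Van W Z f → fderiv ℂ f (z, z) v = 0) → v ∈ range (fderiv ℂ φ t)) :
    ∃ f : Fin p → E × E → ℂ, (∀ j, Van W Z (f j)) ∧
      Function.Surjective (fderiv ℂ (fun y => fun j => f j (z, y)) z) := by
  obtain ⟨hzZ, φ, ρ, hφ, hρ, h1, h2⟩ := hr
  have e1 : φ (ρ (z, z)) = (z, z) := h2.self_of_nhds hzZ
  have hρ' : HasFDerivAt ρ (fderiv ℂ ρ (z, z)) (φ (ρ (z, z))) := by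
    rw [e1]
    exact hρ.differentiableAt.hasFDerivAt
  have hφ' := hφ.differentiableAt.hasFDerivAt
  have hi : Function.Injective (fderiv ℂ φ (ρ (z, z))) := by
    have h3 := (hρ'.comp _ hφ').unique ((hasFDerivAt_id _).congr_of_eventuallyEq
      (h1.mono fun t ht => ht.2))
    exact Function.LeftInverse.injective (g := fderiv ℂ ρ (z, z)) fun v =>
      congrArg (fun L : _ →L[ℂ] _ => L v) h3
  let T : Submodule ℂ (E × E) := LinearMap.range (fderiv ℂ φ (ρ (z, z))).toLinearMap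
  have hΔ : HasFDerivAt (fun y : E => (y, y))
      ((ContinuousLinearMap.id ℂ E).prod (ContinuousLinearMap.id ℂ E)) z :=
    (hasFDerivAt_id z).prodMk (hasFDerivAt_id z)
  have hT : ∀ v, (v, v) ∈ T := by
    have h4 := HasFDerivAt.comp (f := fun y : E => (y, y)) z hρ.differentiableAt.hasFDerivAt hΔ
    have h3 := (HasFDerivAt.comp (f := ρ ∘ fun y : E => (y, y)) z hφ' h4).unique
      (hΔ.congr_of_eventuallyEq ((hd.and (hΔ.continuousAt.eventually h2)).mono
        fun y hy => hy.2 hy.1))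
    exact fun v => ⟨_, congrArg (fun L : _ →L[ℂ] _ => L v) h3⟩
  have hT2 : finrank ℂ T ≤ finrank ℂ E + r := by
    simpa using LinearMap.finrank_range_le (fderiv ℂ φ (ρ (z, z))).toLinearMap
  have hT3 := finrank_comap_le hT
  obtain ⟨σ, hσ⟩ := exists_surj (ι := {f : E × E → ℂ // Van W Z f})
    (fun f => (fderiv ℂ f.1 (z, z)).comp (ContinuousLinearMap.inr ℂ E E))
    (K := T.comap (LinearMap.inr ℂ E E))
    (fun v hv => hc φ _ hφ e1 (h1.mono fun t ht => ht.1) hi (0, v) fun f hf => hv ⟨f, hf⟩) p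
    (by omega)
  refine ⟨fun j => (σ j).1, fun j => (σ j).2, ?_⟩
  have h4 : HasFDerivAt (fun y => fun j => (σ j).1 (z, y)) (ContinuousLinearMap.pi fun j =>
      (fderiv ℂ (σ j).1 (z, z)).comp (ContinuousLinearMap.inr ℂ E E)) z :=
    hasFDerivAt_pi.2 fun j =>
      ((σ j).2.1 _ hz).differentiableAt.hasFDerivAt.comp z (hasFDerivAt_prodMk_right z z)
  rw [h4.fderiv]
  exact hσ

end Frm

namespace HA

theorem pure_chart {Z : Set M} {x : M} {d : ℕ} {i : A.ι} (hi : x ∈ (A.e i).source)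
    (hp : ∀ᶠ y in 𝓝 x, y ∈ Z → y ∈ closure {z | A.Reg Z d z}) :
    ∀ᶠ w in 𝓝 (A.e i x), w ∈ (A.e i).symm ⁻¹' Z →
      w ∈ closure {z | Ans.Reg ((A.e i).symm ⁻¹' Z) d z} := by
  filter_upwards [(ev_chart hi).1 hp, ev_target hi] with w h1 h2 h3
  have h4 := (fr_chart ((A.e i).map_target h2)).1 (mem_closure_iff_frequently.1 (h1 h3))
  rw [(A.e i).right_inv h2] at h4
  exact mem_closure_iff_frequently.2 ((h4.and_eventually
    ((A.e i).open_target.mem_nhds h2)).mono fun z hz => (reg_chart hz.2).1 hz.1)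

theorem Irr.pure {U Y : Set M} {d : ℕ} (hU : IsOpen U) (h : A.Irr U Y d) {x : M} (hx : x ∈ U) :
    ∀ᶠ y in 𝓝 x, y ∈ Y → y ∈ closure {z | A.Reg Y d z} :=
  (hU.eventually_mem hx).mono fun _ hy hyY => closure_mono (fun _ hz => hz.2) (h.2.2.2 ⟨hy, hyY⟩)

/-- the singular locus is analytic -/
theorem sing_of (hs : SingStmt E) {Z : Set M} {x : M} {d : ℕ} (hZ : A.AnAt Z x)
    (hp : ∀ᶠ y in 𝓝 x, y ∈ Z → y ∈ closure {z | A.Reg Z d z}) :
    A.AnAt {y | y ∈ Z ∧ ¬ A.Reg Z d y} x := by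
  obtain ⟨i, hi, hZ⟩ := hZ
  refine ⟨i, hi, (hs _ _ d hZ (pure_chart hi hp)).congr ?_⟩
  filter_upwards [ev_target hi] with w hw
  simp only [mem_preimage, mem_ofPred_eq, reg_chart hw]

theorem Irr.an_sing_of (hs : SingStmt E) {U Y : Set M} {d : ℕ} (hU : IsOpen U) (h : A.Irr U Y d) :
    A.An U {y | y ∈ Y ∧ ¬ A.Reg Y d y} := fun x hx => sing_of hs (h.1 x hx) (h.pure hU hx)

/-- the field `an_bad` -/
theorem an_bad_of (hs : SingStmt (E × E)) {Y : Set (M × M)} {d : ℕ} (hY : (A.prod A).Irr univ Y d)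
    (hd : ∀ x, (x, x) ∈ Y) : A.An univ {x | ¬ (A.prod A).Reg Y d (x, x)} := fun x _ =>
  (AnAt.preimage (hol_diag A x) (hY.an_sing_of hs isOpen_univ _ (mem_univ _))).congr
    (Eventually.of_forall fun y => and_iff_right (hd y))

/-- the field `forms` -/
theorem forms_of [PreconnectedSpace M] (hc : ConormStmt (E × E)) (hs : SingStmt (E × E))
    {Y : Set (M × M)} {p r : ℕ} (hpr : p + r = finrank ℂ E)
    (hY : (A.prod A).Irr univ Y (finrank ℂ E + r)) (hd : ∀ x, (x, x) ∈ Y)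
    (hne : ∃ x, (A.prod A).Reg Y (finrank ℂ E + r) (x, x)) (i : A.ι) (x : M)
    (hx : x ∈ (A.e i).source) : ∃ (W : Set E) (f : Fin p → E × E → ℂ), IsOpen W ∧
    IsPreconnected W ∧ A.e i x ∈ W ∧ W ⊆ (A.e i).target ∧
    (∀ j, AnalyticOnNhd ℂ (f j) (W ×ˢ W)) ∧
    (∀ j, ∀ y ∈ W, ∀ z ∈ W, ((A.e i).symm y, (A.e i).symm z) ∈ Y → f j (y, z) = 0) ∧
    ∃ z ∈ W, Function.Surjective (fderiv ℂ (fun y => fun j => f j (z, y)) z) := by
  have hxx : (x, x) ∈ ((A.prod A).e (i, i)).source := ⟨hx, hx⟩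
  obtain ⟨W', hW', hxW', -, h⟩ := hc _ _ _ ((anAt_iff hxx).1 (hY.1 _ (mem_univ _)))
    (pure_chart hxx (hY.pure isOpen_univ (mem_univ _)))
  obtain ⟨N, hN, N', hN', hNN⟩ := mem_nhds_prod_iff.1 (hW'.mem_nhds hxW')
  obtain ⟨ε, hε, hb⟩ := Metric.mem_nhds_iff.1 (inter_mem (inter_mem hN hN') (ev_target hx))
  have hWW : Metric.ball (A.e i x) ε ×ˢ Metric.ball (A.e i x) ε ⊆ W' :=
    fun q hq => hNN ⟨(hb hq.1).1.1, (hb hq.2).1.2⟩
  have hden := (an_bad_of hs hY hd).dense_compl fun h1 => by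
    obtain ⟨y, hy⟩ := hne
    exact (h1 ▸ mem_univ y : y ∈ {x | ¬ (A.prod A).Reg Y (finrank ℂ E + r) (x, x)}) hy
  obtain ⟨z, hz1, hz2⟩ := (((fr_chart hx).1 (mem_closure_iff_frequently.1 (hden x))).and_eventually
    (Metric.ball_mem_nhds _ hε)).exists
  have hzt : z ∈ (A.e i).target := (hb hz2).2
  have hzz : (z, z) ∈ ((A.prod A).e (i, i)).target := ⟨hzt, hzt⟩
  have hr : Ans.Reg (((A.prod A).e (i, i)).symm ⁻¹' Y) (finrank ℂ E + r) (z, z) :=
    (reg_chart hzz).1 (not_not.1 hz1)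
  have hzW : (z, z) ∈ W' := hWW ⟨hz2, hz2⟩
  obtain ⟨f, hf, hsu⟩ := Frm.flat hpr hzW hr (Eventually.of_forall fun y => hd _)
    fun φ t => h _ hzW φ t hr
  exact ⟨_, f, Metric.isOpen_ball, (convex_ball _ _).isPreconnected, Metric.mem_ball_self hε,
    fun y hy => (hb hy).2, fun j => (hf j).1.mono hWW,
    fun j y hy w hw h1 => (hf j).2 (y, w) (hWW ⟨hy, hw⟩) h1, z, hz2, hsu⟩

end HA

end Crest.Agent.X261.Ans
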