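import Crest.Agent.X261.Ans.Cut
import Crest.Agent.R281.Tc1_941
import Crest.Agent.R266.SCV

/-!
# X261/Ans/HF (helper8): holomorphic families of multisets

`HF α z`: traces of holomorphic functions over the multisets `α y` are holomorphic at `z`.
Stable under filtering by clopen conditions, maps, towers; symmetric functions are holomorphic;
the roots of a monic polynomial with holomorphic coefficients form such a family.
-/

set_option autoImplicit false
set_option linter.unusedSectionVars false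

open Set Filter Topology Metric Polynomial
open scoped Real

namespace Crest.Agent.X261.Ans

noncomputable section

variable {F G H : Type} [NormedAddCommGroup F] [NormedSpace ℂ F]
  [NormedAddCommGroup G] [NormedSpace ℂ G] [NormedAddCommGroup H] [NormedSpace ℂ H]

/-- holomorphic family of multisets at `z` -/
def HF (α : F → Multiset G) (z : F) : Prop :=
  ∀ f : F × G → ℂ, (∀ w ∈ α z, AnalyticAt ℂ f (z, w)) →
    AnalyticAt ℂ (fun y => ((α y).map fun w => f (y, w)).sum) z

theorem nat_eventually_eq {X : Type*} [TopologicalSpace X] {g : X → ℕ} {z : X}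
    (h : ContinuousAt (fun y => (g y : ℂ)) z) : ∀ᶠ y in 𝓝 z, g y = g z := by
  filter_upwards [Metric.tendsto_nhds.1 h 1 one_pos] with y hy
  rw [dist_eq_norm] at hy
  have h1 : ‖(((g y : ℤ) - (g z : ℤ) : ℤ) : ℂ)‖ < 1 := by simpa using hy
  rw [Complex.norm_intCast] at h1
  have h2 : |(g y : ℤ) - (g z : ℤ)| < 1 := by exact_mod_cast h1
  have h3 := Int.abs_lt_one_iff.1 h2
  omega

variable {α : F → Multiset G} {z : F}

theorem HF.congr (h : HF α z) {β : F → Multiset G} (hβ : ∀ᶠ y in 𝓝 z, α y = β y) : HF β z := by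
  intro f hf
  rw [← hβ.self_of_nhds] at hf
  refine (h f hf).congr ?_
  filter_upwards [hβ] with y hy
  rw [hy]

theorem hf_zero (z : F) : HF (fun _ => (0 : Multiset G)) z := by
  intro f _
  simpa using analyticAt_const

theorem HF.card (h : HF α z) : ∀ᶠ y in 𝓝 z, (α y).card = (α z).card := by
  refine nat_eventually_eq (g := fun y => (α y).card) ?_
  have h1 := (h (fun _ => 1) (fun _ _ => analyticAt_const)).continuousAt
  simpa using h1

theorem HF.filter (h : HF α z) (S : F × G → Prop) [DecidablePred S]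
    (hS : ∀ w ∈ α z, (∀ᶠ p in 𝓝 (z, w), S p) ∨ ∀ᶠ p in 𝓝 (z, w), ¬ S p) :
    HF (fun y => (α y).filter fun w => S (y, w)) z := by
  intro f hf
  have h1 := h (fun p => if S p then f p else 0) (fun w hw => by
    rcases hS w hw with h2 | h2
    · refine (hf w (Multiset.mem_filter.2 ⟨hw, h2.self_of_nhds⟩)).congr ?_
      filter_upwards [h2] with p hp
      rw [if_pos hp]
    · refine (analyticAt_const (v := (0 : ℂ))).congr ?_
      filter_upwards [h2] with p hp
      rw [if_neg hp])
  refine h1.congr (Eventually.of_forall fun y => ?_)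
  beta_reduce
  generalize α y = s
  induction s using Multiset.induction_on with
  | empty => simp
  | cons a s ih =>
    by_cases ha : S (y, a)
    · rw [Multiset.filter_cons_of_pos (p := fun w => S (y, w)) _ ha]
      simp only [Multiset.map_cons, Multiset.sum_cons, if_pos ha, ih]
    · rw [Multiset.filter_cons_of_neg (p := fun w => S (y, w)) _ ha]
      simp only [Multiset.map_cons, Multiset.sum_cons, if_neg ha, ih, zero_add]

/-- upper semicontinuity -/
theorem HF.usc (h : HF α z) {N : Set (F × G)} (hN : ∀ w ∈ α z, N ∈ 𝓝 (z, w)) :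
    ∀ᶠ y in 𝓝 z, ∀ w ∈ α y, (y, w) ∈ N := by
  classical
  have h1 := (h.filter (fun p => p ∉ N) (fun w hw => Or.inr (by
    filter_upwards [hN w hw] with p hp hp' using hp' hp))).card
  filter_upwards [h1] with y hy w hw
  rw [(Multiset.filter_eq_nil (s := α z)).2 (fun a ha ha' => ha' (mem_of_mem_nhds (hN a ha))),
    Multiset.card_zero, Multiset.card_eq_zero, Multiset.filter_eq_nil] at hy
  by_contra hn
  exact hy w hw hn

theorem HF.usc' (h : HF α z) {N : Set G} (hN : ∀ w ∈ α z, N ∈ 𝓝 w) :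
    ∀ᶠ y in 𝓝 z, ∀ w ∈ α y, w ∈ N :=
  h.usc (N := Prod.snd ⁻¹' N) fun w hw => continuous_snd.continuousAt.preimage_mem_nhds (hN w hw)

theorem HF.map (h : HF α z) {φ : F × G → H} (hφ : ∀ w ∈ α z, AnalyticAt ℂ φ (z, w)) :
    HF (fun y => (α y).map fun w => φ (y, w)) z := by
  intro f hf
  have h1 := h (fun p => f (p.1, φ p)) (fun w hw => by
    have h2 : AnalyticAt ℂ (fun p : F × G => (p.1, φ p)) (z, w) := analyticAt_fst.prod (hφ w hw)
    exact AnalyticAt.comp (g := f) (f := fun p : F × G => (p.1, φ p))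
      (hf _ (Multiset.mem_map_of_mem _ hw)) h2)
  simpa [Multiset.map_map] using h1

theorem HF.bind (h : HF α z) {β : F × G → Multiset H} (hβ : ∀ w ∈ α z, HF β (z, w)) :
    HF (fun y => (α y).bind fun w => (β (y, w)).map fun u => (w, u)) z := by
  intro f hf
  have h1 := h (fun p => ((β p).map fun u => f (p.1, (p.2, u))).sum) (fun w hw => by
    refine hβ w hw (fun q => f (q.1.1, (q.1.2, q.2))) (fun u hu => ?_)
    have h2 : AnalyticAt ℂ (fun q : (F × G) × H => (q.1.1, (q.1.2, q.2))) ((z, w), u) :=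
      (analyticAt_fst.comp analyticAt_fst).prod
        ((analyticAt_snd.comp analyticAt_fst).prod analyticAt_snd)
    exact AnalyticAt.comp (g := f) (f := fun q : (F × G) × H => (q.1.1, (q.1.2, q.2)))
      (hf _ (Multiset.mem_bind.2 ⟨w, hw, Multiset.mem_map_of_mem _ hu⟩)) h2)
  refine h1.congr (Eventually.of_forall fun y => ?_)
  simp [Multiset.map_bind, Multiset.sum_bind, Multiset.map_map]

/-- constant multiset of holomorphic sections -/
theorem hf_sections {ι : Type} (T : Multiset ι) {S : ι → F → G}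
    (hS : ∀ i ∈ T, AnalyticAt ℂ (S i) z) : HF (fun y => T.map fun i => S i y) z := by
  intro f hf
  simp only [Multiset.map_map, Function.comp_def]
  have h1 : ∀ i ∈ T, AnalyticAt ℂ (fun y => f (y, S i y)) z := fun i hi =>
    AnalyticAt.comp (g := f) (f := fun y => (y, S i y)) (hf _ (Multiset.mem_map_of_mem _ hi))
      (analyticAt_id.prod (hS i hi))
  clear hf hS
  induction T using Multiset.induction_on with
  | empty => simpa using analyticAt_const
  | cons a s ih =>
    simp only [Multiset.map_cons, Multiset.sum_cons]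
    exact (h1 a (Multiset.mem_cons_self _ _)).add
      (ih fun i hi => h1 i (Multiset.mem_cons_of_mem hi))

/-- vector valued traces -/
theorem HF.tr_vec [FiniteDimensional ℂ H] (h : HF α z) {f : F × G → H}
    (hf : ∀ w ∈ α z, AnalyticAt ℂ f (z, w)) :
    AnalyticAt ℂ (fun y => ((α y).map fun w => f (y, w)).sum) z := by
  let e : H ≃L[ℂ] (Fin (Module.finrank ℂ H) → ℂ) := ContinuousLinearEquiv.ofFinrankEq (by simp)
  have h1 : AnalyticAt ℂ (fun y => e ((α y).map fun w => f (y, w)).sum) z := by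
    rw [analyticAt_pi_iff]
    intro i
    let L : H →L[ℂ] ℂ := (ContinuousLinearMap.proj (R := ℂ) (φ := fun _ => ℂ) i).comp
      (e : H →L[ℂ] (Fin (Module.finrank ℂ H) → ℂ))
    have h2 := h (fun p => L (f p)) (fun w hw => (L.analyticAt _).comp (hf w hw))
    refine h2.congr (Eventually.of_forall fun y => ?_)
    show _ = L _
    rw [map_multiset_sum, Multiset.map_map]
    rfl
  have h2 := ((e.symm : _ →L[ℂ] H).analyticAt _).comp h1
  refine h2.congr (Eventually.of_forall fun y => ?_)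
  simp

theorem an_eval {T : ℕ → F → ℂ} (hT : ∀ j, AnalyticAt ℂ (T j) z) (P : MvPolynomial ℕ ℂ) :
    AnalyticAt ℂ (fun y => MvPolynomial.eval (fun j => T j y) P) z := by
  induction P using MvPolynomial.induction_on with
  | C a =>
    simp only [MvPolynomial.eval_C]
    exact analyticAt_const
  | add p q hp hq =>
    simp only [map_add]
    exact hp.add hq
  | mul_X p n hp =>
    simp only [map_mul, MvPolynomial.eval_X]
    exact hp.mul (hT n)

theorem newton_ms (k : ℕ) : ∃ P : MvPolynomial ℕ ℂ, ∀ s : Multiset ℂ,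
    MvPolynomial.eval (fun j => (s.map fun a => a ^ j).sum) P = s.esymm k := by
  classical
  obtain ⟨P, hP⟩ := R281.Tc_941.newton_univ.{0} k
  refine ⟨P, fun s => ?_⟩
  have h1 := hP s (fun x => (x : ℂ))
  rw [Multiset.map_univ_coe] at h1
  rw [← h1]
  congr 2
  funext j
  conv_lhs => rw [← Multiset.map_univ_coe s]
  rw [Multiset.map_map]
  rfl

theorem HF.esymm (h : HF α z) {f : F × G → ℂ} (hf : ∀ w ∈ α z, AnalyticAt ℂ f (z, w)) (k : ℕ) :
    AnalyticAt ℂ (fun y => ((α y).map fun w => f (y, w)).esymm k) z := by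
  obtain ⟨P, hP⟩ := newton_ms k
  have h1 := an_eval (z := z) (T := fun j y => ((α y).map fun w => f (y, w) ^ j).sum)
    (fun j => h (fun p => f p ^ j) fun w hw => (hf w hw).pow j) P
  refine h1.congr (Eventually.of_forall fun y => ?_)
  beta_reduce
  rw [← hP]
  simp only [Multiset.map_map, Function.comp_def]

/-- the monic polynomial with roots `s` -/
def chi (s : Multiset ℂ) : ℂ[X] := (s.map fun r => X - C r).prod

theorem chi_monic (s : Multiset ℂ) : (chi s).Monic :=
  monic_multiset_prod_of_monic _ _ fun r _ => monic_X_sub_C r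

theorem chi_natDegree (s : Multiset ℂ) : (chi s).natDegree = s.card :=
  natDegree_multiset_prod_X_sub_C_eq_card s

theorem chi_roots (s : Multiset ℂ) : (chi s).roots = s := roots_multiset_prod_X_sub_C s

theorem chi_eval (s : Multiset ℂ) (t : ℂ) : (chi s).eval t = (s.map fun r => t - r).prod := by
  rw [chi, eval_multiset_prod, Multiset.map_map]
  simp

theorem count_eq_trailing (s : Multiset ℂ) : s.count 0 = (chi s).natTrailingDegree := by
  classical
  conv_lhs => rw [← chi_roots s]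
  rw [count_roots, rootMultiplicity_eq_natTrailingDegree']

theorem chi_coeff_count (s : Multiset ℂ) : (chi s).coeff (s.count 0) ≠ 0 := by
  rw [count_eq_trailing]
  exact trailingCoeff_nonzero_iff_nonzero.2 (chi_monic s).ne_zero

theorem count_le_of_coeff {s : Multiset ℂ} {k : ℕ} (h : (chi s).coeff k ≠ 0) : s.count 0 ≤ k := by
  rw [count_eq_trailing]
  exact natTrailingDegree_le_of_ne_zero h

theorem HF.coeff (h : HF α z) {f : F × G → ℂ} (hf : ∀ w ∈ α z, AnalyticAt ℂ f (z, w)) (k : ℕ) :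
    AnalyticAt ℂ (fun y => (chi ((α y).map fun w => f (y, w))).coeff k) z := by
  by_cases hk : k ≤ (α z).card
  · have h1 := (analyticAt_const (v := (-1 : ℂ) ^ ((α z).card - k))).mul
      (h.esymm hf ((α z).card - k))
    refine h1.congr ?_
    filter_upwards [h.card] with y hy
    have h2 : k ≤ ((α y).map fun w => f (y, w)).card := by rw [Multiset.card_map, hy]; exact hk
    show _ = (chi _).coeff k
    rw [chi, Multiset.prod_X_sub_C_coeff _ h2, Multiset.card_map, hy]
    rfl
  · refine (analyticAt_const (v := (0 : ℂ))).congr ?_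
    filter_upwards [h.card] with y hy
    refine (coeff_eq_zero_of_natDegree_lt ?_).symm
    rw [chi_natDegree, Multiset.card_map, hy]
    omega

/-- the norm is holomorphic -/
theorem HF.prod (h : HF α z) {f : F × G → ℂ} (hf : ∀ w ∈ α z, AnalyticAt ℂ f (z, w)) :
    AnalyticAt ℂ (fun y => ((α y).map fun w => f (y, w)).prod) z := by
  have h1 := h.coeff (f := fun p => - f p) (fun w hw => (hf w hw).neg) 0
  refine h1.congr (Eventually.of_forall fun y => ?_)
  beta_reduce
  rw [coeff_zero_eq_eval_zero, chi_eval, Multiset.map_map]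
  simp

/-! ### roots of polynomials -/

theorem circle_sum {T : Finset ℂ} {ρ : ℝ} (hρ : 0 < ρ)
    (hT : ∀ w ∈ T, ∀ w' ∈ T, w ≠ w' → 2 * ρ ≤ dist w w') {g : ℂ → ℂ}
    (hg : ∀ w ∈ T, DifferentiableOn ℂ g (closedBall w ρ)) (s : Multiset ℂ)
    (hs : ∀ u ∈ s, ∃ w ∈ T, u ∈ ball w ρ) :
    ∑ w ∈ T, (∮ ζ in C(w, ρ), (s.map fun u => 1 / (ζ - u)).sum * g ζ) =
      2 * π * Complex.I * (s.map g).sum := by
  have hout : ∀ u, ∀ w ∈ T, ∀ w' ∈ T, u ∈ ball w' ρ → w ≠ w' → u ∉ closedBall w ρ := by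
    intro u w hw w' hw' hu hne hu'
    have h1 := hT w hw w' hw' hne
    have h2 := dist_triangle_left w w' u
    rw [mem_ball] at hu
    rw [mem_closedBall] at hu'
    linarith
  have hsp : ∀ u, (∃ w ∈ T, u ∈ ball w ρ) → ∀ w ∈ T, ∀ ζ ∈ sphere w ρ, ζ - u ≠ 0 := by
    rintro u ⟨w', hw', hu⟩ w hw ζ hζ h0
    rw [sub_eq_zero] at h0
    subst h0
    by_cases hne : w = w'
    · subst hne
      exact (mem_ball.1 hu).ne (mem_sphere.1 hζ)
    · exact hout ζ w hw w' hw' hu hne (sphere_subset_closedBall hζ)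
  have hc1 : ∀ u, (∃ w ∈ T, u ∈ ball w ρ) → ∀ w ∈ T,
      ContinuousOn (fun ζ => 1 / (ζ - u)) (sphere w ρ) := fun u hu w hw =>
    continuousOn_const.div (continuousOn_id.sub continuousOn_const) (hsp u hu w hw)
  have hc2 : ∀ s : Multiset ℂ, (∀ u ∈ s, ∃ w ∈ T, u ∈ ball w ρ) → ∀ w ∈ T,
      ContinuousOn (fun ζ => (s.map fun u => 1 / (ζ - u)).sum) (sphere w ρ) := by
    intro s hs w hw
    induction s using Multiset.induction_on with
    | empty => simpa using continuousOn_const
    | cons a s ih =>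
      simp only [Multiset.map_cons, Multiset.sum_cons]
      exact (hc1 a (hs a (Multiset.mem_cons_self _ _)) w hw).add
        (ih fun u hu => hs u (Multiset.mem_cons_of_mem hu))
  have hgc : ∀ w ∈ T, ContinuousOn g (sphere w ρ) := fun w hw =>
    (hg w hw).continuousOn.mono sphere_subset_closedBall
  induction s using Multiset.induction_on with
  | empty => simp [circleIntegral]
  | cons a s ih =>
    have ha := hs a (Multiset.mem_cons_self _ _)
    have hs' : ∀ u ∈ s, ∃ w ∈ T, u ∈ ball w ρ := fun u hu => hs u (Multiset.mem_cons_of_mem hu)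
    simp only [Multiset.map_cons, Multiset.sum_cons, add_mul, mul_add]
    rw [← ih hs']
    have h1 : ∀ w ∈ T, (∮ ζ in C(w, ρ), (1 / (ζ - a) * g ζ +
        (s.map fun u => 1 / (ζ - u)).sum * g ζ)) = (∮ ζ in C(w, ρ), 1 / (ζ - a) * g ζ) +
          ∮ ζ in C(w, ρ), (s.map fun u => 1 / (ζ - u)).sum * g ζ := fun w hw =>
      circleIntegral.integral_add
        (((hc1 a ha w hw).mul (hgc w hw)).circleIntegrable hρ.le)
        (((hc2 s hs' w hw).mul (hgc w hw)).circleIntegrable hρ.le)
    rw [Finset.sum_congr rfl h1, Finset.sum_add_distrib]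
    congr 1
    obtain ⟨w', hw', hu⟩ := ha
    rw [Finset.sum_eq_single_of_mem w' hw']
    · have h2 := (hg w' hw').circleIntegral_sub_inv_smul hu
      simpa only [one_div, smul_eq_mul] using h2
    · intro w hw hne
      have h3 := hout a w hw w' hw' hu hne
      have h4 : DifferentiableOn ℂ (fun ζ => 1 / (ζ - a) * g ζ) (closedBall w ρ) := by
        refine DifferentiableOn.mul ?_ (hg w hw)
        refine (differentiableOn_const _).div (differentiableOn_id.sub (differentiableOn_const _)) ?_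
        intro ζ hζ h0
        rw [sub_eq_zero] at h0
        exact h3 (h0 ▸ hζ)
      exact Complex.circleIntegral_eq_zero_of_differentiable_on_off_countable hρ.le
        countable_empty h4.continuousOn fun ζ hζ =>
          h4.differentiableAt (mem_of_superset (isOpen_ball.mem_nhds hζ.1) ball_subset_closedBall)

theorem roots_near {X : Type*} [TopologicalSpace X] {P : X → ℂ[X]} {n : ℕ} {x : X}
    (hP : ∀ᶠ y in 𝓝 x, (P y).Monic ∧ (P y).natDegree = n)
    (hc : ∀ j, ContinuousAt (fun y => (P y).coeff j) x) {ρ : ℝ} (hρ : 0 < ρ) :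
    ∀ᶠ y in 𝓝 x, ∀ u ∈ (P y).roots, ∃ w ∈ (P x).roots, u ∈ ball w ρ := by
  obtain ⟨hm, hn⟩ := hP.self_of_nhds
  rcases Nat.eq_zero_or_pos n with rfl | hpos
  · filter_upwards [hP] with y hy u hu
    rw [hy.1.natDegree_eq_zero.1 hy.2] at hu
    simp at hu
  obtain ⟨B, hB0, hB⟩ : ∃ B : ℝ, 0 ≤ B ∧ ∀ w ∈ (P x).roots, ‖w‖ ≤ B := by
    obtain ⟨B, hB⟩ := ((P x).roots.finite_toSet.image fun w => ‖w‖).bddAbove
    exact ⟨max B 0, le_max_right _ _, fun w hw => (hB ⟨w, hw, rfl⟩).trans (le_max_left _ _)⟩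
  set δ : ℝ := min (1 / 2) (ρ / (2 * B + 1)) with hδ
  have hδ0 : 0 < δ := lt_min (by norm_num) (by positivity)
  set ε : ℝ := δ ^ n / (n + 1) with hε
  have hε0 : 0 < ε := by positivity
  have h1 : ∀ᶠ y in 𝓝 x, ∀ j ∈ Finset.range (n + 1), ‖(P x).coeff j - (P y).coeff j‖ < ε := by
    rw [eventually_all_finset]
    intro j _
    filter_upwards [Metric.tendsto_nhds.1 (hc j) ε hε0] with y hy
    rwa [dist_comm, dist_eq_norm] at hy
  filter_upwards [hP, h1] with y hy hy1 u hu
  have hu0 : (P y).eval u = 0 := (mem_roots hy.1.ne_zero).1 hu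
  obtain ⟨b, hb, hub⟩ := exists_roots_norm_sub_lt_of_norm_coeff_sub_lt hε0 hu0 hy.1 hm
    (by rw [hn, hy.2]) (fun j => by
      by_cases hj : j < n + 1
      · exact hy1 j (Finset.mem_range.2 hj)
      · rw [coeff_eq_zero_of_natDegree_lt (by omega), coeff_eq_zero_of_natDegree_lt (by omega)]
        simpa using hε0) (IsAlgClosed.splits _)
  refine ⟨b, hb, ?_⟩
  have h2 : ((n : ℝ) + 1) * ε = δ ^ n := by rw [hε]; field_simp
  rw [hy.2, h2, Real.pow_rpow_inv_natCast hδ0.le hpos.ne'] at hub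
  have h3 : ‖u‖ ≤ ‖u - b‖ + B := by
    have := norm_add_le (u - b) b
    rw [sub_add_cancel] at this
    linarith [hB b hb]
  have h4 : δ ≤ 1 / 2 := min_le_left _ _
  have h5 : δ ≤ ρ / (2 * B + 1) := min_le_right _ _
  have h6 : max ‖u‖ 1 ≤ 2 * B + 1 := by
    rcases le_total ‖u‖ 1 with h | h
    · rw [max_eq_right h]; linarith
    · rw [max_eq_left h] at hub ⊢
      nlinarith
  rw [mem_ball, dist_eq_norm]
  calc ‖u - b‖ < δ * max ‖u‖ 1 := hub
    _ ≤ ρ / (2 * B + 1) * (2 * B + 1) := by gcongr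
    _ = ρ := by field_simp

theorem an_eval_poly {P : F → ℂ[X]} {n : ℕ} {y : F} (hP : ∀ᶠ t in 𝓝 y, (P t).natDegree ≤ n)
    (hc : ∀ j, AnalyticAt ℂ (fun t => (P t).coeff j) y) (ζ : ℂ) :
    AnalyticAt ℂ (fun p : F × ℂ => (P p.1).eval p.2) (y, ζ) := by
  have h1 : AnalyticAt ℂ (fun p : F × ℂ => ∑ j ∈ Finset.range (n + 1), (P p.1).coeff j * p.2 ^ j)
      (y, ζ) := by
    refine Finset.analyticAt_fun_sum _ fun j _ => AnalyticAt.mul ?_ (analyticAt_snd.pow j)
    exact AnalyticAt.comp (g := fun t => (P t).coeff j) (f := Prod.fst) (hc j) analyticAt_fst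
  refine h1.congr ?_
  filter_upwards [continuous_fst.continuousAt.eventually (show ∀ᶠ t in 𝓝 (y, ζ).1,
    (P t).natDegree ≤ n from hP)] with p hp
  rw [eval_eq_sum_range' (Nat.lt_succ_of_le hp)]

/-- the roots of a monic polynomial with holomorphic coefficients -/
theorem hf_roots [FiniteDimensional ℂ F] {P : F → ℂ[X]} {n : ℕ} {U : Set F} (hU : IsOpen U)
    (hP : ∀ y ∈ U, (P y).Monic ∧ (P y).natDegree = n)
    (hc : ∀ j, AnalyticOnNhd ℂ (fun y => (P y).coeff j) U) (hz : z ∈ U) :
    HF (fun y => (P y).roots) z := by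
  classical
  intro f hf
  set T : Finset ℂ := (P z).roots.toFinset with hT
  obtain ⟨ρ, hρ, hsep, hfa⟩ : ∃ ρ : ℝ, 0 < ρ ∧ (∀ w ∈ T, ∀ w' ∈ T, w ≠ w' → 2 * ρ ≤ dist w w') ∧
      ∀ w ∈ T, AnalyticOnNhd ℂ f (ball (z, w) (2 * ρ)) := by
    have h1 : ∀ᶠ ρ : ℝ in 𝓝[>] 0, ∀ w ∈ T, ∀ w' ∈ T, w ≠ w' → 2 * ρ ≤ dist w w' := by
      simp only [eventually_all_finset]
      intro w _ w' _
      by_cases hne : w = w'
      · exact Eventually.of_forall fun _ h => (h hne).elim
      · have h2 : 0 < dist w w' / 2 := half_pos (dist_pos.2 hne)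
        filter_upwards [mem_nhdsWithin_of_mem_nhds (Iio_mem_nhds h2)] with ρ hρ _
        rw [mem_Iio] at hρ
        linarith
    have h2 : ∀ᶠ ρ : ℝ in 𝓝[>] 0, ∀ w ∈ T, AnalyticOnNhd ℂ f (ball (z, w) (2 * ρ)) := by
      simp only [eventually_all_finset]
      intro w hw
      obtain ⟨ε, hε, hb⟩ := Metric.eventually_nhds_iff_ball.1
        (hf w (Multiset.mem_toFinset.1 hw)).eventually_analyticAt
      filter_upwards [mem_nhdsWithin_of_mem_nhds (Iio_mem_nhds (half_pos hε))] with ρ hρ p hp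
      rw [mem_Iio] at hρ
      exact hb p (ball_subset_ball (by linarith) hp)
    obtain ⟨ρ, ⟨h3, h4⟩, h5⟩ := ((h1.and h2).and self_mem_nhdsWithin).exists
    exact ⟨ρ, h5, h3, h4⟩
  have hnear := roots_near (P := P) (n := n) (x := z)
    (mem_of_superset (hU.mem_nhds hz) hP) (fun j => (hc j z hz).continuousAt) hρ
  obtain ⟨V, hVs, hV, hzV⟩ := _root_.mem_nhds_iff.1
    (hnear.and (inter_mem (hU.mem_nhds hz) (ball_mem_nhds z hρ)))
  have hnV : ∀ y ∈ V, ∀ u ∈ (P y).roots, ∃ w ∈ T, u ∈ ball w ρ := fun y hy u hu => by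
    obtain ⟨w, hw, h⟩ := (hVs hy).1 u hu
    exact ⟨w, Multiset.mem_toFinset.2 hw, h⟩
  have hne : ∀ y ∈ V, ∀ w ∈ T, ∀ ζ ∈ sphere w ρ, (P y).eval ζ ≠ 0 := by
    intro y hy w hw ζ hζ h0
    obtain ⟨w', hw', hu⟩ := hnV y hy ζ ((mem_roots (hP y (hVs hy).2.1).1.ne_zero).2 h0)
    by_cases hww : w = w'
    · subst hww
      exact (mem_ball.1 hu).ne (mem_sphere.1 hζ)
    · have h1 := hsep w hw w' hw' hww
      have h2 := dist_triangle_left w w' ζ
      rw [mem_ball] at hu
      rw [mem_sphere] at hζ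
      linarith
  have hfV : ∀ y ∈ V, ∀ w ∈ T, ∀ ζ ∈ closedBall w ρ, AnalyticAt ℂ f (y, ζ) := by
    intro y hy w hw ζ hζ
    refine hfa w hw _ ?_
    rw [← ball_prod_same]
    exact ⟨ball_subset_ball (by linarith) (hVs hy).2.2, closedBall_subset_ball (by linarith) hζ⟩
  set Q : F × ℂ → ℂ := fun p => (P p.1).derivative.eval p.2 / (P p.1).eval p.2 * f p with hQ
  have hQa : ∀ y ∈ V, ∀ w ∈ T, ∀ ζ ∈ sphere w ρ, AnalyticAt ℂ Q (y, ζ) := by
    intro y hy w hw ζ hζ
    have hyU := (hVs hy).2.1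
    have hdeg : ∀ᶠ t in 𝓝 y, (P t).natDegree ≤ n :=
      mem_of_superset (hU.mem_nhds hyU) fun t ht => (hP t ht).2.le
    refine AnalyticAt.mul (AnalyticAt.div ?_ (an_eval_poly hdeg (fun j => hc j y hyU) ζ)
      (hne y hy w hw ζ hζ)) (hfV y hy w hw ζ (sphere_subset_closedBall hζ))
    refine an_eval_poly (P := fun t => (P t).derivative) (n := n)
      (hdeg.mono fun t ht => (natDegree_derivative_le _).trans (by omega)) (fun j => ?_) ζ
    simp only [coeff_derivative]
    exact (hc (j + 1) y hyU).mul analyticAt_const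
  have hI : ∀ w ∈ T, AnalyticOnNhd ℂ (fun y => ∮ ζ in C(w, ρ), Q (y, ζ)) V := by
    intro w hw
    have hm : ∀ θ : ℝ, circleMap w ρ θ ∈ sphere w ρ := fun θ => circleMap_mem_sphere w hρ.le θ
    refine R266.SCV.analyticOnNhd_intervalIntegral
      (f := fun p : F × ℝ => deriv (circleMap w ρ) p.2 • Q (p.1, circleMap w ρ p.2)) hV ?_ ?_
    · intro p hp
      refine ContinuousAt.continuousWithinAt (ContinuousAt.fun_smul ?_ ?_)
      · simp only [deriv_circleMap]
        fun_prop
      · exact ContinuousAt.comp (g := Q) (f := fun p : F × ℝ => (p.1, circleMap w ρ p.2))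
          (hQa _ hp.1 w hw _ (hm _)).continuousAt (by fun_prop)
    · intro θ _ y hy
      refine DifferentiableAt.differentiableWithinAt 
        (DifferentiableAt.fun_const_smul (f := fun x : F => Q (x, circleMap w ρ θ)) ?_
          (deriv (circleMap w ρ) θ))
      exact DifferentiableAt.comp (g := Q) (f := fun y : F => (y, circleMap w ρ θ)) y
        (hQa _ hy w hw _ (hm _)).differentiableAt (by fun_prop)
  have h1 : AnalyticAt ℂ (fun y => (2 * π * Complex.I : ℂ)⁻¹ *
      ∑ w ∈ T, ∮ ζ in C(w, ρ), Q (y, ζ)) z :=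
    analyticAt_const.mul (Finset.analyticAt_fun_sum _ fun w hw => hI w hw z hzV)
  refine h1.congr ?_
  filter_upwards [hV.mem_nhds hzV] with y hy
  have h2 := circle_sum hρ hsep (g := fun ζ => f (y, ζ)) (fun w hw ζ hζ =>
    (DifferentiableAt.comp (g := f) (f := fun ζ : ℂ => (y, ζ)) ζ
      (hfV y hy w hw ζ hζ).differentiableAt (by fun_prop)).differentiableWithinAt)
    (P y).roots (hnV y hy)
  have h3 : ∀ w ∈ T, (∮ ζ in C(w, ρ), Q (y, ζ)) =
      ∮ ζ in C(w, ρ), ((P y).roots.map fun u => 1 / (ζ - u)).sum * f (y, ζ) := by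
    intro w hw
    refine circleIntegral.integral_congr hρ.le fun ζ hζ => ?_
    simp only [hQ]
    rw [(IsAlgClosed.splits _).eval_derivative_div_eval_of_ne_zero (hne y hy w hw ζ hζ)]
  rw [Finset.sum_congr rfl h3, h2, inv_mul_cancel_left₀ Complex.two_pi_I_ne_zero]

end

end Crest.Agent.X261.Ans
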