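import Crest.Agent.X261.Psh.Loc
import Crest.Agent.X261.Psh.Hol71
import Crest.Agent.R281.Thn5_280
import Crest.Agent.R266.SCV

/-!
# Row 261, package ANS (helper14), file `HkA`

* `exists_ext` : psh functions bounded above extend across `Δ = 0`;
* `exists_lip_seq` : psh functions are decreasing limits of continuous psh functions near a compact set;
* `BC` : branched covers over a ball; `BC.isPsh_mx` : the max-pushforward of a psh function is psh;
  `BC.tr` : traces; `BC.holder` : Hölder openness of the projection.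
-/

set_option autoImplicit false
set_option linter.dupNamespace false
set_option linter.unusedSectionVars false

open Set Filter Topology Metric MeasureTheory
open scoped ENNReal

noncomputable section

namespace Crest.Agent.X261.Ans.Hk

open Crest.Agent.X261.Psh
open Crest.Agent.R275.FL884 (DiscIn)

variable {E F : Type*} [NormedAddCommGroup E] [NormedSpace ℂ E]
  [NormedAddCommGroup F] [NormedSpace ℂ F]

theorem ex_cball {X : Type*} [PseudoMetricSpace X] {D : Set X} (hD : IsOpen D) {x : X}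
    (hx : x ∈ D) : ∃ r > 0, closedBall x r ⊆ D := nhds_basis_closedBall.mem_iff.1 (hD.mem_nhds hx)

theorem differentiableOn_prod {ι : Type*} (s : Finset ι) {f : ι → F → ℂ} {V : Set F}
    (h : ∀ i ∈ s, DifferentiableOn ℂ (f i) V) :
    DifferentiableOn ℂ (fun w => ∏ i ∈ s, f i w) V := by
  classical
  induction s using Finset.induction_on with
  | empty => simp
  | insert a s ha ih =>
    simp only [Finset.prod_insert ha]
    exact (h a (by simp)).mul (ih fun i hi => h i (by simp [hi]))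

/-! ### extension across a hypersurface -/

theorem isOpen_nz {D : Set F} (hD : IsOpen D) {Δ : F → ℂ} (hΔ : DifferentiableOn ℂ Δ D) :
    IsOpen (D ∩ {w | Δ w ≠ 0}) :=
  hΔ.continuousOn.isOpen_inter_preimage hD isOpen_ne

/-- the upper limit from the set `Δ ≠ 0` -/
def ext (Δ : F → ℂ) (t : F → EReal) (w : F) : EReal := limsup t (𝓝[{w | Δ w ≠ 0}] w)

theorem ext_le {Δ : F → ℂ} {t : F → EReal} {w : F} {a : EReal}
    (h : ∀ᶠ w' in 𝓝 w, Δ w' ≠ 0 → t w' ≤ a) : ext Δ t w ≤ a :=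
  limsup_le_of_le (by isBoundedDefault) (eventually_nhdsWithin_iff.2 h)

theorem le_ext {Δ : F → ℂ} {t : F → EReal} {w : F} {a : EReal}
    (h : ∃ᶠ w' in 𝓝 w, Δ w' ≠ 0 ∧ a ≤ t w') : a ≤ ext Δ t w :=
  le_limsup_of_frequently_le (frequently_nhdsWithin_iff.2 (h.mono fun _ hw => ⟨hw.2, hw.1⟩))

theorem ext_eq {D : Set F} (hD : IsOpen D) {Δ : F → ℂ} (hΔ : DifferentiableOn ℂ Δ D)
    {t : F → EReal} (ht : IsPsh (D ∩ {w | Δ w ≠ 0}) t) {w : F} (hw : w ∈ D) (h0 : Δ w ≠ 0) :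
    ext Δ t w = t w := by
  refine le_antisymm (le_of_forall_gt_imp_ge_of_dense fun a ha => ext_le ?_) (le_ext ?_)
  · filter_upwards [ht.uscAt (isOpen_nz hD hΔ) ⟨hw, h0⟩ a ha] with w' h _ using h.le
  · exact Frequently.filter_mono (frequently_pure.2 ⟨h0, le_rfl⟩) (pure_le_nhds w)

theorem isPsh_ext {D : Set F} (hD : IsOpen D) {Δ : F → ℂ} (hΔ : DifferentiableOn ℂ Δ D)
    {t : F → EReal} (ht : IsPsh (D ∩ {w | Δ w ≠ 0}) t)
    (hb : ∀ w ∈ D, ∃ b : ℝ, ∀ᶠ w' in 𝓝 w, Δ w' ≠ 0 → t w' ≤ b) : IsPsh D (ext Δ t) := by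
  classical
  set L : F → EReal := fun w => ENNReal.log ‖Δ w‖ₑ with hL
  have hLp : IsPsh D L := isPsh_log_norm hD hΔ
  set tε : ℝ → F → EReal := fun ε w => (if Δ w = 0 then 0 else t w) + (ε : EReal) * L w with htε
  have hz : ∀ ε : ℝ, 0 < ε → ∀ w, Δ w = 0 → tε ε w = ⊥ := fun ε hε w hw => by
    simp [htε, hL, hw, EReal.coe_mul_bot_of_pos hε]
  have hnz : ∀ ε : ℝ, ∀ w, Δ w ≠ 0 → tε ε w = t w + ((ε * Real.log ‖Δ w‖ : ℝ) : EReal) :=
    fun ε w hw => by simp only [htε, hL, if_neg hw, log_enorm_of_ne hw, EReal.coe_mul]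
  have hp : ∀ ε : ℝ, 0 < ε → IsPsh D (tε ε) := by
    intro ε hε
    have h1 : IsPsh (D ∩ {w | Δ w ≠ 0}) (tε ε) :=
      (ht.add ((hLp.mono inter_subset_left).smul hε.le)).congr fun w hw => by
        simp only [htε, if_neg hw.2]
    refine IsPsh.of_lsub (fun w hw => ?_) (fun w hw => ?_) (fun w hw v => ?_)
    · by_cases h0 : Δ w = 0
      · intro a ha
        obtain ⟨b, hb'⟩ := hb w hw
        have h2 := ((IsPsh.const D (EReal.coe_lt_top (max b 0))).add (hLp.smul hε.le)).uscAt hD hw a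
          (by
            rw [hz ε hε w h0] at ha
            simpa [hL, h0, EReal.coe_mul_bot_of_pos hε] using ha)
        refine nhdsWithin_le_nhds ?_
        filter_upwards [h2, hb'] with w' h3 h4
        refine lt_of_le_of_lt (add_le_add_left ?_ _) h3
        split_ifs with h5
        · exact EReal.coe_le_coe_iff.2 (le_max_right b 0)
        · exact (h4 h5).trans (EReal.coe_le_coe_iff.2 (le_max_left b 0))
      · exact fun a ha => nhdsWithin_le_nhds (h1.uscAt (isOpen_nz hD hΔ) ⟨hw, h0⟩ a ha)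
    · by_cases h0 : Δ w = 0
      · rw [hz ε hε w h0]; exact bot_lt_top
      · exact h1.lt_top w ⟨hw, h0⟩
    · by_cases h0 : Δ w = 0
      · exact Frequently.of_forall fun r g _ _ => by rw [hz ε hε w h0]; exact bot_le
      · exact h1.sub.freq ((isOpen_nz hD hΔ).mem_nhds ⟨hw, h0⟩) v
  have he : ∀ w ∈ D, rlim (𝓝[>] (0 : ℝ)) tε w = ext Δ t w := by
    intro w hw
    refine le_antisymm (le_of_forall_gt_imp_ge_of_dense fun a ha => ?_)
      (le_of_forall_gt_imp_ge_of_dense fun a ha => ?_)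
    · obtain ⟨a', h1, h2⟩ := EReal.lt_iff_exists_real_btwn.1 ha
      refine le_trans (le_coe_of_forall fun η hη => ?_) h2.le
      have h3 : ∀ᶠ w' in 𝓝 w, Δ w' ≠ 0 → t w' < a' :=
        eventually_nhdsWithin_iff.1 (eventually_lt_of_limsup_lt h1)
      have h4 : ∀ᶠ w' in 𝓝 w, ‖Δ w'‖ < ‖Δ w‖ + 1 :=
        ((hΔ.continuousOn.continuousAt (hD.mem_nhds hw)).norm).eventually
          (gt_mem_nhds (by linarith))
      have h5 : ∀ᶠ ε : ℝ in 𝓝[>] 0, ε * Real.log (‖Δ w‖ + 1) < η := by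
        refine nhdsWithin_le_nhds ?_
        have : Continuous fun ε : ℝ => ε * Real.log (‖Δ w‖ + 1) := by fun_prop
        exact this.continuousAt.eventually (gt_mem_nhds (by simpa using hη))
      refine rlim_le_of (h3.and h4) ?_
      filter_upwards [h5, self_mem_nhdsWithin] with ε h6 hε w' hw'
      by_cases h0 : Δ w' = 0
      · rw [hz ε hε w' h0]; exact bot_le
      · rw [hnz ε w' h0]
        refine (add_le_coe (hw'.1 h0).le le_rfl).trans (EReal.coe_le_coe_iff.2 ?_)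
        have := Real.log_le_log (norm_pos_iff.2 h0) hw'.2.le
        have hε' : (0 : ℝ) < ε := hε
        nlinarith
    · obtain ⟨a', h1, h2⟩ := EReal.lt_iff_exists_real_btwn.1 ha
      obtain ⟨S, hS, V, hV, h⟩ := eventually_prod_iff.1 (ev_lt_of_rlim_lt h1)
      refine le_trans (ext_le ?_) h2.le
      filter_upwards [hV] with w' hw' h0
      refine le_coe_of_forall fun η hη => ?_
      have h5 : ∀ᶠ ε : ℝ in 𝓝[>] 0, -η < ε * Real.log ‖Δ w'‖ := by
        refine nhdsWithin_le_nhds ?_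
        have : Continuous fun ε : ℝ => ε * Real.log ‖Δ w'‖ := by fun_prop
        exact this.continuousAt.eventually (lt_mem_nhds (by simpa using hη))
      obtain ⟨ε, h6, h7⟩ := (hS.and h5).exists
      have h8 := (h h6 hw').le
      simp only at h8
      rw [hnz ε w' h0, add_coe_le_iff] at h8
      exact h8.trans (EReal.coe_le_coe_iff.2 (by linarith))
  refine (isPsh_rlim hD (l := 𝓝[>] (0 : ℝ)) (u := tε) ?_ fun w hw => ?_).congr he
  · filter_upwards [self_mem_nhdsWithin] with ε hε using (hp ε hε).sub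
  · obtain ⟨b, hb'⟩ := hb w hw
    rw [he w hw]
    exact (ext_le hb').trans_lt (EReal.coe_lt_top b)

/-! ### Lipschitz regularisation -/

theorem exists_lip_seq [FiniteDimensional ℂ E] {U C : Set E} (hU : IsOpen U) (hC : IsCompact C)
    (hCU : C ⊆ U) {u : E → EReal} (hu : IsPsh U u) :
    ∃ U' : Set E, IsOpen U' ∧ C ⊆ U' ∧ ∃ g : ℕ → E → ℝ, (∀ n, Continuous (g n)) ∧
      (∀ n, IsPsh U' fun y => (g n y : EReal)) ∧ (∀ y, Antitone fun n => g n y) ∧
      (∀ n, ∀ y ∈ C, u y ≤ g n y) ∧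
      ∀ y ∈ C, ∀ a : ℝ, u y < a → ∀ᶠ n in atTop, g n y ≤ a := by
  have : ProperSpace E := FiniteDimensional.proper ℂ E
  rcases C.eq_empty_or_nonempty with rfl | hne
  · exact ⟨∅, isOpen_empty, subset_rfl, fun _ _ => 0, fun _ => continuous_const,
      fun _ => IsPsh.const _ (EReal.coe_lt_top 0), fun _ => antitone_const, by simp, by simp⟩
  obtain ⟨η2, hη2, hsub⟩ := hC.exists_cthickening_subset_open hU hCU
  set η : ℝ := η2 / 2 with hη
  have hη0 : 0 < η := by positivity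
  set S := cthickening η2 C with hS
  have hSc : IsCompact S := hC.cthickening
  have hSne : S.Nonempty := hne.mono (self_subset_cthickening C)
  obtain ⟨M0, hM0⟩ := hu.bdd hSc hsub
  set M : ℝ := max M0 0 with hM
  have hM' : ∀ z ∈ S, u z ≤ M := fun z hz =>
    (hM0 z hz).trans (EReal.coe_le_coe_iff.2 (le_max_left _ _))
  have hMn : 0 ≤ M := le_max_right _ _
  have hlt : ∀ z ∈ S, u z < ⊤ := fun z hz => hu.lt_top z (hsub hz)
  set lam : ℕ → ℝ := fun n => (n + M) * (n + 1) / η with hlam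
  have hlam0 : ∀ n, 0 ≤ lam n := fun n => by positivity
  have hlamm : Monotone lam := fun n m hnm => by
    have : (n : ℝ) ≤ m := Nat.cast_le.2 hnm
    simp only [hlam]
    gcongr
  set φ : ℕ → E → E → ℝ := fun n y z => tr (-n) (u z) - lam n * ‖z - y‖ with hφ
  have hφM : ∀ n y, ∀ z ∈ S, φ n y z ≤ M - lam n * ‖z - y‖ := fun n y z hz => by
    have : tr (-n) (u z) ≤ M := tr_le (hM' z hz) (by have : (0 : ℝ) ≤ n := n.cast_nonneg; linarith)
    simp only [hφ]; linarith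
  have hbdd : ∀ n y, BddAbove (φ n y '' S) := fun n y => ⟨M, by
    rintro _ ⟨z, hz, rfl⟩
    have := mul_nonneg (hlam0 n) (norm_nonneg (z - y))
    linarith [hφM n y z hz]⟩
  set g : ℕ → E → ℝ := fun n y => sSup (φ n y '' S) with hg
  have hle : ∀ n y, ∀ z ∈ S, φ n y z ≤ g n y := fun n y z hz =>
    le_csSup (hbdd n y) (mem_image_of_mem _ hz)
  have hge : ∀ n y a, (∀ z ∈ S, φ n y z ≤ a) → g n y ≤ a := fun n y a h =>
    csSup_le (hSne.image _) (by rintro _ ⟨z, hz, rfl⟩; exact h z hz)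
  have hcont : ∀ n, Continuous (g n) := fun n => by
    refine (LipschitzWith.of_le_add_mul ⟨lam n, hlam0 n⟩ fun y y' => ?_).continuous
    refine hge n y _ fun z hz => ?_
    have h1 := hle n y' z hz
    have h2 : ‖z - y'‖ ≤ ‖z - y‖ + dist y y' := by
      rw [dist_eq_norm]; simpa using norm_sub_le_norm_sub_add_norm_sub z y y'
    have h3 := mul_le_mul_of_nonneg_left h2 (hlam0 n)
    simp only [hφ] at h1 ⊢
    change _ ≤ g n y' + lam n * dist y y'
    linarith
  have hmem : ∀ y ∈ thickening η C, ∀ h : E, ‖h‖ ≤ η → y + h ∈ S := fun y hy h hh => by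
    obtain ⟨c, hc, hyc⟩ := mem_thickening_iff.1 hy
    refine mem_cthickening_of_dist_le _ c _ _ hc ?_
    have : dist (y + h) c ≤ dist (y + h) y + dist y c := dist_triangle _ _ _
    rw [dist_self_add_left] at this
    linarith
  refine ⟨thickening η C, isOpen_thickening, self_subset_thickening hη0 C, g, hcont,
    fun n => ?_, fun y n m hnm => ?_, fun n y hy => ?_, fun y hy a ha => ?_⟩
  · refine ⟨usc_coe (hcont n).continuousOn, fun _ _ => EReal.coe_lt_top _, ?_⟩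
    have h1 : ∀ h : closedBall (0 : E) η, Sub (thickening η C)
        fun y => ((tr (-n) (u (y + h)) - lam n * ‖(h : E)‖ : ℝ) : EReal) := fun h => by
      have h2 := ((hu.comp_affine (ContinuousLinearMap.id ℂ E) h).trunc (-n)).add_const
        (-(lam n * ‖(h : E)‖))
      refine (h2.sub.mono fun y hy => ?_).congr fun y _ => ?_
      · simpa [add_comm] using hsub (hmem y hy h (mem_closedBall_zero_iff.1 h.2))
      · simp [add_comm, sub_eq_add_neg]
    refine (Sub.iSup h1).congr fun y hy => le_antisymm (iSup_le fun h => ?_) ?_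
    · have := hle n y _ (hmem y hy h (mem_closedBall_zero_iff.1 h.2))
      simp only [hφ, add_sub_cancel_left] at this
      exact EReal.coe_le_coe_iff.2 this
    · beta_reduce
      set X := ⨆ h : closedBall (0 : E) η,
        ((tr (-n) (u (y + h)) - lam n * ‖(h : E)‖ : ℝ) : EReal) with hX
      have hy0 : y ∈ S := by simpa using hmem y hy 0 (by simpa using hη0.le)
      have h0 : ((-n : ℝ) : EReal) ≤ X := by
        refine le_trans (EReal.coe_le_coe_iff.2 ?_)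
          (le_iSup (fun h : closedBall (0 : E) η =>
            ((tr (-n) (u (y + h)) - lam n * ‖(h : E)‖ : ℝ) : EReal)) ⟨0, by simpa using hη0.le⟩)
        simpa using le_tr' (hlt y hy0)
      induction hX' : X with
      | bot => rw [hX'] at h0; exact absurd h0 (EReal.bot_lt_coe _).not_ge
      | top => exact le_top
      | coe x =>
        refine EReal.coe_le_coe_iff.2 (hge n y x fun z hz => ?_)
        rw [hX', EReal.coe_le_coe_iff] at h0
        by_cases hzy : ‖z - y‖ ≤ η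
        · have := le_iSup (fun h : closedBall (0 : E) η =>
            ((tr (-n) (u (y + h)) - lam n * ‖(h : E)‖ : ℝ) : EReal)) ⟨z - y, by simpa using hzy⟩
          rw [← hX, hX', EReal.coe_le_coe_iff] at this
          simpa [hφ] using this
        · push Not at hzy
          have h3 := hφM n y z hz
          have h4 : lam n * η ≤ lam n * ‖z - y‖ := mul_le_mul_of_nonneg_left hzy.le (hlam0 n)
          have h5 : lam n * η = (n + M) * (n + 1) := by simp only [hlam]; field_simp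
          have h6 : (0 : ℝ) ≤ n := n.cast_nonneg
          nlinarith
  · refine hge m y _ fun z hz => le_trans ?_ (hle n y z hz)
    have h1 : tr (-m) (u z) ≤ tr (-n) (u z) :=
      tr_mono (hlt z hz) le_rfl (neg_le_neg (Nat.cast_le.2 hnm))
    have h2 := mul_le_mul_of_nonneg_right (hlamm hnm) (norm_nonneg (z - y))
    simp only [hφ]; linarith
  · have hy' : y ∈ S := self_subset_cthickening C hy
    refine (le_tr (c := -n) (hlt y hy')).trans (EReal.coe_le_coe_iff.2 ?_)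
    simpa [hφ] using hle n y y hy'
  · obtain ⟨ρ, hρ, hB⟩ := Metric.eventually_nhds_iff.1 (hu.uscAt hU (hCU hy) a ha)
    have h1 : Tendsto (fun n : ℕ => (n : ℝ)) atTop atTop := tendsto_natCast_atTop_atTop
    filter_upwards [h1.eventually_ge_atTop (-a), h1.eventually_ge_atTop ((M - a) * η / ρ),
      h1.eventually_ge_atTop 1] with n h2 h3 h4
    refine hge n y a fun z hz => ?_
    by_cases hzy : dist z y < ρ
    · have h5 : tr (-n) (u z) ≤ a := tr_le (hB hzy).le (by linarith)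
      have := mul_nonneg (hlam0 n) (norm_nonneg (z - y))
      simp only [hφ]; linarith
    · push Not at hzy
      rw [dist_eq_norm] at hzy
      have h5 := hφM n y z hz
      have h6 : lam n * ρ ≤ lam n * ‖z - y‖ := mul_le_mul_of_nonneg_left hzy (hlam0 n)
      have h7 : n / η ≤ lam n := by
        simp only [hlam]
        gcongr
        nlinarith
      rw [div_le_iff₀ hρ] at h3
      have h8 : M - a ≤ n / η * ρ := by
        rw [div_mul_eq_mul_div, le_div_iff₀ hη0]; linarith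
      have h9 := mul_le_mul_of_nonneg_right h7 hρ.le
      linarith

/-! ### branched covers -/

/-- a branched cover `π : Y → ball c R` with `k` sheets, unbranched off `Δ = 0` -/
structure BC (E F : Type*) [NormedAddCommGroup E] [NormedSpace ℂ E]
    [NormedAddCommGroup F] [NormedSpace ℂ F] where
  Y : Set E
  π : E → F
  c : F
  R : ℝ
  Δ : F → ℂ
  k : ℕ
  R_pos : 0 < R
  cont : ContinuousOn π Y
  maps : MapsTo π Y (ball c R)
  proper : ∀ K ⊆ ball c R, IsCompact K → IsCompact (Y ∩ π ⁻¹' K)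
  hol : DifferentiableOn ℂ Δ (ball c R)
  ne : ∃ w ∈ ball c R, Δ w ≠ 0
  sheets : ∀ w ∈ ball c R, Δ w ≠ 0 → ∃ V ∈ 𝓝 w, ∃ s : Fin k → F → E,
    (∀ j, DifferentiableOn ℂ (s j) V) ∧ (∀ w' ∈ V, Function.Injective fun j => s j w') ∧
    ∀ w' ∈ V, ∀ y, (y ∈ Y ∧ π y = w') ↔ ∃ j, s j w' = y
  dense : ∀ y ∈ Y, ∃ᶠ y' in 𝓝 y, y' ∈ Y ∧ Δ (π y') ≠ 0

namespace BC

variable (B : BC E F)

/-- the fibre -/
def fib (w : F) : Set E := {y | y ∈ B.Y ∧ B.π y = w}

/-- `s` trivialises the cover over `V` -/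
structure Triv (V : Set F) (s : Fin B.k → F → E) : Prop where
  sub : V ⊆ ball B.c B.R
  nz : ∀ w ∈ V, B.Δ w ≠ 0
  hol : ∀ j, DifferentiableOn ℂ (s j) V
  inj : ∀ w ∈ V, Function.Injective fun j => s j w
  fib : ∀ w ∈ V, B.fib w = range fun j => s j w

variable {B}

theorem Triv.mono {V V' : Set F} {s : Fin B.k → F → E} (h : B.Triv V s) (hV : V' ⊆ V) :
    B.Triv V' s :=
  ⟨hV.trans h.sub, fun w hw => h.nz w (hV hw), fun j => (h.hol j).mono hV,
    fun w hw => h.inj w (hV hw), fun w hw => h.fib w (hV hw)⟩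

theorem Triv.mem {V : Set F} {s : Fin B.k → F → E} (h : B.Triv V s) {w : F} (hw : w ∈ V)
    (j : Fin B.k) : s j w ∈ B.Y ∧ B.π (s j w) = w := by
  have : s j w ∈ B.fib w := by rw [h.fib w hw]; exact ⟨j, rfl⟩
  exact this

variable (B)

theorem exists_triv {w : F} (hw : w ∈ ball B.c B.R) (h0 : B.Δ w ≠ 0) :
    ∃ ρ > 0, ∃ s, B.Triv (ball w ρ) s := by
  obtain ⟨V, hV, s, h1, h2, h3⟩ := B.sheets w hw h0
  obtain ⟨ρ, hρ, hB⟩ := Metric.mem_nhds_iff.1
    (inter_mem hV ((isOpen_nz isOpen_ball B.hol).mem_nhds ⟨hw, h0⟩))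
  exact ⟨ρ, hρ, s, fun w' hw' => (hB hw').2.1, fun w' hw' => (hB hw').2.2,
    fun j => (h1 j).mono fun w' hw' => (hB hw').1, fun w' hw' => h2 w' (hB hw').1,
    fun w' hw' => Set.ext fun y => h3 w' (hB hw').1 y⟩

theorem isCompact_fib {w : F} (hw : w ∈ ball B.c B.R) : IsCompact (B.fib w) :=
  B.proper {w} (by simpa using hw) isCompact_singleton

theorem freq_nz [FiniteDimensional ℂ F] {w : F} (hw : w ∈ ball B.c B.R) :
    ∃ᶠ w' in 𝓝 w, w' ∈ ball B.c B.R ∧ B.Δ w' ≠ 0 :=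
  Crest.Agent.R266.SCV.dense_ne_zero isOpen_ball (convex_ball _ _).isPreconnected
    (Crest.Agent.R266.SCV.analyticOnNhd_of_differentiableOn isOpen_ball B.hol) B.ne w hw

theorem tendsto_pi {y : E} (hy : y ∈ B.Y) : Tendsto B.π (𝓝[B.Y] y) (𝓝 (B.π y)) := B.cont y hy

/-- transfer of frequent statements from `Y` to the base -/
theorem freq_base {y : E} (hy : y ∈ B.Y) {P : E → Prop} (hP : ∀ᶠ y' in 𝓝[B.Y] y, P y') :
    ∃ᶠ w in 𝓝 (B.π y), B.Δ w ≠ 0 ∧ ∃ y' ∈ B.fib w, P y' := by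
  have h1 : ∃ᶠ y' in 𝓝[B.Y] y, B.Δ (B.π y') ≠ 0 :=
    frequently_nhdsWithin_iff.2 ((B.dense y hy).mono fun _ h => ⟨h.2, h.1⟩)
  refine (B.tendsto_pi hy).frequently ((h1.and_eventually (hP.and self_mem_nhdsWithin)).mono ?_)
  exact fun y' h => ⟨h.1, y', ⟨h.2.2, rfl⟩, h.2.1⟩

/-- closed subsets of `Y` missing a fibre miss the nearby fibres -/
theorem ev_fib [FiniteDimensional ℂ F] {w : F} (hw : w ∈ ball B.c B.R) {P : E → Prop}
    (hP : ∀ y ∈ B.fib w, ∀ᶠ y' in 𝓝[B.Y] y, P y') : ∀ᶠ w' in 𝓝 w, ∀ y ∈ B.fib w', P y := by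
  have : ProperSpace F := FiniteDimensional.proper ℂ F
  obtain ⟨δ, hδ, hK⟩ := ex_cball isOpen_ball hw
  have hC := B.proper _ hK (isCompact_closedBall w δ)
  by_contra hcon
  rw [not_eventually] at hcon
  have h1 : ∃ᶠ w' in 𝓝 w, ∃ y ∈ B.Y ∩ B.π ⁻¹' closedBall w δ, B.π y = w' ∧ ¬ P y := by
    refine (hcon.and_eventually (closedBall_mem_nhds w hδ)).mono fun w' h => ?_
    obtain ⟨h2, h3⟩ := h
    push Not at h2
    obtain ⟨y, hy, hy'⟩ := h2
    exact ⟨y, ⟨hy.1, by rw [mem_preimage, hy.2]; exact h3⟩, hy.2, hy'⟩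
  obtain ⟨w', hw', h2⟩ := exists_seq_forall_of_frequently h1
  choose y hy hyw hyP using h2
  obtain ⟨x, hx, φ, hφ, hlim⟩ := hC.tendsto_subseq hy
  have h3 : Tendsto (y ∘ φ) atTop (𝓝[B.Y] x) :=
    tendsto_nhdsWithin_iff.2 ⟨hlim, Eventually.of_forall fun n => (hy _).1⟩
  have h4 : B.π x = w := by
    refine tendsto_nhds_unique ((B.tendsto_pi hx.1).comp h3) ?_
    have : B.π ∘ y ∘ φ = w' ∘ φ := funext fun n => hyw _
    rw [this]
    exact hw'.comp hφ.tendsto_atTop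
  obtain ⟨n, hn⟩ := (h3.eventually (hP x ⟨hx.1, h4⟩)).exists
  exact hyP _ hn

/-! ### the max-pushforward -/

/-- the max-pushforward -/
def mx (u : E → EReal) (w : F) : EReal := ⨆ y ∈ B.fib w, u y

theorem le_mx (u : E → EReal) {y : E} (hy : y ∈ B.Y) : u y ≤ B.mx u (B.π y) :=
  le_iSup₂_of_le (f := fun y' (_ : y' ∈ B.fib (B.π y)) => u y') y ⟨hy, rfl⟩ le_rfl

theorem mx_le {u : E → EReal} {w : F} {a : EReal} (h : ∀ y ∈ B.fib w, u y ≤ a) : B.mx u w ≤ a :=
  iSup₂_le h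

variable [FiniteDimensional ℂ E] [FiniteDimensional ℂ F] {U : Set E} {W : Set F} {u : E → EReal}

theorem usc_mx (hU : IsOpen U) (hu : IsPsh U u) {w : F} (hw : w ∈ ball B.c B.R)
    (hYU : B.fib w ⊆ U) : UpperSemicontinuousAt (B.mx u) w := by
  intro a ha
  obtain ⟨a', h1, h2⟩ := exists_between ha
  have := B.ev_fib hw (P := fun y => u y < a') fun y hy => nhdsWithin_le_nhds
    (hu.uscAt hU (hYU hy) a' (lt_of_le_of_lt (hy.2 ▸ B.le_mx u hy.1) h1))
  filter_upwards [this] with w' hw'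
  exact (B.mx_le fun y hy => (hw' y hy).le).trans_lt h2

theorem mx_lt_top (hu : IsPsh U u) {w : F} (hw : w ∈ ball B.c B.R) (hYU : B.fib w ⊆ U) :
    B.mx u w < ⊤ := by
  obtain ⟨C, hC⟩ := hu.bdd (B.isCompact_fib hw) hYU
  exact (B.mx_le hC).trans_lt (EReal.coe_lt_top C)

theorem Triv.isPsh_comp {B : BC E F} {V : Set F} {s : Fin B.k → F → E} (h : B.Triv V s)
    (hU : IsOpen U) (hu : IsPsh U u) (hYU : ∀ w ∈ V, B.fib w ⊆ U) (j : Fin B.k) :
    IsPsh V fun w => u (s j w) :=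
  Hol.comp_hol hU hu (h.hol j) fun w hw => hYU w hw (h.mem hw j)

theorem isPsh_mx_off (hU : IsOpen U) (hu : IsPsh U u) (hW : IsOpen W) (hWB : W ⊆ ball B.c B.R)
    (hYU : ∀ w ∈ W, B.fib w ⊆ U) : IsPsh (W ∩ {w | B.Δ w ≠ 0}) (B.mx u) := by
  refine IsPsh.of_nhds fun w hw => ?_
  obtain ⟨ρ, hρ, s, hs⟩ := B.exists_triv (hWB hw.1) hw.2
  have hs' := hs.mono (inter_subset_left (t := W))
  refine ⟨ball w ρ ∩ W, inter_mem (ball_mem_nhds w hρ) (hW.mem_nhds hw.1), ?_⟩
  refine (IsPsh.finset_sup Finset.univ fun j _ =>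
    hs'.isPsh_comp hU hu (fun w' hw' => hYU w' hw'.2) j).congr fun w' hw' => ?_
  refine le_antisymm (Finset.sup_le fun j _ => ?_) (B.mx_le fun y hy => ?_)
  · have := B.le_mx u (hs'.mem hw' j).1
    rwa [(hs'.mem hw' j).2] at this
  · rw [hs'.fib w' hw'] at hy
    obtain ⟨j, rfl⟩ := hy
    exact Finset.le_sup (f := fun j => u (s j w')) (Finset.mem_univ j)

theorem isPsh_mx_cont {g : E → ℝ} (hg : Continuous g) (hU : IsOpen U)
    (hu : IsPsh U fun y => (g y : EReal)) (hW : IsOpen W) (hWB : W ⊆ ball B.c B.R)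
    (hYU : ∀ w ∈ W, B.fib w ⊆ U) : IsPsh W (B.mx fun y => (g y : EReal)) := by
  have h1 := fun w (hw : w ∈ W) => B.usc_mx hU hu (hWB hw) (hYU w hw)
  refine (isPsh_ext hW (B.hol.mono hWB) (B.isPsh_mx_off hU hu hW hWB hYU) fun w hw => ?_).congr
    fun w hw => le_antisymm (le_of_forall_gt_imp_ge_of_dense fun a ha => ext_le ?_)
      (B.mx_le fun y hy => le_of_forall_lt_imp_le_of_dense fun a ha => le_ext ?_)
  · obtain ⟨b, h2, -⟩ := EReal.lt_iff_exists_real_btwn.1 (B.mx_lt_top hu (hWB hw) (hYU w hw))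
    exact ⟨b, (h1 w hw b h2).mono fun _ h _ => h.le⟩
  · exact (h1 w hw a ha).mono fun _ h _ => h.le
  · have h2 : ∀ᶠ y' in 𝓝[B.Y] y, a < (g y' : EReal) := nhdsWithin_le_nhds
      ((continuous_coe_real_ereal.comp hg).continuousAt.eventually (lt_mem_nhds ha))
    have h3 := B.freq_base hy.1 h2
    rw [hy.2] at h3
    refine h3.mono fun w' ⟨h4, y', h5, h6⟩ => ⟨h4, h6.le.trans ?_⟩
    exact h5.2 ▸ B.le_mx (fun y => (g y : EReal)) h5.1

/-- **the max-pushforward of a psh function is psh** -/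
theorem isPsh_mx' (hU : IsOpen U) (hu : IsPsh U u) (hW : IsOpen W) (hWB : W ⊆ ball B.c B.R)
    (hYU : ∀ w ∈ W, B.fib w ⊆ U) : IsPsh W (B.mx u) := by
  have : ProperSpace F := FiniteDimensional.proper ℂ F
  refine IsPsh.of_nhds fun w hw => ?_
  obtain ⟨δ, hδ, hK⟩ := ex_cball hW hw
  have hC := B.proper _ (hK.trans hWB) (isCompact_closedBall w δ)
  obtain ⟨U', hU', hCU', g, h1, h2, h3, h4, h5⟩ := exists_lip_seq hU hC
    (fun y hy => hYU _ (hK hy.2) ⟨hy.1, rfl⟩) hu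
  have hf : ∀ w' ∈ ball w δ, B.fib w' ⊆ B.Y ∩ B.π ⁻¹' closedBall w δ := fun w' hw' y hy =>
    ⟨hy.1, by rw [mem_preimage, hy.2]; exact ball_subset_closedBall hw'⟩
  have hB : ball w δ ⊆ ball B.c B.R := ball_subset_closedBall.trans (hK.trans hWB)
  refine ⟨ball w δ, ball_mem_nhds w hδ, (IsPsh.iInf_antitone
    (f := fun n => B.mx fun y => (g n y : EReal)) (fun n => B.isPsh_mx_cont (h1 n) hU' (h2 n)
      isOpen_ball hB fun w' hw' => (hf w' hw').trans hCU') fun w' _ n m hnm => ?_).congr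
    fun w' hw' => le_antisymm (le_of_forall_gt_imp_ge_of_dense fun a ha => ?_)
      (le_iInf fun n => ?_)⟩
  · exact iSup₂_mono fun y _ => EReal.coe_le_coe_iff.2 (h3 y hnm)
  · obtain ⟨a', h6, h7⟩ := EReal.lt_iff_exists_real_btwn.1 ha
    obtain ⟨a'', h8, h9⟩ := EReal.lt_iff_exists_real_btwn.1 h6
    obtain ⟨n, hn⟩ := dini (B.isCompact_fib (hB hw')) (f := fun n y => (g n y : EReal))
      (fun n => usc_coe (h1 n).continuousOn)
      (fun i j => ⟨max i j, fun x _ => ⟨EReal.coe_le_coe_iff.2 (h3 x (le_max_left _ _)),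
        EReal.coe_le_coe_iff.2 (h3 x (le_max_right _ _))⟩⟩) (g := fun _ => a') continuousOn_const
      fun y hy => by
        obtain ⟨n, hn⟩ := (h5 y (hf w' hw' hy) a''
          (lt_of_le_of_lt (hy.2 ▸ B.le_mx u hy.1) h8)).exists
        exact ⟨n, (EReal.coe_le_coe_iff.2 hn).trans_lt h9⟩
    exact (iInf_le _ n).trans ((B.mx_le fun y hy => (hn y hy).le).trans h7.le)
  · exact iSup₂_mono fun y hy => h4 n y (hf w' hw' hy)

theorem isPsh_mx (hU : IsOpen U) (hu : IsPsh U u) (hYU : B.Y ⊆ U) :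
    IsPsh (ball B.c B.R) (B.mx u) :=
  B.isPsh_mx' hU hu isOpen_ball subset_rfl fun _ _ _ hy => hYU hy.1

/-! ### the trace -/

/-- the trace (meaningful off `Δ = 0`) -/
def trc (u : E → EReal) (w : F) : EReal := ∑ᶠ y ∈ B.fib w, u y

theorem Triv.trc_eq {B : BC E F} {V : Set F} {s : Fin B.k → F → E} (h : B.Triv V s)
    (u : E → EReal) {w : F} (hw : w ∈ V) : B.trc u w = ∑ j, u (s j w) := by
  rw [trc, h.fib w hw, finsum_mem_range (h.inj w hw), finsum_eq_sum_of_fintype]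

theorem isPsh_trc (hU : IsOpen U) (hu : IsPsh U u) (hYU : B.Y ⊆ U) :
    IsPsh (ball B.c B.R ∩ {w | B.Δ w ≠ 0}) (B.trc u) := by
  refine IsPsh.of_nhds fun w hw => ?_
  obtain ⟨ρ, hρ, s, hs⟩ := B.exists_triv hw.1 hw.2
  exact ⟨ball w ρ, ball_mem_nhds w hρ, (IsPsh.sum Finset.univ fun j _ =>
    hs.isPsh_comp hU hu (fun _ _ _ hy => hYU hy.1) j).congr fun w' hw' => (hs.trc_eq u hw').symm⟩

theorem trc_nonpos (h0 : ∀ y ∈ B.Y, u y ≤ 0) {w : F} (hw : w ∈ ball B.c B.R) (hΔ : B.Δ w ≠ 0) :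
    B.trc u w ≤ 0 := by
  obtain ⟨ρ, hρ, s, hs⟩ := B.exists_triv hw hΔ
  rw [hs.trc_eq u (mem_ball_self hρ)]
  exact Finset.sum_nonpos fun j _ => h0 _ (hs.mem (mem_ball_self hρ) j).1

theorem trc_le (h0 : ∀ y ∈ B.Y, u y ≤ 0) {y : E} (hy : y ∈ B.Y) (hΔ : B.Δ (B.π y) ≠ 0) :
    B.trc u (B.π y) ≤ u y := by
  classical
  obtain ⟨ρ, hρ, s, hs⟩ := B.exists_triv (B.maps hy) hΔ
  have hm := mem_ball_self (x := B.π y) hρ
  have h1 : y ∈ B.fib (B.π y) := ⟨hy, rfl⟩
  rw [hs.fib _ hm] at h1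
  obtain ⟨j, hj⟩ := h1
  rw [hs.trc_eq u hm, ← Finset.add_sum_erase _ _ (Finset.mem_univ j)]
  simp only at hj
  rw [hj]
  exact add_le_of_nonpos_right (Finset.sum_nonpos fun i _ => h0 _ (hs.mem hm i).1)

end BC

/-! ### Hölder openness -/

theorem exists_form (k : ℕ) (v : Fin k → E) :
    ∃ ℓ : E →L[ℂ] ℂ, ‖ℓ‖ ≤ 1 ∧ ∀ j, (1 / 8 : ℝ) ^ k * ‖v j‖ ≤ ‖ℓ (v j)‖ := by
  induction k with
  | zero => exact ⟨0, by simp, fun j => j.elim0⟩
  | succ k ih =>
    obtain ⟨ℓ, h1, h2⟩ := ih fun j => v j.succ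
    set c : ℝ := (1 / 8 : ℝ) ^ k with hc
    have hc0 : 0 < c := by positivity
    have hc1 : c ≤ 1 := pow_le_one₀ (by norm_num) (by norm_num)
    have hp : (1 / 8 : ℝ) ^ (k + 1) = c / 8 := by rw [pow_succ]; ring
    rw [hp]
    by_cases h3 : c / 4 * ‖v 0‖ ≤ ‖ℓ (v 0)‖
    · refine ⟨ℓ, h1, fun j => Fin.cases ?_ (fun j => ?_) j⟩
      · nlinarith [norm_nonneg (v 0)]
      · nlinarith [norm_nonneg (v j.succ), h2 j]
    · push Not at h3
      obtain ⟨ℓ', h4, h5⟩ := exists_dual_vector'' ℂ (v 0)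
      have hn : ‖((c / 2 : ℝ) : ℂ)‖ = c / 2 := by
        rw [Complex.norm_real, Real.norm_of_nonneg (by positivity)]
      have hn2 : ‖((1 / 2 : ℝ) : ℂ)‖ = 1 / 2 := by
        rw [Complex.norm_real, Real.norm_of_nonneg (by positivity)]
      refine ⟨((1 / 2 : ℝ) : ℂ) • (ℓ + ((c / 2 : ℝ) : ℂ) • ℓ'), ?_, fun j => ?_⟩
      · rw [norm_smul, hn2]
        have := norm_add_le ℓ (((c / 2 : ℝ) : ℂ) • ℓ')
        rw [norm_smul, hn] at this
        nlinarith
      · simp only [smul_apply, add_apply, norm_smul, hn2]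
        refine Fin.cases ?_ (fun j => ?_) j
        · have h6 := norm_sub_le (ℓ (v 0) + ((c / 2 : ℝ) : ℂ) • ℓ' (v 0)) (ℓ (v 0))
          have h7 : ‖ℓ' (v 0)‖ = ‖v 0‖ := by rw [h5]; simp
          rw [add_sub_cancel_left, norm_smul, hn, h7] at h6
          linarith
        · have h6 := norm_sub_le (ℓ (v j.succ) + ((c / 2 : ℝ) : ℂ) • ℓ' (v j.succ))
            (((c / 2 : ℝ) : ℂ) • ℓ' (v j.succ))
          rw [add_sub_cancel_right, norm_smul, hn] at h6
          have h7 : ‖ℓ' (v j.succ)‖ ≤ ‖v j.succ‖ := by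
            simpa using (ℓ'.le_opNorm _).trans
              (mul_le_mul_of_nonneg_right h4 (norm_nonneg (v j.succ)))
          have h8 := h2 j
          nlinarith [norm_nonneg (v j.succ)]

namespace BC

variable (B : BC E F) [FiniteDimensional ℂ F]

/-- the norm (meaningful off `Δ = 0`) -/
def nrm (h : E → ℂ) (w : F) : ℂ := ∏ᶠ y ∈ B.fib w, h y

theorem Triv.nrm_eq {B : BC E F} {V : Set F} {s : Fin B.k → F → E} (h : B.Triv V s)
    (f : E → ℂ) {w : F} (hw : w ∈ V) : B.nrm f w = ∏ j, f (s j w) := by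
  rw [nrm, h.fib w hw, finprod_mem_range (h.inj w hw), finprod_eq_prod_of_fintype]

theorem norm_nrm_le {f : E → ℂ} {w : F} (hw : w ∈ ball B.c B.R) (hΔ : B.Δ w ≠ 0) {M : ℝ}
    (hM : ∀ y ∈ B.fib w, ‖f y‖ ≤ M) : ‖B.nrm f w‖ ≤ M ^ B.k := by
  obtain ⟨ρ, hρ, s, hs⟩ := B.exists_triv hw hΔ
  have hm := mem_ball_self (x := w) hρ
  rw [hs.nrm_eq f hm, norm_prod]
  refine (Finset.prod_le_prod (fun j _ => norm_nonneg _) fun j _ => hM _ (hs.mem hm j)).trans ?_
  simp

theorem norm_nrm_le' {f : E → ℂ} {w : F} (hw : w ∈ ball B.c B.R) (hΔ : B.Δ w ≠ 0) {M : ℝ}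
    (hM1 : 1 ≤ M) (hM : ∀ y ∈ B.fib w, ‖f y‖ ≤ M) {y : E} (hy : y ∈ B.fib w) :
    ‖B.nrm f w‖ ≤ ‖f y‖ * M ^ B.k := by
  classical
  obtain ⟨ρ, hρ, s, hs⟩ := B.exists_triv hw hΔ
  have hm := mem_ball_self (x := w) hρ
  rw [hs.fib _ hm] at hy
  obtain ⟨j, hj⟩ := hy
  simp only at hj
  rw [hs.nrm_eq f hm, norm_prod, ← Finset.mul_prod_erase _ _ (Finset.mem_univ j), hj]
  refine mul_le_mul_of_nonneg_left ?_ (norm_nonneg _)
  refine (Finset.prod_le_prod (fun j _ => norm_nonneg _) fun j _ => hM _ (hs.mem hm j)).trans ?_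
  rw [Finset.prod_const]
  refine pow_le_pow_right₀ hM1 ((Finset.card_le_univ _).trans (by simp))

/-- **the norm of a holomorphic function extends holomorphically** and vanishes exactly on the
image of the zero set -/
theorem exists_norm {U : Set E} (hU : IsOpen U) (hYU : B.Y ⊆ U) {f : E → ℂ}
    (hf : DifferentiableOn ℂ f U) :
    ∃ N : F → ℂ, DifferentiableOn ℂ N (ball B.c B.R) ∧
      (∀ w ∈ ball B.c B.R, B.Δ w ≠ 0 → N w = B.nrm f w) ∧
      (∀ w ∈ ball B.c B.R, N w = 0 ↔ ∃ y ∈ B.fib w, f y = 0) ∧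
      ∀ W ⊆ ball B.c B.R, IsOpen W → ∀ M : ℝ, (∀ w ∈ W, ∀ y ∈ B.fib w, ‖f y‖ ≤ M) →
        ∀ w ∈ W, ‖N w‖ ≤ M ^ B.k := by
  have hfc : ∀ y ∈ B.Y, ContinuousAt f y := fun y hy =>
    hf.continuousOn.continuousAt (hU.mem_nhds (hYU hy))
  have hbd : ∀ w ∈ ball B.c B.R, ∃ M : ℝ, 1 ≤ M ∧ ∀ᶠ w' in 𝓝 w, ∀ y ∈ B.fib w', ‖f y‖ ≤ M := by
    intro w hw
    obtain ⟨M, hM⟩ := (B.isCompact_fib hw).exists_bound_of_continuousOn
      (f := f) fun y hy => (hfc y hy.1).continuousWithinAt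
    refine ⟨max M 0 + 1, by linarith [le_max_right M 0], B.ev_fib hw fun y hy =>
      nhdsWithin_le_nhds ?_⟩
    exact ((hfc y hy.1).norm.eventually (gt_mem_nhds
      (by linarith [hM y hy, le_max_left M 0] : ‖f y‖ < max M 0 + 1))).mono fun _ h => h.le
  obtain ⟨N, hN, hNe⟩ := Crest.Agent.R281.Thn_280.riemann_ext (f := B.nrm f) isOpen_ball
    (Crest.Agent.R266.SCV.analyticOnNhd_of_differentiableOn isOpen_ball B.hol)
    (fun w hw => (B.freq_nz hw).mono fun _ h => h.2)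
    (fun w hw => by
      obtain ⟨ρ, hρ, s, hs⟩ := B.exists_triv hw.1 hw.2
      have h1 : DifferentiableOn ℂ (fun w' => ∏ j, f (s j w')) (ball w ρ) :=
        differentiableOn_prod _ fun j _ =>
          hf.comp (hs.hol j) fun w' hw' => hYU (hs.mem hw' j).1
      exact (((h1.congr fun w' hw' => hs.nrm_eq f hw').differentiableAt
        (ball_mem_nhds w hρ))).differentiableWithinAt)
    (fun w hw => by
      obtain ⟨M, -, hM⟩ := hbd w hw
      exact ⟨_, inter_mem hM (isOpen_ball.mem_nhds hw), M ^ B.k,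
        fun w' hw' h0 => B.norm_nrm_le hw'.2 h0 hw'.1⟩)
  have hNc : ∀ w ∈ ball B.c B.R, ContinuousAt N w := fun w hw =>
    hN.continuousOn.continuousAt (isOpen_ball.mem_nhds hw)
  refine ⟨N, hN, hNe, fun w hw => ⟨fun h0 => ?_, ?_⟩, fun W hWB hW M hM w hw => ?_⟩
  · by_contra hcon
    push Not at hcon
    obtain ⟨m, hm0, hm⟩ : ∃ m : ℝ, 0 < m ∧ ∀ y ∈ B.fib w, m < ‖f y‖ := by
      rcases (B.fib w).eq_empty_or_nonempty with h | h
      · exact ⟨1, one_pos, by simp [h]⟩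
      · obtain ⟨y, hy, hmin⟩ := (B.isCompact_fib hw).exists_isMinOn h
          (f := fun y => ‖f y‖) fun y hy => (hfc y hy.1).norm.continuousWithinAt
        have := norm_pos_iff.2 (hcon y hy)
        exact ⟨‖f y‖ / 2, by linarith, fun y' hy' => by linarith [show ‖f y‖ ≤ ‖f y'‖ from hmin hy']⟩
    have h1 := B.ev_fib hw (P := fun y => m < ‖f y‖) fun y hy =>
      nhdsWithin_le_nhds ((hfc y hy.1).norm.eventually (lt_mem_nhds (hm y hy)))
    have h2 : ∀ᶠ w' in 𝓝 w, ‖N w'‖ < m ^ B.k :=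
      (hNc w hw).norm.eventually (gt_mem_nhds (by simp only [h0, norm_zero]; positivity))
    obtain ⟨w', ⟨h3, h4⟩, h5, h6⟩ := ((B.freq_nz hw).and_eventually (h1.and h2)).exists
    obtain ⟨ρ, hρ, s, hs⟩ := B.exists_triv h3 h4
    have hm' := mem_ball_self (x := w') hρ
    rw [hNe w' h3 h4, hs.nrm_eq f hm', norm_prod] at h6
    have h7 := Finset.prod_le_prod (s := Finset.univ) (f := fun _ : Fin B.k => m)
      (fun _ _ => hm0.le) fun j _ => (h5 _ (hs.mem hm' j)).le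
    simp only [Finset.prod_const, Finset.card_univ, Fintype.card_fin] at h7
    linarith
  · rintro ⟨y, hy, hy0⟩
    obtain ⟨M, hM1, hM⟩ := hbd w hw
    refine norm_le_zero_iff.1 (le_of_forall_pos_le_add fun ε hε => ?_)
    have hMk : 0 < M ^ B.k := by positivity
    have h1 : ∀ᶠ y' in 𝓝[B.Y] y, ‖f y'‖ < ε / M ^ B.k := nhdsWithin_le_nhds
      ((hfc y hy.1).norm.eventually (gt_mem_nhds (by simp only [hy0, norm_zero]; positivity)))
    have h2 := B.freq_base hy.1 h1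
    rw [hy.2] at h2
    refine le_of_tendsto_of_frequently (hNc w hw).norm.tendsto
      ((h2.and_eventually (hM.and (isOpen_ball.mem_nhds hw))).mono ?_)
    rintro w' ⟨⟨h3, y', h4, h5⟩, h6, h7⟩
    rw [hNe w' h7 h3, zero_add]
    rw [lt_div_iff₀ hMk] at h5
    exact (B.norm_nrm_le' h7 h3 hM1 h6 h4).trans h5.le
  · refine le_of_tendsto_of_frequently (hNc w (hWB hw)).norm.tendsto
      (((B.freq_nz (hWB hw)).and_eventually (hW.mem_nhds hw)).mono ?_)
    rintro w' ⟨⟨h1, h2⟩, h3⟩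
    rw [hNe w' h1 h2]
    exact B.norm_nrm_le h1 h2 (hM w' h3)

/-- **Hölder openness** of the projection, uniformly over the inner ball -/
theorem holder : ∃ κ : ℝ, 0 < κ ∧ ∀ x ∈ B.Y, B.π x ∈ ball B.c (B.R / 4) → ∀ r : ℝ, 0 < r →
    ∀ w ∈ ball (B.π x) (B.R / 2), B.Δ w ≠ 0 → dist w (B.π x) < κ * r ^ B.k →
      ∃ y ∈ B.fib w, dist y x < r := by
  have : ProperSpace F := FiniteDimensional.proper ℂ F
  have hR := B.R_pos
  have hC := B.proper _ (closedBall_subset_ball (by linarith : 3 * B.R / 4 < B.R))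
    (isCompact_closedBall B.c _)
  obtain ⟨M0, hM0⟩ := hC.isBounded.exists_norm_le
  set M : ℝ := 2 * max M0 1 with hM
  have hM1 : 0 < M := by linarith [le_max_right M0 1]
  refine ⟨(1 / 8 : ℝ) ^ (B.k * B.k) * (B.R / 2) / M ^ B.k, by positivity,
    fun x hx hxc r hr w hw hΔ hd => ?_⟩
  by_contra hcon
  push Not at hcon
  have hsub : ball (B.π x) (B.R / 2) ⊆ closedBall B.c (3 * B.R / 4) := fun w' hw' => by
    rw [mem_ball] at hw' hxc
    rw [mem_closedBall]
    linarith [dist_triangle w' (B.π x) B.c]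
  have hsub' : ball (B.π x) (B.R / 2) ⊆ ball B.c B.R :=
    hsub.trans (closedBall_subset_ball (by linarith))
  obtain ⟨ρ, hρ, s, hs⟩ := B.exists_triv (hsub' hw) hΔ
  have hm := mem_ball_self (x := w) hρ
  obtain ⟨ℓ, h1, h2⟩ := exists_form B.k fun j => s j w - x
  obtain ⟨N, hN, hNe, hN0, hNb⟩ := B.exists_norm isOpen_univ (subset_univ _)
    (f := fun y => ℓ (y - x)) (by fun_prop)
  have h3 : N (B.π x) = 0 := (hN0 _ (B.maps hx)).2 ⟨x, ⟨hx, rfl⟩, by simp⟩
  have h4 : ∀ w' ∈ ball (B.π x) (B.R / 2), ‖N w'‖ ≤ M ^ B.k := hNb _ hsub' isOpen_ball M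
    fun w' hw' y hy => by
      have h5 := hM0 y ⟨hy.1, by rw [mem_preimage, hy.2]; exact hsub hw'⟩
      have h6 := hM0 x ⟨hx, hsub (mem_ball_self (by linarith))⟩
      have h7 : ‖ℓ (y - x)‖ ≤ ‖y - x‖ := by
        simpa using (ℓ.le_opNorm _).trans (mul_le_mul_of_nonneg_right h1 (norm_nonneg (y - x)))
      linarith [norm_sub_le y x, le_max_left M0 1]
  have h5 := Complex.dist_le_div_mul_dist_of_mapsTo_ball (hN.mono hsub')
    (R₂ := M ^ B.k) (fun w' hw' => by rw [h3]; simpa using h4 w' hw') hw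
  rw [h3, dist_zero_right, hNe w (hsub' hw) hΔ, hs.nrm_eq _ hm, norm_prod] at h5
  have h6 := Finset.prod_le_prod (s := Finset.univ) (f := fun _ : Fin B.k => (1 / 8 : ℝ) ^ B.k * r)
    (g := fun j => ‖ℓ (s j w - x)‖) (fun _ _ => by positivity) fun j _ => by
      refine le_trans (mul_le_mul_of_nonneg_left ?_ (by positivity)) (h2 j)
      rw [← dist_eq_norm]
      exact hcon _ (hs.mem hm j)
  simp only [Finset.prod_const, Finset.card_univ, Fintype.card_fin] at h6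
  rw [mul_pow, ← pow_mul] at h6
  have h7 : M ^ B.k / (B.R / 2) * dist w (B.π x) < (1 / 8 : ℝ) ^ (B.k * B.k) * r ^ B.k := by
    refine (mul_lt_mul_of_pos_left hd (by positivity)).trans_eq ?_
    field_simp
  linarith

end BC

end Crest.Agent.X261.Ans.Hk
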