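import Crest.Agent.X261.Ans.HkB

/-!
# Row 261, package ANS (helper14), file `HkC`

Global propagation (`prp_all`, `prp_compact`) and the Harnack inequality (`harnack_loc`, `harnack`)
on a space `Z` with local branched cover models and a dense connected set of one-sheeted points.
-/

set_option autoImplicit false
set_option linter.dupNamespace false
set_option linter.unusedSectionVars false

open Set Filter Topology Metric

noncomputable section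

namespace Crest.Agent.X261.Ans.Hk

open Crest.Agent.X261.Psh

/-- local model of `Z` at `z`, adapted to the family `ψ` with errors `A` -/
structure Model (E F : Type*) [NormedAddCommGroup E] [NormedSpace ℂ E]
    [NormedAddCommGroup F] [NormedSpace ℂ F] {X ι : Type*} [TopologicalSpace X]
    (Z : Set X) (ψ : ι → X → EReal) (A : ι → ℝ) (z : X) where
  B : BC E F
  e : X → E
  e' : E → X
  V : Set X
  U : Set E
  c : ℝ
  V_open : IsOpen V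
  mem : z ∈ V
  maps : ∀ x ∈ Z, x ∈ V → e x ∈ B.Y ∧ e' (e x) = x
  maps' : ∀ y ∈ B.Y, e' y ∈ Z ∧ e' y ∈ V ∧ e (e' y) = y
  cont : ContinuousOn e V
  cont' : ContinuousOn e' B.Y
  ctr : B.π (e z) = B.c
  c_nonneg : 0 ≤ c
  U_open : IsOpen U
  sub : B.Y ⊆ U
  psh : ∀ i, ∃ u, IsPsh U u ∧ ∀ y ∈ B.Y, ψ i (e' y) ≤ u y + ((c * A i : ℝ) : EReal) ∧
    u y ≤ ψ i (e' y) + ((c * A i : ℝ) : EReal)

variable {E F : Type*} [NormedAddCommGroup E] [NormedSpace ℂ E] [FiniteDimensional ℂ E]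
  [NormedAddCommGroup F] [NormedSpace ℂ F] [FiniteDimensional ℂ F]
  {X ι : Type*} [TopologicalSpace X] {Z : Set X} {ψ : ι → X → EReal} {A : ι → ℝ} {z : X}

namespace Model

variable (M : Model E F Z ψ A z)

/-- the inner neighbourhood -/
def inner : Set X := {x | x ∈ M.V ∧ (x ∈ Z → M.B.π (M.e x) ∈ ball M.B.c (M.B.R / 4))}

theorem tendsto_e {x : X} (hx : x ∈ M.V) : Tendsto M.e (𝓝[Z] x) (𝓝[M.B.Y] (M.e x)) := by
  refine tendsto_nhdsWithin_iff.2 ⟨(M.cont.continuousAt (M.V_open.mem_nhds hx)).tendsto.mono_left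
    nhdsWithin_le_nhds, ?_⟩
  filter_upwards [self_mem_nhdsWithin, nhdsWithin_le_nhds (M.V_open.mem_nhds hx)] with y h1 h2
  exact (M.maps y h1 h2).1

theorem inner_mem (hz : z ∈ Z) : M.inner ∈ 𝓝 z := by
  have h1 := (M.B.tendsto_pi (M.maps z hz M.mem).1).comp (M.tendsto_e M.mem)
  rw [M.ctr] at h1
  have h2 := eventually_nhdsWithin_iff.1 (h1.eventually
    (ball_mem_nhds M.B.c (by linarith [M.B.R_pos] : 0 < M.B.R / 4)))
  filter_upwards [h2, M.V_open.mem_nhds M.mem] with x h3 h4 using ⟨h4, h3⟩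

theorem prp_inner {O : Set F} (hO : IsOpen O) (hne : (O ∩ ball M.B.c M.B.R).Nonempty) {S : Set X}
    (hS : ∀ y ∈ M.B.Y, M.B.π y ∈ O → M.e' y ∈ S) : Prp Z ψ A S M.inner := by
  obtain ⟨θ, h1, h2, h3⟩ := M.B.prp hO hne (R' := M.B.R / 4) (by linarith [M.B.R_pos])
  refine ⟨θ, 2 * M.c, h1, h2, by linarith [M.c_nonneg], fun i a b hab hb ha x hx hx' => ?_⟩
  obtain ⟨u, hu, h4⟩ := M.psh i
  obtain ⟨h5, h6⟩ := M.maps x hx hx'.1
  have h7 := h3 M.U u (a + M.c * A i) (b + M.c * A i) M.U_open M.sub hu (by linarith)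
    (fun y hy => (h4 y hy).2.trans (add_le_coe (hb _ (M.maps' y hy).1) le_rfl))
    (fun y hy hy' => (h4 y hy).2.trans (add_le_coe (ha _ (M.maps' y hy).1 (hS y hy hy')) le_rfl))
    _ h5 (ball_subset_closedBall (hx'.2 hx))
  have h8 := (h4 _ h5).1
  rw [h6] at h8
  refine h8.trans ((add_le_coe h7 le_rfl).trans (le_of_eq ?_))
  congr 1; ring

theorem tendsto_sheet {W : Set F} {s : Fin M.B.k → F → E} (hs : M.B.Triv W s) {w : F}
    (hW : W ∈ 𝓝 w) (j : Fin M.B.k) :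
    Tendsto (fun w' => M.e' (s j w')) (𝓝 w) (𝓝 (M.e' (s j w))) := by
  refine (M.cont' _ (hs.mem (mem_of_mem_nhds hW) j).1).tendsto.comp
    (tendsto_nhdsWithin_iff.2 ⟨((hs.hol j).continuousOn.continuousAt hW).tendsto, ?_⟩)
  filter_upwards [hW] with w' hw' using (hs.mem hw' j).1

theorem prp_one (hk : M.B.k ≤ 1) {O : Set X} (hO : IsOpen O) (hne : (O ∩ M.V ∩ Z).Nonempty) :
    Prp Z ψ A O M.inner := by
  obtain ⟨x, ⟨hxO, hxV⟩, hxZ⟩ := hne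
  obtain ⟨h1, h2⟩ := M.maps x hxZ hxV
  have h3 : ∀ᶠ y in 𝓝[M.B.Y] (M.e x), M.e' y ∈ O :=
    (M.cont' _ h1).eventually (hO.mem_nhds (by rw [h2]; exact hxO))
  obtain ⟨w, h4, y, h5, h6⟩ := (M.B.freq_base h1 h3).exists
  have hw : w ∈ ball M.B.c M.B.R := h5.2 ▸ M.B.maps h5.1
  obtain ⟨ρ, hρ, s, hs⟩ := M.B.exists_triv hw h4
  rw [hs.fib w (mem_ball_self hρ)] at h5
  obtain ⟨j, hj⟩ := h5
  simp only at hj
  have h7 := (M.tendsto_sheet hs (ball_mem_nhds w hρ) j).eventually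
    (hO.mem_nhds (by rw [hj]; exact h6))
  obtain ⟨O', h8, h9, h10⟩ := _root_.eventually_nhds_iff.1 (h7.and (ball_mem_nhds w hρ))
  refine M.prp_inner h9 ⟨w, h10, hw⟩ fun y' hy' hy'' => ?_
  have h11 : y' ∈ M.B.fib (M.B.π y') := ⟨hy', rfl⟩
  rw [hs.fib _ (h8 _ hy'').2] at h11
  obtain ⟨i, hi⟩ := h11
  have : i = j := Fin.ext (by have := i.2; have := j.2; omega)
  simp only at hi
  rw [← hi, this]
  exact (h8 _ hy'').1

theorem sheet_nhds {W : Set F} {s : Fin M.B.k → F → E} (hs : M.B.Triv W s) {w : F}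
    (hW : W ∈ 𝓝 w) (j : Fin M.B.k) :
    ∀ᶠ x in 𝓝 (M.e' (s j w)), x ∈ Z → ∃ w' ∈ W, M.e' (s j w') = x := by
  obtain ⟨h1, h2, h3⟩ := M.maps' _ (hs.mem (mem_of_mem_nhds hW) j).1
  have h4 := M.tendsto_e h2
  rw [h3] at h4
  have h5 := h4.eventually (eventually_nhdsWithin_iff.2 (hs.ev_sheet hW j))
  rw [← eventually_nhdsWithin_iff]
  filter_upwards [h5, self_mem_nhdsWithin, nhdsWithin_le_nhds (M.V_open.mem_nhds h2)]
    with x h6 h7 h8
  exact ⟨_, h6.1, by rw [h6.2, (M.maps x h7 h8).2]⟩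

theorem prp_sheet {w₁ : F} {ρ ρ' : ℝ} (hρ : ρ' < ρ) {s : Fin M.B.k → F → E}
    (hs : M.B.Triv (ball w₁ ρ) s) (j : Fin M.B.k) {O : Set X} (hO : IsOpen O) {w : F}
    (hw : w ∈ ball w₁ ρ) (hwO : M.e' (s j w) ∈ O) :
    Prp Z ψ A O ((fun w' => M.e' (s j w')) '' closedBall w₁ ρ') := by
  have : ProperSpace F := FiniteDimensional.proper ℂ F
  obtain ⟨O', h1, h2, h3⟩ := _root_.eventually_nhds_iff.1
    ((M.tendsto_sheet hs (isOpen_ball.mem_nhds hw) j).eventually (hO.mem_nhds hwO))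
  obtain ⟨θ, h4, h5, h6⟩ := conn_prp isOpen_ball (convex_ball w₁ ρ).isPreconnected h2 ⟨w, h3, hw⟩
    (isCompact_closedBall w₁ ρ') (closedBall_subset_ball hρ)
  refine ⟨θ, 2 * M.c, h4, h5, by linarith [M.c_nonneg], fun i a b hab hb ha x _ hx' => ?_⟩
  obtain ⟨u, hu, h7⟩ := M.psh i
  obtain ⟨w', hw', rfl⟩ := hx'
  have h8 := h6 _ (a + M.c * A i) (b + M.c * A i)
    (hs.isPsh_comp M.U_open hu (fun _ _ _ hy => M.sub hy.1) j) (by linarith)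
    (fun v hv => (h7 _ (hs.mem hv j).1).2.trans
      (add_le_coe (hb _ (M.maps' _ (hs.mem hv j).1).1) le_rfl))
    (fun v hv hv' => (h7 _ (hs.mem hv j).1).2.trans
      (add_le_coe (ha _ (M.maps' _ (hs.mem hv j).1).1 (h1 v hv')) le_rfl)) w' hw'
  refine (h7 _ (hs.mem (closedBall_subset_ball hρ hw') j).1).1.trans
    ((add_le_coe h8 le_rfl).trans (le_of_eq ?_))
  congr 1; ring

end Model

/-- the standing hypotheses: local models everywhere, one-sheeted on a dense connected subset -/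
structure Good (E F : Type*) [NormedAddCommGroup E] [NormedSpace ℂ E]
    [NormedAddCommGroup F] [NormedSpace ℂ F] {X ι : Type*} [TopologicalSpace X]
    (Z : Set X) (ψ : ι → X → EReal) (A : ι → ℝ) : Prop where
  nonneg : ∀ i, 0 ≤ A i
  model : ∀ z ∈ Z, Nonempty (Model E F Z ψ A z)
  reg : ∃ Z₀ ⊆ Z, IsPreconnected Z₀ ∧ Z ⊆ closure Z₀ ∧
    ∀ z ∈ Z₀, ∃ M : Model E F Z ψ A z, M.B.k ≤ 1

namespace Good

/-- **global propagation** -/
theorem prp_all (h : Good E F Z ψ A) {O : Set X} (hO : IsOpen O) (hne : (O ∩ Z).Nonempty) :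
    ∀ z ∈ Z, ∃ N ∈ 𝓝 z, Prp Z ψ A O N := by
  obtain ⟨Z₀, h0, hc, hd, h1⟩ := h.reg
  have h2 : ∀ z ∈ Z₀, ∃ N ∈ 𝓝 z, Prp Z ψ A O N := by
    refine prp_conn hc (fun z hz => ?_) hO ?_
    · obtain ⟨M, hM⟩ := h1 z hz
      exact ⟨M.inner, M.inner_mem (h0 hz), fun O' hO' ⟨x, hx⟩ =>
        M.prp_one hM hO' ⟨x, ⟨hx.1.1, hx.1.2.1⟩, h0 hx.2⟩⟩
    · obtain ⟨x, hx⟩ := hne
      exact mem_closure_iff.1 (hd hx.2) O hO hx.1
  intro z hz
  obtain ⟨M⟩ := h.model z hz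
  obtain ⟨w₁, δ, s, hδ, hw₁, hs⟩ := M.B.exists_triv_near
  have hm : w₁ ∈ ball w₁ (4 * δ) := mem_ball_self (by linarith)
  have h3 : ∀ j, Prp Z ψ A O ((fun w' => M.e' (s j w')) '' closedBall w₁ δ) := by
    intro j
    obtain ⟨x, h4, h5⟩ := mem_closure_iff_nhds.1 (hd (M.maps' _ (hs.mem hm j).1).1) _
      (M.sheet_nhds hs (isOpen_ball.mem_nhds hm) j)
    obtain ⟨w, hw, hwx⟩ := h4 (h0 h5)
    obtain ⟨N, hN, h6⟩ := h2 x h5
    exact (h6.trans (Prp.of_subset fun _ _ hy => interior_subset hy)).trans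
      (M.prp_sheet (by linarith) hs j isOpen_interior hw
        (by rw [hwx]; exact mem_interior_iff_mem_nhds.2 hN))
  refine ⟨M.inner, M.inner_mem hz, (Prp.iUnion h.nonneg h3).trans
    (M.prp_inner (O := ball w₁ δ) isOpen_ball ⟨w₁, mem_ball_self hδ, hs.sub hm⟩
      fun y hy hy' => ?_)⟩
  have h7 : y ∈ M.B.fib (M.B.π y) := ⟨hy, rfl⟩
  rw [hs.fib _ (ball_subset_ball (by linarith) hy')] at h7
  obtain ⟨j, hj⟩ := h7
  exact mem_iUnion.2 ⟨j, _, ball_subset_closedBall hy', congrArg M.e' hj⟩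

theorem prp_compact (h : Good E F Z ψ A) {O : Set X} (hO : IsOpen O) (hne : (O ∩ Z).Nonempty)
    {K : Set X} (hK : IsCompact K) (hKZ : K ⊆ Z) : Prp Z ψ A O K :=
  Prp.of_compact h.nonneg hK fun z hz => h.prp_all hO hne z (hKZ hz)

/-- a lower bound at one point of `K` gives a lower bound somewhere in `O` -/
theorem exists_ge (h : Good E F Z ψ A) {O : Set X} (hO : IsOpen O) (hne : (O ∩ Z).Nonempty)
    {K : Set X} (hK : IsCompact K) (hKZ : K ⊆ Z) :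
    ∃ C : ℝ, 0 ≤ C ∧ ∀ (i : ι) (a b σ : ℝ), 0 ≤ σ → (∀ y ∈ Z, ψ i y ≤ b) →
      (∃ p ∈ K, ((b - σ : ℝ) : EReal) ≤ ψ i p) → (∀ y ∈ Z, y ∈ O → ψ i y ≤ a) →
      b - a ≤ C * (σ + A i) := by
  obtain ⟨θ, C, h1, h2, h3, h4⟩ := h.prp_compact hO hne hK hKZ
  refine ⟨(1 + C) / θ, by positivity, fun i a b σ hσ hb ⟨p, hp, hp'⟩ ha => ?_⟩
  have hA := h.nonneg i
  by_cases hab : a ≤ b
  · have h5 := EReal.coe_le_coe_iff.1 (hp'.trans (h4 i a b hab hb ha p (hKZ hp) hp))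
    rw [div_mul_eq_mul_div, le_div_iff₀ h1]
    nlinarith [mul_nonneg h3 hσ]
  · have : 0 ≤ (1 + C) / θ * (σ + A i) := by positivity
    linarith

/-- **Harnack inequality**, local form -/
theorem harnack_loc (h : Good E F Z ψ A) {K : Set X} (hK : IsCompact K) (hKZ : K ⊆ Z)
    (M : Model E F Z ψ A z) :
    ∃ C : ℝ, 0 ≤ C ∧ ∀ x ∈ Z, x ∈ M.inner → ∀ (i : ι) (a b σ r : ℝ), 0 ≤ σ →
      (∀ y ∈ Z, ψ i y ≤ b) → (∃ p ∈ K, ((b - σ : ℝ) : EReal) ≤ ψ i p) → 0 < r → r ≤ 1 →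
      (∀ y ∈ Z, y ∈ M.V → dist (M.e y) (M.e x) < r → ψ i y ≤ a) →
      b - a ≤ C * (σ + A i) * (1 - Real.log r) := by
  obtain ⟨w₁, δ, s, hδ, hw₁, hs⟩ := M.B.exists_triv_near
  obtain ⟨C, hC, h1⟩ := M.B.harnack hδ hw₁ hs
  have hsub : ball w₁ δ ⊆ ball w₁ (4 * δ) := ball_subset_ball (by linarith)
  have h2 : ∀ j, ∃ C : ℝ, 0 ≤ C ∧ ∀ (i : ι) (a b σ : ℝ), 0 ≤ σ → (∀ y ∈ Z, ψ i y ≤ b) →
      (∃ p ∈ K, ((b - σ : ℝ) : EReal) ≤ ψ i p) → (∀ w ∈ ball w₁ δ, ψ i (M.e' (s j w)) ≤ a) →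
      b - a ≤ C * (σ + A i) := by
    intro j
    obtain ⟨O, h3, h4, h5⟩ := _root_.eventually_nhds_iff.1
      (M.sheet_nhds (hs.mono hsub) (ball_mem_nhds w₁ hδ) j)
    obtain ⟨C, hC, h6⟩ := h.exists_ge h4
      ⟨_, h5, (M.maps' _ (hs.mem (hsub (mem_ball_self hδ)) j).1).1⟩ hK hKZ
    refine ⟨C, hC, fun i a b σ hσ hb hp ha => h6 i a b σ hσ hb hp fun y hy hy' => ?_⟩
    obtain ⟨w, hw, rfl⟩ := h3 y hy' hy
    exact ha w hw
  choose C' hC' h3 using h2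
  have hc := M.c_nonneg
  set C₀ : ℝ := 2 * M.c + ∑ j, C' j with hC₀
  have hs0 : 0 ≤ ∑ j, C' j := Finset.sum_nonneg fun j _ => hC' j
  refine ⟨C * C₀, by positivity, fun x hx hx' i a b σ r hσ hb hp hr hr1 ha => ?_⟩
  obtain ⟨u, hu, h4⟩ := M.psh i
  have hA := h.nonneg i
  have hl : 0 < 1 - Real.log r := by linarith [Real.log_nonpos hr.le hr1]
  refine le_of_forall_pos_le_add fun ε hε => ?_
  set η : ℝ := ε / (C * (1 - Real.log r) + 1) with hη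
  have hη0 : 0 < η := by positivity
  have h5 := h1 M.U u (a + M.c * A i) (b + M.c * A i) (C₀ * (σ + A i) + η) r M.U_open M.sub hu
    (by positivity) (fun y hy => (h4 y hy).2.trans (add_le_coe (hb _ (M.maps' y hy).1) le_rfl))
    (fun j => ?_) hr hr1 _ (M.maps x hx hx'.1).1 (hx'.2 hx) fun y hy hy' =>
      (h4 y hy).2.trans (add_le_coe (ha _ (M.maps' y hy).1 (M.maps' y hy).2.1
        (by rwa [(M.maps' y hy).2.2])) le_rfl)
  · have h6 : η * (C * (1 - Real.log r) + 1) = ε := by rw [hη]; field_simp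
    nlinarith
  · by_contra hcon
    push Not at hcon
    have h6 := h3 j i _ b σ hσ hb hp fun w hw =>
      (h4 _ (hs.mem (hsub hw) j).1).1.trans (add_le_coe (hcon w hw).le le_rfl)
    have h7 : C' j ≤ ∑ j, C' j := Finset.single_le_sum (fun j _ => hC' j) (Finset.mem_univ j)
    have h8 := mul_le_mul_of_nonneg_right h7 (add_nonneg hσ hA)
    have h9 := mul_nonneg hc hσ
    simp only [hC₀] at h6
    nlinarith

/-- **Harnack inequality**, uniform on compact sets, for any family of "balls" `Bl x r` which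
contain chart balls of comparable radius -/
theorem harnack (h : Good E F Z ψ A) {K K' : Set X} (hK : IsCompact K) (hKZ : K ⊆ Z)
    (hK' : IsCompact K') (hKZ' : K' ⊆ Z) (Bl : X → ℝ → Set X)
    (hBl : ∀ z ∈ K', ∃ (M : Model E F Z ψ A z) (Λ : ℝ), 1 ≤ Λ ∧ ∀ᶠ x in 𝓝 z, x ∈ Z →
      ∀ r : ℝ, 0 < r → r ≤ 1 → ∀ y ∈ Z, y ∈ M.V → dist (M.e y) (M.e x) < r / Λ → y ∈ Bl x r) :
    ∃ C : ℝ, 0 ≤ C ∧ ∀ x ∈ K', ∀ (i : ι) (a b σ r : ℝ), 0 ≤ σ →
      (∀ y ∈ Z, ψ i y ≤ b) → (∃ p ∈ K, ((b - σ : ℝ) : EReal) ≤ ψ i p) → 0 < r → r ≤ 1 →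
      (∀ y ∈ Z, y ∈ Bl x r → ψ i y ≤ a) → b - a ≤ C * (σ + A i) * (1 - Real.log r) := by
  have key : ∃ C : ℝ, 0 ≤ C ∧ ∀ x ∈ K', x ∈ Z → ∀ (i : ι) (a b σ r : ℝ), 0 ≤ σ →
      (∀ y ∈ Z, ψ i y ≤ b) → (∃ p ∈ K, ((b - σ : ℝ) : EReal) ≤ ψ i p) → 0 < r → r ≤ 1 →
      (∀ y ∈ Z, y ∈ Bl x r → ψ i y ≤ a) → b - a ≤ C * (σ + A i) * (1 - Real.log r) := by
    refine hK'.induction_on (p := fun S => ∃ C : ℝ, 0 ≤ C ∧ ∀ x ∈ S, x ∈ Z →
      ∀ (i : ι) (a b σ r : ℝ), 0 ≤ σ →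
      (∀ y ∈ Z, ψ i y ≤ b) → (∃ p ∈ K, ((b - σ : ℝ) : EReal) ≤ ψ i p) → 0 < r → r ≤ 1 →
      (∀ y ∈ Z, y ∈ Bl x r → ψ i y ≤ a) → b - a ≤ C * (σ + A i) * (1 - Real.log r))
      ⟨0, le_rfl, by simp⟩ (fun S T hST ⟨C, hC, h1⟩ => ⟨C, hC, fun x hx => h1 x (hST hx)⟩)
      (fun S T ⟨C, hC, h1⟩ ⟨C', hC', h2⟩ => ⟨C + C', by positivity,
        fun x hx hxZ i a b σ r hσ hb hp hr hr1 ha => ?_⟩) fun z hz => ?_
    · have hl : 0 ≤ (σ + A i) * (1 - Real.log r) :=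
        mul_nonneg (add_nonneg hσ (h.nonneg i)) (by linarith [Real.log_nonpos hr.le hr1])
      rcases hx with hx | hx
      · nlinarith [h1 x hx hxZ i a b σ r hσ hb hp hr hr1 ha, mul_nonneg hC' hl]
      · nlinarith [h2 x hx hxZ i a b σ r hσ hb hp hr hr1 ha, mul_nonneg hC hl]
    · obtain ⟨M, Λ, hΛ, h1⟩ := hBl z hz
      obtain ⟨C, hC, h2⟩ := h.harnack_loc hK hKZ M
      have hΛ0 : 0 ≤ Real.log Λ := Real.log_nonneg hΛ
      refine ⟨_, mem_nhdsWithin_of_mem_nhds (inter_mem h1 (M.inner_mem (hKZ' hz))),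
        C * (1 + Real.log Λ), by positivity, fun x hx hxZ i a b σ r hσ hb hp hr hr1 ha => ?_⟩
      have h3 := h2 x hxZ hx.2 i a b σ (r / Λ) hσ hb hp (by positivity)
        ((div_le_one (by linarith)).2 (hr1.trans hΛ))
        fun y hy hy' hd => ha y hy (hx.1 hxZ r hr hr1 y hy hy' hd)
      rw [Real.log_div hr.ne' (by linarith)] at h3
      have h4 : 1 - (Real.log r - Real.log Λ) ≤ (1 + Real.log Λ) * (1 - Real.log r) := by
        nlinarith [Real.log_nonpos hr.le hr1]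
      have h5 := mul_le_mul_of_nonneg_left h4 (mul_nonneg hC (add_nonneg hσ (h.nonneg i)))
      linarith
  obtain ⟨C, hC, h1⟩ := key
  exact ⟨C, hC, fun x hx => h1 x hx (hKZ' hx)⟩

end Good

end Crest.Agent.X261.Ans.Hk
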