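import Crest.Agent.X261.Ans.HkC
import Crest.Agent.X261.Ans.Man1

/-!
# Row 261, package ANS (helper14), file `HkD`

The Harnack inequality on irreducible analytic subsets of manifolds (`HA` language), assuming the
existence of local branched covers (`CoverStmt`, proved in `HkE`).
-/

set_option autoImplicit false
set_option linter.dupNamespace false
set_option linter.unusedSectionVars false

open Set Filter Topology Metric

noncomputable section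

namespace Crest.Agent.X261.Ans.Hk

open Crest.Agent.X261.Psh

variable {E : Type} [NormedAddCommGroup E] [NormedSpace ℂ E] [FiniteDimensional ℂ E]

/-- arbitrarily small centred branched cover models of `Z` at `x`, with at most `k` sheets -/
def HasBC (Z : Set E) (d : ℕ) (x : E) (P : ℕ → Prop) : Prop :=
  ∀ N ∈ 𝓝 x, ∃ (B : BC E (Fin d → ℂ)) (W : Set E), IsOpen W ∧ x ∈ W ∧ W ⊆ N ∧ B.Y = Z ∩ W ∧
    B.π x = B.c ∧ P B.k

/-- existence of branched cover models for pure dimensional germs -/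
def CoverStmt (E : Type) [NormedAddCommGroup E] [NormedSpace ℂ E] : Prop :=
  ∀ (Z : Set E) (d : ℕ) (x : E), x ∈ Z → AnAt Z x →
    (∀ᶠ y in 𝓝 x, y ∈ Z → y ∈ closure {z | Reg Z d z}) → HasBC Z d x fun _ => True

theorem hasBC_of_reg {Z : Set E} {d : ℕ} {x : E} (h : Reg Z d x) : HasBC Z d x (· ≤ 1) := by
  obtain ⟨hx, φ, ρ, hφ, hρ, h1, h2⟩ := h
  intro N hN
  obtain ⟨N', h3, h4, h5⟩ := _root_.eventually_nhds_iff.1
    (h2.and (hρ.eventually_analyticAt.and hN))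
  have hx' : φ (ρ x) = x := (h3 x h5).1 hx
  have h6 : ∀ᶠ t in 𝓝 (ρ x), φ t ∈ N' :=
    hφ.continuousAt.eventually (h4.mem_nhds (by rw [hx']; exact h5))
  obtain ⟨R, hR, h7⟩ := Metric.eventually_nhds_iff_ball.1 (h1.and (hφ.eventually_analyticAt.and h6))
  have hρc : ContinuousOn ρ N' := fun y hy => (h3 y hy).2.1.continuousAt.continuousWithinAt
  have hφd : DifferentiableOn ℂ φ (ball (ρ x) R) := fun t ht =>
    (h7 t ht).2.1.differentiableAt.differentiableWithinAt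
  have hmem : ∀ t ∈ ball (ρ x) R, φ t ∈ Z ∩ (N' ∩ ρ ⁻¹' ball (ρ x) R) := fun t ht =>
    ⟨(h7 t ht).1.1, (h7 t ht).2.2, by rw [mem_preimage, (h7 t ht).1.2]; exact ht⟩
  refine ⟨⟨Z ∩ (N' ∩ ρ ⁻¹' ball (ρ x) R), ρ, ρ x, R, fun _ => 1, 1, hR,
    hρc.mono fun y hy => hy.2.1, fun y hy => hy.2.2, fun K hK hKc => ?_,
    differentiableOn_const _, ⟨_, mem_ball_self hR, one_ne_zero⟩, fun w hw _ => ?_,
    fun y hy => ?_⟩, N' ∩ ρ ⁻¹' ball (ρ x) R, hρc.isOpen_inter_preimage h4 isOpen_ball,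
    ⟨h5, mem_ball_self hR⟩, fun y hy => (h3 y hy.1).2.2, rfl, rfl, le_rfl⟩
  · have : Z ∩ (N' ∩ ρ ⁻¹' ball (ρ x) R) ∩ ρ ⁻¹' K = φ '' K := by
      ext y
      refine ⟨fun hy => ⟨ρ y, hy.2, (h3 y hy.1.2.1).1 hy.1.1⟩, ?_⟩
      rintro ⟨t, ht, rfl⟩
      exact ⟨hmem t (hK ht), by rw [mem_preimage, (h7 t (hK ht)).1.2]; exact ht⟩
    rw [this]
    exact hKc.image_of_continuousOn (hφd.continuousOn.mono hK)
  · refine ⟨ball (ρ x) R, isOpen_ball.mem_nhds hw, fun _ => φ, fun _ => hφd,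
      fun _ _ => Function.injective_of_subsingleton _, fun w' hw' y => ⟨fun hy => ⟨0, ?_⟩, ?_⟩⟩
    · rw [← hy.2]; exact (h3 y hy.1.2.1).1 hy.1.1
    · rintro ⟨_, rfl⟩
      exact ⟨hmem w' hw', (h7 w' hw').1.2⟩
  · exact Frequently.filter_mono (frequently_pure.2 ⟨hy, one_ne_zero⟩) (pure_le_nhds y)

variable {M : Type} [TopologicalSpace M] {ι : Type*}

/-- the family `ψ` is psh up to the errors `c * a i` along `Z` near `z`, in the chart `j` -/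
def QL (A : HA E M) (Z : Set M) (ψ : ι → M → EReal) (a : ι → ℝ) (z : M) (j : A.ι) : Prop :=
  z ∈ (A.e j).source ∧ ∃ W : Set E, IsOpen W ∧ A.e j z ∈ W ∧ ∃ c : ℝ, 0 ≤ c ∧ ∀ i, ∃ u,
    IsPsh W u ∧ ∀ y ∈ Z, y ∈ (A.e j).source → A.e j y ∈ W →
      ψ i y ≤ u (A.e j y) + ((c * a i : ℝ) : EReal) ∧ u (A.e j y) ≤ ψ i y + ((c * a i : ℝ) : EReal)

variable {A : HA E M} {Z U Y : Set M} {ψ : ι → M → EReal} {a : ι → ℝ} {z : M} {d : ℕ}

/-- `QL` does not depend on the chart -/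
theorem QL.chart {j j' : A.ι} (h : QL A Z ψ a z j) (hz : z ∈ (A.e j').source) :
    QL A Z ψ a z j' := by
  obtain ⟨h1, W, hW, h2, c, hc, h3⟩ := h
  have h4 := A.holo j' j
  have h5 := h4.continuousOn.isOpen_inter_preimage (A.isOpen_ov j' j) hW
  refine ⟨hz, _, h5, ⟨⟨(A.e j').map_source hz, by rwa [(A.e j').left_inv hz]⟩, by
    simpa [(A.e j').left_inv hz] using h2⟩, c, hc, fun i => ?_⟩
  obtain ⟨u, hu, h6⟩ := h3 i
  refine ⟨_, Hol.comp_hol hW hu (h4.mono inter_subset_left) fun y hy => hy.2,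
    fun y hy hy' hy'' => ?_⟩
  have h7 := hy''.1.2
  have h8 := hy''.2
  simp only [mem_preimage, (A.e j').left_inv hy'] at h7 h8 ⊢
  exact h6 y hy h7 h8

theorem QL.mono {j : A.ι} (h : QL A Z ψ a z j) {Z' : Set M} (hZ : Z' ⊆ Z) : QL A Z' ψ a z j := by
  obtain ⟨h1, W, hW, h2, c, hc, h3⟩ := h
  exact ⟨h1, W, hW, h2, c, hc, fun i => (h3 i).imp fun u hu =>
    ⟨hu.1, fun y hy => hu.2 y (hZ hy)⟩⟩

/-- the usual way to get `QL`: `ψ i + a i • ρ` is psh in the chart, `ρ` continuous -/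
theorem ql_of_pot {j : A.ι} (hz : z ∈ (A.e j).source) (ha : ∀ i, 0 ≤ a i) {W : Set E}
    (hW : W ∈ 𝓝 (A.e j z)) {ρ : E → ℝ} (hρ : ContinuousAt ρ (A.e j z))
    (h : ∀ i, IsPsh W fun w => ψ i ((A.e j).symm w) + ((a i * ρ w : ℝ) : EReal)) (Z : Set M) :
    QL A Z ψ a z j := by
  have h1 : ∀ᶠ w in 𝓝 (A.e j z), |ρ w| < |ρ (A.e j z)| + 1 :=
    hρ.abs.eventually (gt_mem_nhds (by linarith))
  obtain ⟨W', h2, h3, h4⟩ := _root_.eventually_nhds_iff.1 (h1.and hW)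
  refine ⟨hz, W', h3, h4, |ρ (A.e j z)| + 1, by positivity, fun i =>
    ⟨_, (h i).mono fun w hw => (h2 w hw).2, fun y _ hy hy' => ?_⟩⟩
  have h5 := abs_lt.1 (h2 _ hy').1
  have h6 := ha i
  simp only [(A.e j).left_inv hy]
  constructor
  · rw [add_assoc, ← EReal.coe_add]
    exact le_add_of_nonneg_right (EReal.coe_nonneg.2 (by nlinarith))
  · exact add_le_add_right (EReal.coe_le_coe_iff.2 (by nlinarith)) _

theorem exists_model {j : A.ι} (h : QL A Z ψ a z j) {Z' : Set M} {P : ℕ → Prop}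
    (hB : HasBC ((A.e j).symm ⁻¹' Z') d (A.e j z) P) (hZ : ∀ᶠ y in 𝓝 z, y ∈ Z ↔ y ∈ Z')
    {N : Set M} (hN : N ∈ 𝓝 z) :
    ∃ m : Model E (Fin d → ℂ) Z ψ a z, P m.B.k ∧ m.e = A.e j ∧ m.V ⊆ N ∩ (A.e j).source := by
  obtain ⟨h1, W, hW, h2, c, hc, h3⟩ := h
  obtain ⟨B, W', h4, h5, h6, h7, h8, h9⟩ := hB _ (((HA.ev_chart h1).1 (hZ.and hN)).and
    (((A.e j).open_target.eventually_mem ((A.e j).map_source h1)).and (hW.eventually_mem h2)))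
  have hY : ∀ y ∈ B.Y, y ∈ W' := fun y hy => (h7 ▸ hy : y ∈ _ ∩ W').2
  have hYZ : ∀ y ∈ B.Y, (A.e j).symm y ∈ Z := fun y hy =>
    (h6 (hY y hy)).1.1.2 (h7 ▸ hy : y ∈ _ ∩ W').1
  refine ⟨⟨B, A.e j, (A.e j).symm, (A.e j).source ∩ A.e j ⁻¹' W', W, c,
    (A.e j).isOpen_inter_preimage h4, ⟨h1, h5⟩, fun x hx hx' => ⟨?_, (A.e j).left_inv hx'.1⟩,
    fun y hy => ⟨hYZ y hy, ⟨(A.e j).map_target (h6 (hY y hy)).2.1, ?_⟩,
      (A.e j).right_inv (h6 (hY y hy)).2.1⟩, (A.e j).continuousOn.mono inter_subset_left,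
    (A.e j).continuousOn_symm.mono fun y hy => (h6 (hY y hy)).2.1, h8, hc, hW,
    fun y hy => (h6 (hY y hy)).2.2, fun i => ?_⟩, h9, rfl, fun x hx => ⟨?_, hx.1⟩⟩
  · rw [h7]
    refine ⟨(h6 hx'.2).1.1.1 ?_, hx'.2⟩
    rwa [(A.e j).left_inv hx'.1]
  · rw [mem_preimage, (A.e j).right_inv (h6 (hY y hy)).2.1]; exact hY y hy
  · obtain ⟨u, hu, h10⟩ := h3 i
    refine ⟨u, hu, fun y hy => ?_⟩
    have h11 := (A.e j).right_inv (h6 (hY y hy)).2.1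
    have := h10 _ (hYZ y hy) ((A.e j).map_target (h6 (hY y hy)).2.1)
      (by rw [h11]; exact (h6 (hY y hy)).2.2)
    rwa [h11] at this
  · have := (h6 hx.2).1.2
    rwa [(A.e j).left_inv hx.1] at this

/-- a regular point read in another chart (special case of `HA.reg_iff`) -/
theorem reg_chart {x : M} (h : A.Reg Y d x) {j : A.ι} (hx : x ∈ (A.e j).source) :
    Reg ((A.e j).symm ⁻¹' Y) d (A.e j x) := by
  obtain ⟨i, hi, hx', φ, ρ, hφ, hρ, h1, h2⟩ := h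
  have hφx : φ (ρ (A.e i x)) = A.e i x := h2.self_of_nhds hx'
  have e1 : (A.e i).symm (A.e i x) = x := (A.e i).left_inv hi
  have e2 : (A.e j).symm (A.e j x) = x := (A.e j).left_inv hx
  have t1 := HA.tr_an (A := A) hi hx
  have t2 := HA.tr_an (A := A) hx hi
  have hT : Tendsto φ (𝓝 (ρ (A.e i x))) (𝓝 (A.e i x)) := by
    have := hφ.continuousAt.tendsto
    rwa [hφx] at this
  refine ⟨by simpa [e1, e2] using hx', fun t => A.e j ((A.e i).symm (φ t)),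
    fun y => ρ (A.e i ((A.e j).symm y)), ?_, ?_, ?_, ?_⟩
  · simp only [e2]
    exact AnalyticAt.comp_of_eq (g := fun z => A.e j ((A.e i).symm z)) (f := φ) t1 hφ hφx
  · exact AnalyticAt.comp_of_eq hρ t2 (by simp only [e2])
  · simp only [e2]
    filter_upwards [h1, hT.eventually ((HA.ev_chart hi).1 ((A.e j).open_source.eventually_mem hx)),
      hT.eventually ((A.e i).open_target.eventually_mem ((A.e i).map_source hi))] with t h3 h4 h5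
    simp only [mem_preimage, (A.e j).left_inv h4, (A.e i).right_inv h5]
    exact h3
  · filter_upwards [(HA.ev_chart hx).1 ((HA.ev_chart' hi).1 h2),
      (HA.ev_chart hx).1 ((A.e i).open_source.eventually_mem hi),
      (A.e j).open_target.eventually_mem ((A.e j).map_source hx)] with y h3 h4 h5 h6
    rw [h3 (by rwa [mem_preimage, (A.e i).left_inv h4]), (A.e i).left_inv h4, (A.e j).right_inv h5]

theorem hasBC_irr (hc : CoverStmt E) (hU : IsOpen U) (hY : A.Irr U Y d) (hz : z ∈ U ∩ Y) {j : A.ι}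
    (hj : z ∈ (A.e j).source) : HasBC ((A.e j).symm ⁻¹' Y) d (A.e j z) fun _ => True := by
  refine hc _ d _ (by rw [mem_preimage, (A.e j).left_inv hj]; exact hz.2)
    ((HA.anAt_iff hj).1 (hY.1 z hz.1)) ?_
  filter_upwards [(HA.ev_chart hj).1 (hU.eventually_mem hz.1),
    (A.e j).open_target.eventually_mem ((A.e j).map_source hj)] with y h1 h2 h3
  have h4 := (A.e j).map_target h2
  have h5 := (HA.fr_chart h4).1 ((mem_closure_iff_frequently.1 (hY.2.2.2 ⟨h1, h3⟩)).and_eventually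
    ((A.e j).open_source.eventually_mem h4))
  rw [(A.e j).right_inv h2] at h5
  refine mem_closure_iff_frequently.2
    ((h5.and_eventually ((A.e j).open_target.eventually_mem h2)).mono fun w hw => ?_)
  have := reg_chart hw.1.1.2 hw.1.2
  rwa [(A.e j).right_inv hw.2] at this

/-- models in any chart, inside any neighbourhood -/
theorem exists_model_irr (hc : CoverStmt E) (hU : IsOpen U) (hY : A.Irr U Y d)
    (hψ : ∀ z ∈ U ∩ Y, ∃ j, QL A (U ∩ Y) ψ a z j) (hz : z ∈ U ∩ Y) {j : A.ι}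
    (hj : z ∈ (A.e j).source) {N : Set M} (hN : N ∈ 𝓝 z) :
    ∃ m : Model E (Fin d → ℂ) (U ∩ Y) ψ a z, m.e = A.e j ∧ m.V ⊆ N ∩ (A.e j).source := by
  obtain ⟨j', h1⟩ := hψ z hz
  obtain ⟨m, -, h2⟩ := exists_model (h1.chart hj) (hasBC_irr hc hU hY hz hj)
    ((hU.eventually_mem hz.1).mono fun y hy => ⟨fun h => h.2, fun h => ⟨hy, h⟩⟩) hN
  exact ⟨m, h2⟩

theorem good_of_irr (hc : CoverStmt E) (hU : IsOpen U) (hY : A.Irr U Y d) (ha : ∀ i, 0 ≤ a i)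
    (hψ : ∀ z ∈ U ∩ Y, ∃ j, QL A (U ∩ Y) ψ a z j) : Good E (Fin d → ℂ) (U ∩ Y) ψ a := by
  have hsub : {y | y ∈ U ∧ A.Reg Y d y} ⊆ U ∩ Y := fun y hy => by
    obtain ⟨i, hi, h1, -⟩ := hy.2
    exact ⟨hy.1, by rwa [mem_preimage, (A.e i).left_inv hi] at h1⟩
  refine ⟨ha, fun z hz => ?_, _, hsub, hY.2.2.1, hY.2.2.2, fun z hz => ?_⟩
  · obtain ⟨j, h1⟩ := hψ z hz
    obtain ⟨m, -⟩ := exists_model_irr hc hU hY hψ hz h1.1 univ_mem
    exact ⟨m⟩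
  · obtain ⟨j, h1⟩ := hψ z (hsub hz)
    obtain ⟨m, h2, -⟩ := exists_model h1 (hasBC_of_reg (reg_chart hz.2 h1.1))
      ((hU.eventually_mem hz.1).mono fun y hy => ⟨fun h => h.2, fun h => ⟨hy, h⟩⟩) univ_mem
    exact ⟨m, h2⟩

section main

variable (hc : CoverStmt E) (hU : IsOpen U) (hY : A.Irr U Y d) (ha : ∀ i, 0 ≤ a i)
  (hψ : ∀ z ∈ U ∩ Y, ∃ j, QL A (U ∩ Y) ψ a z j) {K : Set M} (hK : IsCompact K) (hKY : K ⊆ U ∩ Y)

include hc hU hY ha hψ hK hKY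

/-- **global Harnack inequality**: fixed open set `O` -/
theorem irr_open {O : Set M} (hO : IsOpen O) (hne : (O ∩ (U ∩ Y)).Nonempty) :
    ∃ C : ℝ, 0 ≤ C ∧ ∀ (i : ι) (α β σ : ℝ), 0 ≤ σ → (∀ y ∈ U ∩ Y, ψ i y ≤ β) →
      (∃ p ∈ K, ((β - σ : ℝ) : EReal) ≤ ψ i p) → (∀ y ∈ U ∩ Y, y ∈ O → ψ i y ≤ α) →
      β - α ≤ C * (σ + a i) :=
  (good_of_irr hc hU hY ha hψ).exists_ge hO hne hK hKY

/-- **Harnack inequality** near a point `z`, with balls of any chart `j` and inside any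
neighbourhood `N` -/
theorem irr_loc (hz : z ∈ U ∩ Y) {j : A.ι} (hj : z ∈ (A.e j).source) {N : Set M} (hN : N ∈ 𝓝 z) :
    ∃ C : ℝ, 0 ≤ C ∧ ∀ᶠ x in 𝓝 z, x ∈ U ∩ Y → ∀ (i : ι) (α β σ r : ℝ), 0 ≤ σ →
      (∀ y ∈ U ∩ Y, ψ i y ≤ β) → (∃ p ∈ K, ((β - σ : ℝ) : EReal) ≤ ψ i p) → 0 < r → r ≤ 1 →
      (∀ y ∈ U ∩ Y, y ∈ N → y ∈ (A.e j).source → dist (A.e j y) (A.e j x) < r → ψ i y ≤ α) →
      β - α ≤ C * (σ + a i) * (1 - Real.log r) := by
  obtain ⟨m, h1, h2⟩ := exists_model_irr hc hU hY hψ hz hj hN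
  obtain ⟨C, hC, h3⟩ := (good_of_irr hc hU hY ha hψ).harnack_loc hK hKY m
  refine ⟨C, hC, ?_⟩
  filter_upwards [m.inner_mem hz] with x hx hxY i α β σ r hσ hβ hp hr hr1 hα
  exact h3 x hxY hx i α β σ r hσ hβ hp hr hr1 fun y hy hy' hd =>
    hα y hy (h2 hy').1 (h2 hy').2 (by rwa [h1] at hd)

/-- **Harnack inequality**, uniform on a compact set `K'`, for any family of "balls" which locally
contain chart balls of comparable radius -/
theorem irr_harnack {K' : Set M} (hK' : IsCompact K') (hKY' : K' ⊆ U ∩ Y) (Bl : M → ℝ → Set M)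
    (hBl : ∀ z ∈ K', ∃ (j : A.ι) (Λ : ℝ), z ∈ (A.e j).source ∧ 1 ≤ Λ ∧ ∃ N ∈ 𝓝 z, ∀ x ∈ N,
      ∀ y ∈ N, x ∈ U ∩ Y → y ∈ U ∩ Y → ∀ r : ℝ, 0 < r → r ≤ 1 →
        dist (A.e j y) (A.e j x) < r / Λ → y ∈ Bl x r) :
    ∃ C : ℝ, 0 ≤ C ∧ ∀ x ∈ K', ∀ (i : ι) (α β σ r : ℝ), 0 ≤ σ →
      (∀ y ∈ U ∩ Y, ψ i y ≤ β) → (∃ p ∈ K, ((β - σ : ℝ) : EReal) ≤ ψ i p) → 0 < r → r ≤ 1 →
      (∀ y ∈ U ∩ Y, y ∈ Bl x r → ψ i y ≤ α) → β - α ≤ C * (σ + a i) * (1 - Real.log r) := by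
  refine (good_of_irr hc hU hY ha hψ).harnack hK hKY hK' hKY' Bl fun z hz => ?_
  obtain ⟨j, Λ, hj, hΛ, N, hN, h1⟩ := hBl z hz
  obtain ⟨m, h2, h3⟩ := exists_model_irr hc hU hY hψ (hKY' hz) hj hN
  refine ⟨m, Λ, hΛ, ?_⟩
  filter_upwards [hN] with x hx hxY r hr hr1 y hy hy' hd
  exact h1 x hx y (h3 hy').1 hxY hy r hr hr1 (by rwa [h2] at hd)

/-- **PROP**: logarithmic poles along `Y` have bounded order, locally uniformly in the pole -/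
theorem irr_pole (hz : z ∈ U ∩ Y) {j : A.ι} (hj : z ∈ (A.e j).source) :
    ∃ C : ℝ, 0 ≤ C ∧ ∀ᶠ x in 𝓝 z, x ∈ U ∩ Y → ∀ (i : ι) (β σ t C' : ℝ), 0 ≤ σ →
      (∀ y ∈ U ∩ Y, ψ i y ≤ β) → (∃ p ∈ K, ((β - σ : ℝ) : EReal) ≤ ψ i p) →
      (∃ᶠ r : ℝ in 𝓝[>] 0, ∀ y ∈ U ∩ Y, y ∈ (A.e j).source → dist (A.e j y) (A.e j x) < r →
        ψ i y ≤ ((t * Real.log r + C' : ℝ) : EReal)) → t ≤ C * (σ + a i) := by
  obtain ⟨C, hC, h1⟩ := irr_loc hc hU hY ha hψ hK hKY hz hj univ_mem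
  refine ⟨C, hC, h1.mono fun x hx hxY i β σ t C' hσ hβ hp ht => ?_⟩
  by_contra hcon
  push Not at hcon
  have h2 : Tendsto (fun r : ℝ => (t - C * (σ + a i)) * Real.log r) (𝓝[>] 0) atBot :=
    Real.tendsto_log_nhdsGT_zero.const_mul_atBot (sub_pos.2 hcon)
  have h8 : ∀ᶠ r : ℝ in 𝓝[>] 0, 0 < r := self_mem_nhdsWithin
  have h9 : ∀ᶠ r : ℝ in 𝓝[>] 0, r ≤ 1 := nhdsWithin_le_nhds (ge_mem_nhds one_pos)
  obtain ⟨r, h3, h4, h5, h6⟩ := (ht.and_eventually ((h2.eventually_lt_atBot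
    (β - C' - C * (σ + a i))).and (h8.and h9))).exists
  have h7 := hx hxY i _ β σ r hσ hβ hp h5 h6 fun y hy _ => h3 y hy
  nlinarith

end main

end Crest.Agent.X261.Ans.Hk
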