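import Crest.Agent.X261.Ans.Box

/-!
# X261/Ans/Str (helper8): sheets

Off the zero set of one holomorphic function of the base, an analytic set in a box is a finite
union of disjoint holomorphic sheets.
-/

set_option autoImplicit false
set_option linter.unusedSectionVars false

open Set Filter Topology Metric Polynomial Module

namespace Crest.Agent.X261.Ans

noncomputable section

variable {F G : Type} [NormedAddCommGroup F] [NormedSpace ℂ F] [FiniteDimensional ℂ F]
  [NormedAddCommGroup G] [NormedSpace ℂ G] [FiniteDimensional ℂ G]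

/-- unramified point of a family -/
def Unr (α : F → Multiset G) (z : F) : Prop :=
  ∃ S : G → F → G, (∀ w ∈ α z, AnalyticAt ℂ (S w) z ∧ S w z = w) ∧
    ∀ᶠ y in 𝓝 z, α y = (α z).map fun w => S w y

/-- over a neighbourhood of `z`, the part of `Z` in `B` is a finite union of holomorphic sheets -/
def Sheets (Z : Set (F × G)) (B : Set G) (z : F) : Prop :=
  ∃ (T : Finset G) (S : G → F → G), (∀ w ∈ T, AnalyticAt ℂ (S w) z ∧ S w z = w) ∧
    ∀ᶠ y in 𝓝 z, ∀ u, (u ∈ B ∧ (y, u) ∈ Z) ↔ ∃ w ∈ T, S w y = u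

/-- a linear form which vanishes at no point of a finite set of nonzero vectors -/
theorem exists_dual_ne {T : Set G} (hT : T.Finite) (h0 : ∀ v ∈ T, v ≠ 0) :
    ∃ μ : G →L[ℂ] ℂ, ∀ v ∈ T, μ v ≠ 0 := by
  induction T, hT using Set.Finite.induction_on with
  | empty => exact ⟨0, fun _ h => h.elim⟩
  | @insert a s _ hs ih =>
    obtain ⟨f, hf0⟩ := ih fun y hy => h0 y (mem_insert_of_mem _ hy)
    obtain ⟨g, -, hg⟩ := exists_dual_vector ℂ a (norm_ne_zero_iff.2 (h0 a (mem_insert _ _)))
    have hg0 : g a ≠ 0 := by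
      rw [hg]
      exact RCLike.ofReal_ne_zero.2 (norm_ne_zero_iff.2 (h0 a (mem_insert _ _)))
    have hfin : ((fun y => - f y / g y) '' insert a s).Finite := (hs.insert a).image _
    obtain ⟨t, ht⟩ := hfin.infinite_compl.nonempty
    refine ⟨f + t • g, ?_⟩
    intro y hy h0
    simp only [add_apply, smul_apply, smul_eq_mul] at h0
    by_cases hgy : g y = 0
    · rcases hy with rfl | hy
      · exact hg0 hgy
      · apply hf0 y hy
        simpa [hgy] using h0
    · apply ht
      refine ⟨y, hy, ?_⟩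
      field_simp
      linear_combination -h0

theorem exists_dual_inj {T : Set G} (hT : T.Finite) : ∃ μ : G →L[ℂ] ℂ, InjOn μ T := by
  obtain ⟨μ, hμ⟩ := exists_dual_ne (T := {v | v ∈ image2 (· - ·) T T ∧ v ≠ 0})
    ((hT.image2 _ hT).subset fun v hv => hv.1) fun v hv => hv.2
  refine ⟨μ, fun a ha b hb hab => ?_⟩
  by_contra hne
  exact hμ (a - b) ⟨mem_image2_of_mem ha hb, sub_ne_zero.2 hne⟩ (by rw [map_sub, hab, sub_self])

theorem exists_sep {X : Type*} [MetricSpace X] {T : Set X} (hT : T.Finite) :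
    ∃ ρ : ℝ, 0 < ρ ∧ ∀ w ∈ T, ∀ w' ∈ T, w ≠ w' → 2 * ρ < dist w w' := by
  have h1 : ∀ᶠ ρ : ℝ in 𝓝[>] 0, ∀ w ∈ T, ∀ w' ∈ T, w ≠ w' → 2 * ρ < dist w w' := by
    rw [eventually_all_finite hT]
    intro w _
    rw [eventually_all_finite hT]
    intro w' _
    by_cases hne : w = w'
    · exact Eventually.of_forall fun _ h => (h hne).elim
    · have h2 : 0 < dist w w' / 2 := half_pos (dist_pos.2 hne)
      filter_upwards [mem_nhdsWithin_of_mem_nhds (Iio_mem_nhds h2)] with ρ hρ _
      rw [mem_Iio] at hρ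
      linarith
  obtain ⟨ρ, h3, h5⟩ := (h1.and self_mem_nhdsWithin).exists
  exact ⟨ρ, h5, h3⟩

theorem coeff_of_psum {s : F → Multiset ℂ} {z : F}
    (hp : ∀ j, AnalyticAt ℂ (fun y => ((s y).map fun a => a ^ j).sum) z) (k : ℕ) :
    AnalyticAt ℂ (fun y => (chi (s y)).coeff k) z := by
  have hcard : ∀ᶠ y in 𝓝 z, (s y).card = (s z).card := by
    refine nat_eventually_eq (g := fun y => (s y).card) ?_
    simpa using (hp 0).continuousAt
  by_cases hk : k ≤ (s z).card
  · obtain ⟨P, hP⟩ := newton_ms ((s z).card - k)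
    have h1 := (analyticAt_const (v := (-1 : ℂ) ^ ((s z).card - k))).mul (an_eval hp P)
    refine h1.congr ?_
    filter_upwards [hcard] with y hy
    show _ = (chi _).coeff k
    rw [chi, Multiset.prod_X_sub_C_coeff _ (hy ▸ hk), hy, ← hP]
    rfl
  · refine (analyticAt_const (v := (0 : ℂ))).congr ?_
    filter_upwards [hcard] with y hy
    refine (coeff_eq_zero_of_natDegree_lt ?_).symm
    rw [chi_natDegree, hy]
    omega

theorem sum_add_pow (s : Multiset ℂ) (a : ℂ) (k : ℕ) : (s.map fun b => (a + b) ^ k).sum =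
    ∑ m ∈ Finset.range (k + 1), a ^ m * (s.map fun b => b ^ (k - m)).sum * (k.choose m : ℂ) := by
  induction s using Multiset.induction_on with
  | empty => simp
  | cons b s ih =>
    rw [Multiset.map_cons, Multiset.sum_cons, ih, add_pow]
    simp only [Multiset.map_cons, Multiset.sum_cons, mul_add, add_mul, Finset.sum_add_distrib]

/-- the multiset of differences -/
def difs (μ : G →L[ℂ] ℂ) (s : Multiset G) : Multiset ℂ :=
  s.bind fun w => s.map fun w' => μ w - μ w'

theorem HF.difs_coeff {α : F → Multiset G} {z : F} (h : HF α z) (μ : G →L[ℂ] ℂ) (k : ℕ) :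
    AnalyticAt ℂ (fun y => (chi (difs μ (α y))).coeff k) z := by
  refine coeff_of_psum (fun j => ?_) k
  have hμ : ∀ p : F × G, AnalyticAt ℂ (fun p : F × G => μ p.2) p := fun p =>
    (μ.analyticAt _).comp analyticAt_snd
  have h1 := h (fun p => ∑ m ∈ Finset.range (j + 1), μ p.2 ^ m *
      (((α p.1).map fun w => (- μ w) ^ (j - m)).sum) * (j.choose m : ℂ)) (fun w _ => by
    refine Finset.analyticAt_fun_sum _ fun m _ => (((hμ _).pow m).mul ?_).mul analyticAt_const
    exact AnalyticAt.comp (g := fun y => ((α y).map fun w => (- μ w) ^ (j - m)).sum)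
      (f := Prod.fst) (h (fun p => (- μ p.2) ^ (j - m)) fun w _ => (hμ _).neg.pow _)
      analyticAt_fst)
  refine h1.congr (Eventually.of_forall fun y => ?_)
  beta_reduce
  rw [difs, Multiset.map_bind, Multiset.sum_bind]
  congr 1
  refine Multiset.map_congr rfl fun w _ => ?_
  have h2 := sum_add_pow ((α y).map fun w => - μ w) (μ w) j
  simp only [Multiset.map_map, Function.comp_def] at h2 ⊢
  rw [← h2]
  simp only [sub_eq_add_neg]

open Classical in
/-- the number of coincidences -/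
def nco (s : Multiset G) : ℕ := (s.map fun w => s.count w).sum

open Classical in
theorem count_difs (μ : G →L[ℂ] ℂ) (s : Multiset G) :
    (difs μ s).count 0 = (s.map fun w => (s.filter fun w' => μ w = μ w').card).sum := by
  rw [difs, Multiset.count_bind]
  congr 1
  refine Multiset.map_congr rfl fun w _ => ?_
  rw [Multiset.count_map]
  congr 1
  exact Multiset.filter_congr fun w' _ => by rw [eq_comm, sub_eq_zero]

theorem nco_le (μ : G →L[ℂ] ℂ) (s : Multiset G) : nco s ≤ (difs μ s).count 0 := by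
  classical
  rw [count_difs, nco]
  refine Multiset.sum_map_le_sum_map _ _ fun w _ => ?_
  rw [Multiset.count_eq_card_filter_eq]
  exact Multiset.card_le_card (Multiset.monotone_filter_right _ fun w' hw' => by rw [hw'])

theorem nco_eq {μ : G →L[ℂ] ℂ} {s : Multiset G} (h : InjOn μ {w | w ∈ s}) :
    (difs μ s).count 0 = nco s := by
  classical
  rw [count_difs, nco]
  congr 1
  refine Multiset.map_congr rfl fun w hw => ?_
  rw [Multiset.count_eq_card_filter_eq]
  congr 1
  exact Multiset.filter_congr fun w' hw' => ⟨fun h' => h hw hw' h', fun h' => by rw [h']⟩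

/-- a local minimum of the number of coincidences is an unramified point -/
theorem HF.unr {α : F → Multiset G} {z : F} (h : HF α z)
    (hmin : ∀ᶠ y in 𝓝 z, nco (α z) ≤ nco (α y)) : Unr α z := by
  classical
  obtain ⟨ρ, hρ, hsep⟩ := exists_sep (α z).finite_toSet
  have huniq : ∀ w ∈ α z, ∀ w' ∈ α z, ∀ u, u ∈ ball w ρ → u ∈ closedBall w' ρ → w = w' := by
    intro w hw w' hw' u hu hu'
    by_contra hne
    have h1 := hsep w hw w' hw' hne
    have h2 := dist_triangle_left w w' u
    rw [mem_ball] at hu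
    rw [mem_closedBall] at hu'
    linarith
  let β : G → F → Multiset G := fun w y => (α y).filter fun u => u ∈ ball w ρ
  have hβ : ∀ w ∈ α z, HF (β w) z := fun w hw =>
    h.filter (fun p => p.2 ∈ ball w ρ) fun w' hw' => by
      by_cases hww : w' = w
      · subst hww
        exact Or.inl (continuous_snd.continuousAt.preimage_mem_nhds (ball_mem_nhds _ hρ))
      · refine Or.inr (continuous_snd.continuousAt.eventually
          (p := fun u => u ∉ ball w ρ) ?_)
        filter_upwards [ball_mem_nhds w' hρ] with u hu hu'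
        exact hww (huniq w' hw' w hw u hu (ball_subset_closedBall hu'))
  have hβz : ∀ w ∈ α z, β w z = Multiset.replicate ((α z).count w) w := by
    intro w hw
    rw [← Multiset.filter_eq']
    exact Multiset.filter_congr fun u hu => ⟨fun h' =>
      (huniq w hw u hu u h' (mem_closedBall_self hρ.le)).symm, fun h' => h' ▸ mem_ball_self hρ⟩
  let c : G → G := fun u => if h : ∃ w ∈ α z, u ∈ ball w ρ then h.choose else u
  have hc : ∀ w ∈ α z, ∀ u ∈ ball w ρ, c u = w := by
    intro w hw u hu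
    have h1 : ∃ w ∈ α z, u ∈ ball w ρ := ⟨w, hw, hu⟩
    simp only [c, dif_pos h1]
    exact huniq _ h1.choose_spec.1 w hw u h1.choose_spec.2 (ball_subset_closedBall hu)
  have hpos : ∀ w ∈ α z, (((α z).count w : ℕ) : ℂ) ≠ 0 := fun w hw =>
    Nat.cast_ne_zero.2 (Multiset.count_pos.2 hw).ne'
  refine ⟨fun w y => ((((α z).count w : ℕ) : ℂ))⁻¹ • ((β w y).map fun u => u).sum,
    fun w hw => ⟨?_, ?_⟩, ?_⟩
  · exact ((hβ w hw).tr_vec (f := fun p => p.2) fun _ _ => analyticAt_snd).fun_const_smul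
  · beta_reduce
    rw [hβz w hw, Multiset.map_id', Multiset.sum_replicate, ← Nat.cast_smul_eq_nsmul ℂ,
      inv_smul_smul₀ (hpos w hw)]
  · have h1 : ∀ᶠ y in 𝓝 z, ∀ w ∈ {w | w ∈ α z}, (β w y).card = (α z).count w := by
      rw [eventually_all_finite (α z).finite_toSet]
      intro w hw
      filter_upwards [(hβ w hw).card] with y hy
      rw [hy, hβz w hw, Multiset.card_replicate]
    have h2 := h.usc' (N := {u | ∃ w ∈ α z, u ∈ ball w ρ}) fun w hw =>
      mem_of_superset (ball_mem_nhds w hρ) fun u hu => ⟨w, hw, hu⟩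
    filter_upwards [h1, h2, hmin] with y hy1 hy2 hy3
    have hcu : ∀ u ∈ α y, c u ∈ α z ∧ u ∈ ball (c u) ρ := fun u hu => by
      obtain ⟨w, hw, huw⟩ := hy2 u hu
      rw [hc w hw u huw]
      exact ⟨hw, huw⟩
    have h3 : (α y).map c = α z := by
      ext w
      rw [Multiset.count_map]
      by_cases hw : w ∈ α z
      · rw [← hy1 w hw]
        congr 1
        exact Multiset.filter_congr fun u hu => ⟨fun h' => h' ▸ (hcu u hu).2,
          fun h' => (hc w hw u h').symm⟩
      · rw [Multiset.count_eq_zero_of_notMem hw, Multiset.card_eq_zero, Multiset.filter_eq_nil]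
        intro u hu h'
        exact hw (h' ▸ (hcu u hu).1)
    have h4 : ∀ u ∈ α y, Multiset.replicate ((α y).count u) u ≤ β (c u) y := fun u hu => by
      rw [← Multiset.filter_eq']
      exact Multiset.monotone_filter_right _ fun u' hu' => hu' ▸ (hcu u hu).2
    have h5 : ∀ u ∈ α y, (α y).count u ≤ (α z).count (c u) := fun u hu => by
      rw [← hy1 _ (hcu u hu).1]
      simpa using Multiset.card_le_card (h4 u hu)
    have h6 : ∀ u ∈ α y, (α y).count u = (α z).count (c u) := by
      intro u hu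
      by_contra hne
      have h7 := Multiset.sum_lt_sum h5 ⟨u, hu, lt_of_le_of_ne (h5 u hu) hne⟩
      have h8 : ((α y).map fun u => (α z).count (c u)).sum = nco (α z) := by
        rw [nco]
        conv_rhs => rw [← h3, Multiset.map_map, h3]
        rfl
      rw [h8] at h7
      exact absurd hy3 (not_le.2 h7)
    conv_rhs => rw [← h3, Multiset.map_map, h3]
    conv_lhs => rw [← Multiset.map_id' (α y)]
    refine Multiset.map_congr rfl fun u hu => ?_
    have h9 : β (c u) y = Multiset.replicate ((α z).count (c u)) u := by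
      rw [← h6 u hu]
      refine (Multiset.eq_of_le_of_card_le (h4 u hu) ?_).symm
      rw [Multiset.card_replicate, hy1 _ (hcu u hu).1, h6 u hu]
    simp only [Function.comp_def]
    rw [h9, Multiset.map_id', Multiset.sum_replicate, ← Nat.cast_smul_eq_nsmul ℂ,
      inv_smul_smul₀ (hpos _ (hcu u hu).1)]

theorem exists_unr {α : F → Multiset G} {V : Set F} (hV : IsOpen V) (hne : V.Nonempty)
    (h : ∀ z ∈ V, HF α z) :
    ∃ δ : F → ℂ, AnalyticOnNhd ℂ δ V ∧ (∃ z ∈ V, δ z ≠ 0) ∧ ∀ z ∈ V, δ z ≠ 0 → Unr α z := by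
  obtain ⟨z₀, hz₀, hmin⟩ := (measure fun z => nco (α z)).wf.has_min V hne
  have hmin' : ∀ z ∈ V, nco (α z₀) ≤ nco (α z) := fun z hz => not_lt.1 (hmin z hz)
  obtain ⟨μ, hμ⟩ := exists_dual_inj (α z₀).finite_toSet
  refine ⟨fun y => (chi (difs μ (α y))).coeff (nco (α z₀)), fun z hz => (h z hz).difs_coeff μ _,
    ⟨z₀, hz₀, ?_⟩, fun z hz h0 => (h z hz).unr ?_⟩
  · beta_reduce
    rw [← nco_eq hμ]
    exact chi_coeff_count _
  · filter_upwards [hV.mem_nhds hz] with y hy
    exact ((nco_le μ _).trans (count_le_of_coeff h0)).trans (hmin' y hy)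

/-- **structure of a box** -/
theorem PBox.struct {Z : Set (F × G)} {V : Set F} {B : Set G} {α : F → Multiset G}
    (h : PBox Z V B α) (hV : IsOpen V) (hc : IsPreconnected V) (hne : V.Nonempty)
    (hB : IsOpen B) :
    ∃ δ : F → ℂ, AnalyticOnNhd ℂ δ V ∧ (∃ z ∈ V, δ z ≠ 0) ∧ ∀ z ∈ V, δ z ≠ 0 → Sheets Z B z := by
  classical
  obtain ⟨δ, hδ, hδ0, hδu⟩ := exists_unr hV hne h.hf
  let n : F → ℕ := fun y => ((α y).filter fun w => (y, w) ∈ Z).card
  obtain ⟨z₀, hz₀, hmin⟩ := (measure n).wf.has_min V hne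
  have hmin' : ∀ z ∈ V, n z₀ ≤ n z := fun z hz => not_lt.1 (hmin z hz)
  obtain ⟨f, hf, hf0⟩ := h.cut.exists_ne
    (T := (fun w => (z₀, w)) '' {w | w ∈ α z₀ ∧ (z₀, w) ∉ Z})
    (((α z₀).finite_toSet.subset fun w hw => hw.1).image _) (by
      rintro _ ⟨w, hw, rfl⟩
      exact ⟨⟨hz₀, h.sub _ hz₀ w hw.1⟩, hw.2⟩)
  have hle : ∀ y ∈ V, n y ≤ ((α y).map fun w => f (y, w)).count 0 := fun y hy => by
    rw [Multiset.count_map]
    refine Multiset.card_le_card (Multiset.le_filter.2 ⟨Multiset.filter_le _ _, fun w hw => ?_⟩)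
    rw [Multiset.mem_filter] at hw
    exact (hf.2 _ ⟨hy, h.sub y hy w hw.1⟩ hw.2).symm
  have heq : ((α z₀).map fun w => f (z₀, w)).count 0 = n z₀ := by
    refine le_antisymm ?_ (hle z₀ hz₀)
    rw [Multiset.count_map]
    refine Multiset.card_le_card (Multiset.le_filter.2 ⟨Multiset.filter_le _ _, fun w hw => ?_⟩)
    rw [Multiset.mem_filter] at hw
    by_contra hn
    exact hf0 _ ⟨w, ⟨hw.1, hn⟩, rfl⟩ hw.2.symm
  let c : F → ℂ := fun y => (chi ((α y).map fun w => f (y, w))).coeff (n z₀)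
  have hca : AnalyticOnNhd ℂ c V := fun z hz =>
    (h.hf z hz).coeff (fun w hw => hf.1 _ ⟨hz, h.sub z hz w hw⟩) _
  have hc0 : c z₀ ≠ 0 := by
    simp only [c]
    rw [← heq]
    exact chi_coeff_count _
  have hn : ∀ y ∈ V, c y ≠ 0 → n y = n z₀ := fun y hy h0 =>
    le_antisymm ((hle y hy).trans (count_le_of_coeff h0)) (hmin' y hy)
  refine ⟨fun y => δ y * c y, fun z hz => (hδ z hz).mul (hca z hz),
    R266.SCV.exists_mul_ne_zero hV hc hδ hca hδ0 ⟨z₀, hz₀, hc0⟩, fun z hz h0 => ?_⟩
  obtain ⟨S, hS, hSe⟩ := hδu z hz (left_ne_zero_of_mul h0)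
  have hcz := right_ne_zero_of_mul h0
  refine ⟨((α z).filter fun w => (z, w) ∈ Z).toFinset, S, fun w hw => hS w
    (Multiset.mem_filter.1 (Multiset.mem_toFinset.1 hw)).1, ?_⟩
  have h1 : ∀ᶠ y in 𝓝 z, ∀ w ∈ {w | w ∈ α z}, (y, S w y) ∈ Z → (z, w) ∈ Z := by
    rw [eventually_all_finite (α z).finite_toSet]
    intro w hw
    by_cases hwZ : (z, w) ∈ Z
    · exact Eventually.of_forall fun _ _ => hwZ
    · have h2 : AnAt Z (z, w) := h.cut.anAt ((hV.prod hB).mem_nhds ⟨hz, h.sub z hz w hw⟩)
      have h3 : Tendsto (fun y => (y, S w y)) (𝓝 z) (𝓝 (z, w)) := by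
        have h4 := continuousAt_id.prodMk (hS w hw).1.continuousAt
        rwa [ContinuousAt, id, (hS w hw).2] at h4
      filter_upwards [h3.eventually (h2.eventually_notMem hwZ)] with y hy hy'
      exact (hy hy').elim
  filter_upwards [hSe, h1, hV.mem_nhds hz, (hca z hz).continuousAt.eventually_ne hcz]
    with y hy1 hy2 hy3 hy4 u
  have h5 : ((α z).filter fun w => (y, S w y) ∈ Z) = (α z).filter fun w => (z, w) ∈ Z := by
    refine Multiset.eq_of_le_of_card_le (Multiset.le_filter.2 ⟨Multiset.filter_le _ _,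
      fun w hw => ?_⟩) ?_
    · rw [Multiset.mem_filter] at hw
      exact hy2 w hw.1 hw.2
    · have h6 : n z = n y := (hn z hz hcz).trans (hn y hy3 hy4).symm
      simp only [n] at h6
      rw [h6, hy1, Multiset.filter_map, Multiset.card_map]
      exact le_rfl
  constructor
  · rintro ⟨hu, huZ⟩
    have h7 := h.cov y hy3 u hu huZ
    rw [hy1] at h7
    obtain ⟨w, hw, rfl⟩ := Multiset.mem_map.1 h7
    exact ⟨w, Multiset.mem_toFinset.2 (Multiset.mem_filter.2 ⟨hw, hy2 w hw huZ⟩), rfl⟩
  · rintro ⟨w, hw, rfl⟩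
    rw [Multiset.mem_toFinset, ← h5, Multiset.mem_filter] at hw
    refine ⟨h.sub y hy3 _ ?_, hw.2⟩
    rw [hy1]
    exact Multiset.mem_map_of_mem _ hw.1

end

end Crest.Agent.X261.Ans
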