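import Crest.Agent.X261.Ans.HkD
import Crest.Agent.X261.Ans.Str
import Crest.Agent.X261.Ans.Reg
import Crest.Agent.X261.Ans.Cov2

/-!
# Row 261, package ANS (helper14), file `HkE`

Existence of branched cover models for pure dimensional germs (`coverStmt`), and the Harnack
inequality in the form `hk`.
-/

set_option autoImplicit false
set_option linter.dupNamespace false
set_option linter.unusedSectionVars false

open Set Filter Topology Metric Module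

noncomputable section

namespace Crest.Agent.X261.Ans.Hk

open Crest.Agent.X261.Psh

variable {E F : Type} [NormedAddCommGroup E] [NormedSpace ℂ E] [FiniteDimensional ℂ E]
  [NormedAddCommGroup F] [NormedSpace ℂ F] [FiniteDimensional ℂ F]

/-- box data for a holomorphic map `l` with an isolated fibre point -/
structure LBox (Z : Set E) (l : E → F) (x : E) (s r : ℝ) (δ : F → ℂ) : Prop where
  s_pos : 0 < s
  r_pos : 0 < r
  an : AnalyticOnNhd ℂ l (ball x r)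
  closed : ∀ y ∈ ball x r, l y ∈ ball (l x) s → y ∈ closure Z → y ∈ Z
  small : ∀ y ∈ Z, y ∈ ball x r → l y ∈ ball (l x) s → y ∈ ball x (r / 2)
  fin : ∀ t ∈ ball (l x) s, {y | y ∈ ball x r ∧ y ∈ Z ∧ l y = t}.Finite
  ctr : ∀ y ∈ Z, y ∈ ball x r → l y = l x → y = x
  hol : AnalyticOnNhd ℂ δ (ball (l x) s)
  ne : ∃ t ∈ ball (l x) s, δ t ≠ 0
  sheets : ∀ t ∈ ball (l x) s, δ t ≠ 0 → ∃ (T : Finset E) (S : E → F → E),
    (∀ w ∈ T, AnalyticAt ℂ (S w) t ∧ S w t = w) ∧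
      ∀ᶠ t' in 𝓝 t, ∀ u, (u ∈ ball x r ∧ u ∈ Z ∧ l u = t') ↔ ∃ w ∈ T, S w t' = u

theorem exists_lbox {Z : Set E} {x : E} (hZ : AnAt Z x) {l : E → F} (hl : AnalyticAt ℂ l x)
    (hiso : ∀ᶠ y in 𝓝[≠] x, y ∈ Z → l y ≠ l x) {N : Set E} (hN : N ∈ 𝓝 x) :
    ∃ s r δ, ball x r ⊆ N ∧ LBox Z l x s r δ := by
  have : CompleteSpace E := FiniteDimensional.complete ℂ E
  have : CompleteSpace F := FiniteDimensional.complete ℂ F
  set Z' : Set (F × E) := {p | p.2 ∈ Z ∧ l p.2 = p.1} with hZ'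
  have h1 : AnAt Z' (l x, x) :=
    (AnAt.preimage (f := Prod.snd) analyticAt_snd hZ).inter
      (anAt_eq (AnalyticAt.comp (g := l) (f := Prod.snd) hl analyticAt_snd) analyticAt_fst)
  obtain ⟨s, r, α, hs, hr, -, h2, h3, h4, h5⟩ := locbox h1
    (hiso.mono fun y hy h => hy h.1 h.2) (N := univ ×ˢ (N ∩ {y | AnalyticAt ℂ l y}))
    (prod_mem_nhds univ_mem (inter_mem hN hl.eventually_analyticAt))
  have h6 : ∀ y ∈ ball x r, y ∈ N ∧ AnalyticAt ℂ l y := fun y hy =>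
    (h2 (show (l x, y) ∈ ball (l x) r ×ˢ ball x r from ⟨mem_ball_self hr, hy⟩)).2
  obtain ⟨δ, h7, h8, h9⟩ := h3.struct isOpen_ball (convex_ball _ _).isPreconnected
    ⟨_, mem_ball_self hs⟩ isOpen_ball
  refine ⟨s, r, δ, fun y hy => (h6 y hy).1, hs, hr, fun y hy => (h6 y hy).2,
    fun y hy hy' hc => ?_, fun y hy hy' hy'' => h4 _ hy'' _ (h3.cov _ hy'' _ hy' ⟨hy, rfl⟩),
    fun t ht => (α t).finite_toSet.subset fun y hy => h3.cov _ ht _ hy.1 hy.2,
    fun y hy hy' hy'' => h5 _ (h3.cov _ (mem_ball_self hs) _ hy' ⟨hy, hy''⟩), h7, h8, h9⟩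
  have h10 : (l y, y) ∈ closure Z' := by
    have hc' : ContinuousAt (fun y => (l y, y)) y := (h6 y hy).2.continuousAt.prodMk continuousAt_id
    exact hc'.continuousWithinAt.mem_closure hc fun y' hy' => ⟨hy', rfl⟩
  exact (h3.cut.mem_of_closure ((isOpen_ball.prod isOpen_ball).mem_nhds ⟨hy', hy⟩) h10).1

namespace LBox

variable {Z : Set E} {l : E → F} {x : E} {s r : ℝ} {δ : F → ℂ}

/-- sheets with injectivity -/
theorem sheets' (h : LBox Z l x s r δ) {t : F} (ht : t ∈ ball (l x) s) (h0 : δ t ≠ 0) :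
    ∃ (T : Finset E) (S : E → F → E), (∀ w ∈ T, S w t = w) ∧ ∀ᶠ t' in 𝓝 t,
      (∀ w ∈ T, AnalyticAt ℂ (S w) t') ∧ InjOn (fun w => S w t') T ∧
      ∀ u, (u ∈ ball x r ∧ u ∈ Z ∧ l u = t') ↔ ∃ w ∈ T, S w t' = u := by
  have : CompleteSpace E := FiniteDimensional.complete ℂ E
  obtain ⟨T, S, h1, h2⟩ := h.sheets t ht h0
  refine ⟨T, S, fun w hw => (h1 w hw).2, ?_⟩
  have h3 : ∀ᶠ t' in 𝓝 t, ∀ w ∈ T, AnalyticAt ℂ (S w) t' :=
    (eventually_all_finset T).2 fun w hw => (h1 w hw).1.eventually_analyticAt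
  have h4 : ∀ᶠ t' in 𝓝 t, ∀ w ∈ T, ∀ w' ∈ T, w ≠ w' → S w t' ≠ S w' t' := by
    refine (eventually_all_finset T).2 fun w hw => (eventually_all_finset T).2 fun w' hw' =>
      eventually_imp_distrib_left.2 fun hne => ?_
    have h5 := ((h1 w hw).1.continuousAt.sub (h1 w' hw').1.continuousAt).eventually_ne
      (y := 0) (by simpa [(h1 w hw).2, (h1 w' hw').2, sub_eq_zero] using hne)
    exact h5.mono fun t' h6 => sub_ne_zero.1 h6
  filter_upwards [h2, h3, h4] with t' h5 h6 h7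
  exact ⟨h6, fun w hw w' hw' he => by_contra fun hne => h7 w hw w' hw' hne he, h5⟩

/-- points over `δ ≠ 0` are regular -/
theorem reg (h : LBox Z l x s r δ) {y : E} (hy : y ∈ Z) (hy' : y ∈ ball x r)
    (ht : l y ∈ ball (l x) s) (h0 : δ (l y) ≠ 0) : Reg Z (finrank ℂ F) y := by
  obtain ⟨T, S, h1, h2⟩ := h.sheets' ht h0
  obtain ⟨w, hw, hwy⟩ := (h2.self_of_nhds.2.2 y).1 ⟨hy', hy, rfl⟩
  have hwy' : w = y := by rw [← hwy, h1 w hw]
  subst hwy'
  have hl := h.an w hy'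
  refine Reg.of_param (φ := S w) (ρ := l) hy (h2.self_of_nhds.1 w hw) hl
    (h2.mono fun t' h3 => ((h3.2.2 _).2 ⟨w, hw, rfl⟩).2) ?_
  have h3 : ∀ᶠ y in 𝓝 w, ∀ w' ∈ T, w' ≠ w → S w' (l y) ≠ y := by
    refine (eventually_all_finset T).2 fun w' hw' => eventually_imp_distrib_left.2 fun hne => ?_
    have h4 : ContinuousAt (fun y => S w' (l y) - y) w :=
      (ContinuousAt.comp (g := S w') (h2.self_of_nhds.1 w' hw').continuousAt
        hl.continuousAt).sub continuousAt_id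
    exact (h4.eventually_ne (y := 0) (by simpa [h1 w' hw', sub_eq_zero] using hne)).mono
      fun y h5 => sub_ne_zero.1 h5
  filter_upwards [h3, hl.continuousAt.eventually h2, isOpen_ball.mem_nhds hy'] with y h4 h5 h6 h7
  obtain ⟨w', hw', h8⟩ := (h5.2.2 y).1 ⟨h6, h7, rfl⟩
  by_cases h9 : w' = w
  · exact h9 ▸ h8
  · exact absurd h8 (h4 w' hw' h9)

theorem isOpen_box (h : LBox Z l x s r δ) : IsOpen (ball x r ∩ l ⁻¹' ball (l x) s) :=
  h.an.continuousOn.isOpen_inter_preimage isOpen_ball isOpen_ball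

theorem cov_zero (h : LBox Z l x s r δ) :
    Cov (finrank ℂ F) {t | t ∈ ball (l x) s ∧ δ t = 0} := by
  obtain ⟨t, ht, h0⟩ := h.ne
  exact cov_zeros' isOpen_ball (convex_ball _ _).isPreconnected h.hol ht h0

/-- regular points of the right dimension are limits of unbranched points -/
theorem freq (h : LBox Z l x s r δ) {y : E} (hy : Reg Z (finrank ℂ F) y) (hy' : y ∈ ball x r)
    (ht : l y ∈ ball (l x) s) : ∃ᶠ y' in 𝓝 y, y' ∈ Z ∧ δ (l y') ≠ 0 := by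
  intro hcon
  obtain ⟨φ, ρ, ε, N, hε, h1, h2, h3, h4, -, h6, h7⟩ := hy.chart
    (inter_mem hcon (h.isOpen_box.mem_nhds ⟨hy', ht⟩))
  have h8 : AnalyticOnNhd ℂ (fun t => l (φ t)) (ball (ρ y) ε) := fun t ht =>
    AnalyticAt.comp (g := l) (h.an _ (h3 (h6 t ht).2.1).2.1) (h4 t ht)
  obtain ⟨t, h9, h10⟩ := exists_inj_of_countable isOpen_ball ⟨_, mem_ball_self hε⟩ h8 fun v => by
    by_cases hv : v ∈ ball (l x) s
    · refine (((h.fin v hv).image ρ).subset fun t ht => ?_).countable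
      exact ⟨φ t, ⟨(h3 (h6 t ht.1).2.1).2.1, (h6 t ht.1).1, ht.2⟩, (h6 t ht.1).2.2⟩
    · refine Set.Subsingleton.countable fun t ht => absurd ?_ hv
      exact (show l (φ t) = v from ht.2) ▸ (h3 (h6 t ht.1).2.1).2.2
  refine not_cov_of_inj (h8 t h9) h10 (isOpen_ball.mem_nhds h9) ?_
  have e : finrank ℂ (Fin (finrank ℂ F) → ℂ) = finrank ℂ F := by simp
  rw [e]
  refine h.cov_zero.sub ?_
  rintro _ ⟨t', ht', rfl⟩
  refine ⟨(h3 (h6 t' ht').2.1).2.2, by_contra fun hne => (h3 (h6 t' ht').2.1).1 ⟨(h6 t' ht').1, hne⟩⟩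

/-- the branched cover of a box -/
theorem exists_bc (h : LBox Z l x s r δ)
    (hp : ∀ y ∈ Z, y ∈ ball x r → y ∈ closure {z | Reg Z (finrank ℂ F) z}) :
    ∃ B : BC E F, B.Y = Z ∩ (ball x r ∩ l ⁻¹' ball (l x) s) ∧ B.π = l ∧ B.c = l x ∧ B.R = s ∧
      B.Δ = δ := by
  classical
  have : ProperSpace E := FiniteDimensional.proper ℂ E
  set nf : F → ℕ := fun t => {u | u ∈ ball x r ∧ u ∈ Z ∧ l u = t}.ncard with hnf
  have h1 : ∀ t ∈ ball (l x) s, δ t ≠ 0 → ∃ (T : Finset E) (S : E → F → E), ∀ᶠ t' in 𝓝 t,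
      (∀ w ∈ T, AnalyticAt ℂ (S w) t') ∧ InjOn (fun w => S w t') T ∧
      (∀ u, (u ∈ ball x r ∧ u ∈ Z ∧ l u = t') ↔ ∃ w ∈ T, S w t' = u) ∧ nf t' = T.card := by
    intro t ht h0
    obtain ⟨T, S, -, h2⟩ := h.sheets' ht h0
    refine ⟨T, S, h2.mono fun t' h3 => ⟨h3.1, h3.2.1, h3.2.2, ?_⟩⟩
    have : {u | u ∈ ball x r ∧ u ∈ Z ∧ l u = t'} = (fun w => S w t') '' (T : Set E) :=
      Set.ext fun u => h3.2.2 u
    simp only [hnf]
    rw [this, h3.2.1.ncard_image, ncard_coe_finset]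
  have ho : IsOpen (ball (l x) s \ {t | t ∈ ball (l x) s ∧ δ t = 0}) := by
    have : ball (l x) s \ {t | t ∈ ball (l x) s ∧ δ t = 0} = ball (l x) s ∩ {t | δ t ≠ 0} := by
      ext t; simp only [Set.mem_sdiff, mem_ofPred_eq, mem_inter_iff]; tauto
    rw [this]
    exact isOpen_nz isOpen_ball h.hol.differentiableOn
  have hc := preconnected_diff isOpen_ball (convex_ball (l x) s).isPreconnected h.cov_zero ho
  have hcont : ContinuousOn nf (ball (l x) s \ {t | t ∈ ball (l x) s ∧ δ t = 0}) := by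
    intro t ht
    obtain ⟨T, S, h2⟩ := h1 t ht.1 fun h0 => ht.2 ⟨ht.1, h0⟩
    refine ContinuousAt.continuousWithinAt (continuousAt_const (y := T.card) |>.congr ?_)
    exact h2.mono fun t' h3 => h3.2.2.2.symm
  obtain ⟨t₀, ht₀, h0⟩ := h.ne
  refine ⟨⟨Z ∩ (ball x r ∩ l ⁻¹' ball (l x) s), l, l x, s, δ, nf t₀, h.s_pos,
    h.an.continuousOn.mono fun y hy => hy.2.1, fun y hy => hy.2.2, fun K hK hKc => ?_,
    h.hol.differentiableOn, ⟨t₀, ht₀, h0⟩, fun t ht h0' => ?_, fun y hy => ?_⟩,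
    rfl, rfl, rfl, rfl, rfl⟩
  · have hsub : closedBall x (r / 2) ⊆ ball x r := closedBall_subset_ball (by linarith [h.r_pos])
    have : Z ∩ (ball x r ∩ l ⁻¹' ball (l x) s) ∩ l ⁻¹' K =
        closure Z ∩ (closedBall x (r / 2) ∩ l ⁻¹' K) := by
      ext y
      exact ⟨fun hy => ⟨subset_closure hy.1.1,
        ball_subset_closedBall (h.small y hy.1.1 hy.1.2.1 hy.1.2.2), hy.2⟩,
        fun hy => ⟨⟨h.closed y (hsub hy.2.1) (hK hy.2.2) hy.1, hsub hy.2.1, hK hy.2.2⟩, hy.2.2⟩⟩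
    rw [this]
    refine IsCompact.inter_left ?_ isClosed_closure
    exact (isCompact_closedBall x (r / 2)).of_isClosed_subset
      ((h.an.continuousOn.mono hsub).preimage_isClosed_of_isClosed isClosed_closedBall
        hKc.isClosed) inter_subset_left
  · obtain ⟨T, S, h2⟩ := h1 t ht h0'
    have h3 : T.card = nf t₀ := by
      rw [← h2.self_of_nhds.2.2.2]
      exact hc.constant hcont ⟨ht, fun h => h0' h.2⟩ ⟨ht₀, fun h => h0 h.2⟩
    set e := T.equivFinOfCardEq h3 with he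
    refine ⟨_, inter_mem h2 (isOpen_ball.mem_nhds ht), fun j => S (e.symm j), fun j t' ht' =>
      (ht'.1.1 _ (e.symm j).2).differentiableAt.differentiableWithinAt,
      fun t' ht' j j' hjj => e.symm.injective (Subtype.ext
        (ht'.1.2.1 (e.symm j).2 (e.symm j').2 hjj)), fun t' ht' y => ⟨fun hy => ?_, ?_⟩⟩
    · obtain ⟨w, hw, hwy⟩ := (ht'.1.2.2.1 y).1 ⟨hy.1.2.1, hy.1.1, hy.2⟩
      exact ⟨e ⟨w, hw⟩, by simpa using hwy⟩
    · rintro ⟨j, rfl⟩
      obtain ⟨h4, h5, h6⟩ := (ht'.1.2.2.1 _).2 ⟨_, (e.symm j).2, rfl⟩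
      exact ⟨⟨h5, h4, by rw [mem_preimage, h6]; exact ht'.2⟩, h6⟩
  · have h2 := h.isOpen_box.mem_nhds hy.2
    intro hcon
    obtain ⟨y', h3, h4⟩ := mem_closure_iff_nhds.1 (hp y hy.1 hy.2.1) _
      (inter_mem hcon.eventually_nhds (h.isOpen_box.mem_nhds hy.2))
    obtain ⟨y'', h5, h6, h7⟩ := ((h.freq h4 h3.2.1 h3.2.2).and_eventually
      (Eventually.and h3.1 (h.isOpen_box.eventually_mem h3.2))).exists
    exact h6 ⟨⟨h5.1, h7⟩, h5.2⟩

end LBox

/-- descending the slice dimension -/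
theorem sdim_step {Z : Set E} {x : E} {d p : ℕ} (hZ : AnAt Z x)
    (hp : ∀ᶠ y in 𝓝 x, y ∈ Z → y ∈ closure {z | Reg Z d z}) (hd : d ≤ p) (h : SDim Z x (p + 1)) :
    SDim Z x p := by
  obtain ⟨l, hl⟩ := h
  obtain ⟨s, r, δ, h1, h2⟩ := exists_lbox hZ (l.analyticAt x) hl hp
  have h3 : ∀ y ∈ Z, y ∈ ball x r → l y ∈ ball (l x) s → δ (l y) = 0 := by
    intro y hy hy' hy''
    by_contra h0
    obtain ⟨z, h4, h5⟩ := mem_closure_iff_nhds.1 (h1 hy' hy) _ (h2.reg hy hy' hy'' h0).eventually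
    have := (h4 h5.mem).unique h5
    simp at this
    omega
  obtain ⟨t, ht, h0⟩ := h2.ne
  -- a direction in which `δ` does not vanish identically
  obtain ⟨v, hv0, hv⟩ : ∃ v : Fin (p + 1) → ℂ, v ≠ 0 ∧
      ∀ᶠ c in 𝓝[≠] (0 : ℂ), δ (l x + c • v) ≠ 0 := by
    by_cases h4 : δ (l x) = 0
    · refine ⟨t - l x, fun h5 => h0 (by rw [sub_eq_zero.1 h5]; exact h4), ?_⟩
      have h5 : AnalyticOnNhd ℂ (fun c : ℂ => δ (l x + c • (t - l x)))
          ((fun c : ℂ => l x + c • (t - l x)) ⁻¹' ball (l x) s) := fun c hc =>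
        AnalyticAt.comp (g := δ) (h2.hol _ hc) (by fun_prop)
      have h6 : Convex ℝ ((fun c : ℂ => l x + c • (t - l x)) ⁻¹' ball (l x) s) := by
        have := (convex_ball (l x) s).affine_preimage
          (AffineMap.const ℝ ℂ (l x) + ((LinearMap.toSpanSingleton ℂ _ (t - l x)).restrictScalars
            ℝ).toAffineMap)
        exact this
      have h7 : (0 : ℂ) ∈ (fun c : ℂ => l x + c • (t - l x)) ⁻¹' ball (l x) s := by
        simpa using h2.s_pos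
      rcases (h5 0 h7).eventually_eq_zero_or_eventually_ne_zero with h8 | h8
      · have := h5.eqOn_zero_of_preconnected_of_eventuallyEq_zero h6.isPreconnected h7 h8
          (x := 1) (by simpa using ht)
        exact absurd (by simpa using this) h0
      · exact h8
    · refine ⟨fun _ => 1, fun h5 => one_ne_zero (congrFun h5 0), nhdsWithin_le_nhds ?_⟩
      have h5 : ContinuousAt (fun c : ℂ => δ (l x + c • fun _ => (1 : ℂ))) 0 :=
        ContinuousAt.comp_of_eq (h2.hol _ (mem_ball_self h2.s_pos)).continuousAt (by fun_prop)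
          (by simp)
      exact h5.eventually_ne (by simpa using h4)
  obtain ⟨μ, -, hμ⟩ := exists_dual_vector ℂ v (norm_ne_zero_iff.2 hv0)
  have hvn : ((‖v‖ : ℝ) : ℂ) ≠ 0 := Complex.ofReal_ne_zero.2 (norm_ne_zero_iff.2 hv0)
  have hμ' : μ v = ((‖v‖ : ℝ) : ℂ) := hμ
  have hs : Function.Surjective μ := fun c => ⟨(c / ‖v‖) • v, by
    rw [map_smul, hμ', smul_eq_mul, div_mul_cancel₀ _ hvn]⟩
  -- a linear map with kernel the line spanned by `v`
  obtain ⟨m, hm⟩ : ∃ m : (Fin (p + 1) → ℂ) →L[ℂ] (Fin p → ℂ), ∀ u, m u = 0 → ∃ c : ℂ, u = c • v := by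
    have hk : finrank ℂ (LinearMap.ker (μ : (Fin (p + 1) → ℂ) →ₗ[ℂ] ℂ)) = finrank ℂ (Fin p → ℂ) := by
      have h4 := LinearMap.finrank_range_add_finrank_ker (μ : (Fin (p + 1) → ℂ) →ₗ[ℂ] ℂ)
      rw [LinearMap.range_eq_top.2 hs] at h4
      simp only [finrank_top, finrank_self, finrank_fintype_fun_eq_card, Fintype.card_fin] at h4 ⊢
      omega
    let e := LinearEquiv.ofFinrankEq _ _ hk
    let P : (Fin (p + 1) → ℂ) →ₗ[ℂ] LinearMap.ker (μ : (Fin (p + 1) → ℂ) →ₗ[ℂ] ℂ) :=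
      LinearMap.codRestrict _ (LinearMap.id - ((‖v‖ : ℂ)⁻¹ • (μ : (Fin (p + 1) → ℂ) →ₗ[ℂ] ℂ)).smulRight v)
        fun u => by
          simp only [LinearMap.mem_ker, LinearMap.sub_apply, LinearMap.id_apply,
            LinearMap.smulRight_apply, LinearMap.smul_apply, map_sub, map_smul,
            ContinuousLinearMap.coe_coe, hμ', smul_eq_mul]
          field_simp
          ring
    refine ⟨LinearMap.toContinuousLinearMap (e.toLinearMap ∘ₗ P), fun u hu => ?_⟩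
    have h4 : P u = 0 := e.injective (by simpa using hu)
    have h5 := congrArg Subtype.val h4
    simp only [P, LinearMap.codRestrict_apply, LinearMap.sub_apply, LinearMap.id_apply,
      LinearMap.smulRight_apply, ZeroMemClass.coe_zero, sub_eq_zero] at h5
    exact ⟨_, h5⟩
  refine ⟨m.comp l, ?_⟩
  obtain ⟨ε, hε, h4⟩ := Metric.eventually_nhds_iff.1 (eventually_nhdsWithin_iff.1 hv)
  have h5 : ∀ᶠ y in 𝓝 x, ‖l y - l x‖ < ε * ‖v‖ := by
    have : ContinuousAt (fun y => ‖l y - l x‖) x := by fun_prop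
    exact this.eventually (gt_mem_nhds (by simpa using mul_pos hε (norm_pos_iff.2 hv0)))
  filter_upwards [hl, nhdsWithin_le_nhds h5, nhdsWithin_le_nhds
    (h2.isOpen_box.mem_nhds ⟨mem_ball_self h2.r_pos, mem_ball_self h2.s_pos⟩)]
    with y h6 h7 h8 hy he
  obtain ⟨c, hc⟩ := hm (l y - l x) (by rw [map_sub, sub_eq_zero]; exact he)
  have h9 : c ≠ 0 := fun h0 => h6 hy (by rw [← sub_eq_zero, hc, h0, zero_smul])
  rw [hc, norm_smul] at h7
  refine h4 (y := c) (by simpa using lt_of_mul_lt_mul_right h7 (norm_nonneg v)) h9 ?_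
  rw [← hc, add_sub_cancel]
  exact h3 y hy h8.1 h8.2

theorem sdim_pure {Z : Set E} {x : E} {d : ℕ} (hx : x ∈ Z) (hZ : AnAt Z x)
    (hp : ∀ᶠ y in 𝓝 x, y ∈ Z → y ∈ closure {z | Reg Z d z}) : SDim Z x d := by
  obtain ⟨z, hz⟩ := closure_nonempty_iff.1 ⟨x, hp.self_of_nhds hx⟩
  obtain ⟨k, hk⟩ := Nat.exists_eq_add_of_le (Reg.le_finrank hz)
  have h1 : SDim Z x (d + k) := by
    let e : E ≃L[ℂ] (Fin (d + k) → ℂ) := ContinuousLinearEquiv.ofFinrankEq (by simpa using hk)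
    refine ⟨e, ?_⟩
    filter_upwards [self_mem_nhdsWithin] with y hy _ he
    exact hy (e.injective he)
  clear hk
  induction k with
  | zero => exact h1
  | succ k ih => exact ih (sdim_step hZ hp (Nat.le_add_right d k) h1)

/-- **branched cover models exist** -/
theorem coverStmt (E : Type) [NormedAddCommGroup E] [NormedSpace ℂ E] [FiniteDimensional ℂ E] :
    CoverStmt E := by
  intro Z d x hx hZ hp N hN
  obtain ⟨l, hl⟩ := sdim_pure hx hZ hp
  obtain ⟨s, r, δ, h1, h2⟩ := exists_lbox hZ (l.analyticAt x) hl (inter_mem hN hp)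
  obtain ⟨B, h3, h4, h5, -, -⟩ := h2.exists_bc fun y hy hy' => by
    simpa using (h1 hy').2 hy
  exact ⟨B, _, h2.isOpen_box, ⟨mem_ball_self h2.r_pos, mem_ball_self h2.s_pos⟩,
    fun y hy => (h1 hy.1).1, h3, by rw [h4, h5], trivial⟩

/-- the Harnack inequality in the form requested for `Gr/Att` -/
theorem hk {P : Type} [TopologicalSpace P] {A : HA E P} {Z : Set P} {d : ℕ}
    (hZ : A.Irr univ Z d) (hK : IsCompact Z) {p₀ : P} (hp₀ : p₀ ∈ Z)
    (J : Type) [Finite J] (ch : J → A.ι) (V : J → Set P)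
    (hV : ∀ a, IsOpen (V a) ∧ V a ⊆ (A.e (ch a)).source) (hZV : Z ⊆ ⋃ a, V a) (a₀ : J)
    (h₀ : p₀ ∈ V a₀) :
    ∃ C : ℝ, ∀ (ψ : P → EReal) (B : ℝ) (u : J → E → EReal), 1 ≤ B →
      (∀ a, IsPsh (A.e (ch a) '' V a) (u a)) →
      (∀ a, ∀ p ∈ Z ∩ V a, ψ p ≤ u a (A.e (ch a) p) + (B : EReal) ∧
        u a (A.e (ch a) p) ≤ ψ p + (B : EReal)) →
      (∀ p ∈ Z, ψ p ≤ 0) → (∃ p ∈ Z, ((-B : ℝ) : EReal) ≤ ψ p) →
      ∀ᶠ r : ℝ in 𝓝[>] 0, ∃ q ∈ Z ∩ V a₀, ‖A.e (ch a₀) q - A.e (ch a₀) p₀‖ ≤ r ∧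
        ((C * B * Real.log r : ℝ) : EReal) ≤ ψ q := by
  let ι := {x : (P → EReal) × ℝ // 1 ≤ x.2 ∧ ∃ u : J → E → EReal,
    (∀ a, IsPsh (A.e (ch a) '' V a) (u a)) ∧ ∀ a, ∀ p ∈ Z ∩ V a,
      x.1 p ≤ u a (A.e (ch a) p) + (x.2 : EReal) ∧ u a (A.e (ch a) p) ≤ x.1 p + (x.2 : EReal)}
  have key := irr_loc (coverStmt E) (ψ := fun i : ι => i.1.1) (a := fun i : ι => i.1.2)
    isOpen_univ hZ (fun i => by linarith [i.2.1]) (fun z hz => ?_) hK
    (fun z hz => ⟨mem_univ z, hz⟩) ⟨mem_univ _, hp₀⟩ ((hV a₀).2 h₀) ((hV a₀).1.mem_nhds h₀)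
  · obtain ⟨C, hC, h1⟩ := key
    refine ⟨4 * C + 1, fun ψ B u hB hu hψ h0 hp => ?_⟩
    have h8 : ∀ᶠ r : ℝ in 𝓝[>] 0, 0 < r := self_mem_nhdsWithin
    have h9 : ∀ᶠ r : ℝ in 𝓝[>] 0, r ≤ 1 := nhdsWithin_le_nhds (ge_mem_nhds one_pos)
    filter_upwards [h8, h9, Real.tendsto_log_nhdsGT_zero.eventually_le_atBot (-1)]
      with r hr hr1 hl
    by_contra hcon
    push Not at hcon
    have h2 := h1.self_of_nhds ⟨mem_univ _, hp₀⟩ ⟨(ψ, B), hB, u, hu, hψ⟩
      ((4 * C + 1) * B * Real.log r) 0 B r (by linarith) (fun y hy => h0 y hy.2)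
      (by simpa using hp) hr hr1 fun y hy hy' _ hd =>
        (hcon y ⟨hy.2, hy'⟩ (by rw [← dist_eq_norm]; exact hd.le)).le
    simp only at h2
    have h3 : 0 ≤ C * B := by positivity
    nlinarith
  · obtain ⟨a, ha⟩ := mem_iUnion.1 (hZV hz.2)
    refine ⟨ch a, (hV a).2 ha, _, (A.e (ch a)).isOpen_image_of_subset_source (hV a).1 (hV a).2,
      mem_image_of_mem _ ha, 1, zero_le_one, fun i => ?_⟩
    obtain ⟨u, hu, h2⟩ := i.2.2
    refine ⟨u a, hu a, fun y hy hy' ⟨y', h3, h4⟩ => ?_⟩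
    have h5 : y' = y := (A.e (ch a)).injOn ((hV a).2 h3) hy' h4
    simpa using h2 a y ⟨hy.2, h5 ▸ h3⟩

end Crest.Agent.X261.Ans.Hk
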