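import Crest.Agent.R275.Loc2C_879

/-!
# X261, squad Ans (helper4): local parametrisation, part 1

* `evl z hz`   : evaluation of germs along a map `z` tending to `p`;
* `pa π p b`   : pull-back of germs along the affine map `x ↦ b + π (x - p)`;
* `Fn π p b I` : `O_p / I` is finite over `O_b`;
* `pt`         : every homomorphism `O_p / I → Germ l ℂ` over an evaluation is an evaluation;
* `nn`         : Noether normalisation.
-/

set_option autoImplicit false
set_option linter.unusedSectionVars false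
set_option linter.style.haveILetI false

open Set Filter Topology Metric
open Crest.Agent.R275.Loc2879
open scoped Polynomial

noncomputable section

namespace Crest.Agent.X261.Ans.LP

universe u v w

section Ev

variable {E : Type u} [NormedAddCommGroup E] [NormedSpace ℂ E]
  {B : Type v} [NormedAddCommGroup B] [NormedSpace ℂ B] {ι : Type w} {l : Filter ι}

/-- evaluation of germs along a map tending to `p` -/
def evl {p : E} (z : ι → E) (hz : Tendsto z l (𝓝 p)) : OO p →+* Germ l ℂ where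
  toFun x := (x : Germ (𝓝 p) ℂ).compTendsto z hz
  map_one' := rfl
  map_zero' := rfl
  map_mul' x y := by
    obtain ⟨f, hf, rfl⟩ := exists_gm x
    obtain ⟨g, hg, rfl⟩ := exists_gm y
    rfl
  map_add' x y := by
    obtain ⟨f, hf, rfl⟩ := exists_gm x
    obtain ⟨g, hg, rfl⟩ := exists_gm y
    rfl

lemma evl_gm {p : E} {z : ι → E} (hz : Tendsto z l (𝓝 p)) {f : E → ℂ} (hf : AnalyticAt ℂ f p) :
    evl z hz (gm f hf) = ((fun i => f (z i) : ι → ℂ) : Germ l ℂ) := rfl

lemma evl_pull {p : E} {z : ι → E} (hz : Tendsto z l (𝓝 p)) {φ : E → B} (hφ : AnalyticAt ℂ φ p)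
    {b : B} (h : φ p = b) (x : OO b) :
    evl z hz (pull φ hφ h x) = evl (fun i => φ (z i)) ((pull_aux hφ h).comp hz) x := by
  obtain ⟨f, hf, rfl⟩ := exists_gm x
  rfl

lemma evl_congr {p : E} {z z' : ι → E} (hz : Tendsto z l (𝓝 p)) (hz' : Tendsto z' l (𝓝 p))
    (h : z =ᶠ[l] z') : evl z hz = evl z' hz' := by
  ext x
  obtain ⟨f, hf, rfl⟩ := exists_gm x
  rw [evl_gm, evl_gm, Germ.coe_eq]
  filter_upwards [h] with i hi
  rw [hi]

lemma evl_tendsto {p : E} {z : ι → E} (hz : Tendsto z l (𝓝 p)) (x : OO p) :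
    (evl z hz x).Tendsto (𝓝 (evp p x)) := by
  obtain ⟨f, hf, rfl⟩ := exists_gm x
  rw [evl_gm, Germ.coe_tendsto, evp_gm]
  exact hf.continuousAt.tendsto.comp hz

lemma exists_rep (g : Germ l ℂ) : ∃ f : ι → ℂ, (f : Germ l ℂ) = g :=
  Germ.inductionOn g fun f => ⟨f, rfl⟩

/-- roots of a monic polynomial with small coefficients are small -/
lemma root_small {n : ℕ} {c : ℕ → ℂ} {w : ℂ} {ε : ℝ} (hε : 0 < ε) (hε1 : ε ≤ 1)
    (hc : ∑ i ∈ Finset.range n, ‖c i‖ < ε ^ n)
    (h : w ^ n + ∑ i ∈ Finset.range n, c i * w ^ i = 0) : ‖w‖ < ε := by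
  by_contra hcon
  rw [not_lt] at hcon
  have hw : 0 < ‖w‖ := hε.trans_le hcon
  have h1 : ‖w‖ ^ n ≤ ∑ i ∈ Finset.range n, ‖c i‖ * ‖w‖ ^ i := by
    rw [← norm_pow, eq_neg_of_add_eq_zero_left h, norm_neg]
    refine (norm_sum_le _ _).trans (Finset.sum_le_sum fun i _ => ?_)
    rw [norm_mul, norm_pow]
  have h2 : ∀ i ∈ Finset.range n, ‖c i‖ * ‖w‖ ^ i * ε ^ n ≤ ‖c i‖ * ‖w‖ ^ n := by
    intro i hi
    rw [Finset.mem_range] at hi
    obtain ⟨k, rfl⟩ := Nat.exists_eq_add_of_le hi.le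
    rw [mul_assoc]
    refine mul_le_mul_of_nonneg_left ?_ (norm_nonneg _)
    rw [pow_add ‖w‖]
    refine mul_le_mul_of_nonneg_left ?_ (by positivity)
    calc ε ^ (i + k) ≤ ε ^ k := pow_le_pow_of_le_one hε.le hε1 (by omega)
      _ ≤ ‖w‖ ^ k := pow_le_pow_left₀ hε.le hcon k
  have h3 : ‖w‖ ^ n * ε ^ n ≤ (∑ i ∈ Finset.range n, ‖c i‖) * ‖w‖ ^ n := by
    calc ‖w‖ ^ n * ε ^ n ≤ (∑ i ∈ Finset.range n, ‖c i‖ * ‖w‖ ^ i) * ε ^ n :=
          mul_le_mul_of_nonneg_right h1 (by positivity)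
      _ = ∑ i ∈ Finset.range n, ‖c i‖ * ‖w‖ ^ i * ε ^ n := Finset.sum_mul _ _ _
      _ ≤ ∑ i ∈ Finset.range n, ‖c i‖ * ‖w‖ ^ n := Finset.sum_le_sum h2
      _ = _ := (Finset.sum_mul _ _ _).symm
  have h4 : 0 < ‖w‖ ^ n := by positivity
  nlinarith

lemma root_tendsto {P : (Germ l ℂ)[X]} (hm : P.Monic)
    (hc : ∀ i < P.natDegree, (P.coeff i).Tendsto (𝓝 0)) {w : ι → ℂ}
    (hw : P.eval (w : Germ l ℂ) = 0) : Tendsto w l (𝓝 0) := by
  choose c hcc using fun i => exists_rep (P.coeff i)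
  set n := P.natDegree with hn
  have h1 : ∀ᶠ x in l, w x ^ n + ∑ i ∈ Finset.range n, c i x * w x ^ i = 0 := by
    have e : P.eval (w : Germ l ℂ) = Germ.coeRingHom l
        (w ^ n + ∑ i ∈ Finset.range n, c i * w ^ i) := by
      rw [Polynomial.eval_eq_sum_range, Finset.sum_range_succ, ← hn, hm.coeff_natDegree, one_mul,
        add_comm, map_add, map_pow, map_sum]
      congr 1
      refine Finset.sum_congr rfl fun i _ => ?_
      rw [map_mul, map_pow, ← hcc]
      rfl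
    rw [e] at hw
    have : (w ^ n + ∑ i ∈ Finset.range n, c i * w ^ i : ι → ℂ) =ᶠ[l] 0 := Germ.coe_eq.1 hw
    filter_upwards [this] with x hx
    simpa using hx
  have h2 : Tendsto (fun x => ∑ i ∈ Finset.range n, ‖c i x‖) l (𝓝 0) := by
    have : Tendsto (fun x => ∑ i ∈ Finset.range n, ‖c i x‖) l (𝓝 (∑ _i ∈ Finset.range n, 0)) := by
      refine tendsto_finsetSum _ fun i hi => ?_
      have := hc i (Finset.mem_range.1 hi)
      rw [← hcc, Germ.coe_tendsto] at this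
      simpa using this.norm
    simpa using this
  rw [Metric.tendsto_nhds]
  intro ε hε
  have hm1 : 0 < min ε 1 := lt_min hε one_pos
  filter_upwards [h1, h2.eventually (gt_mem_nhds (pow_pos hm1 n))] with x hx hx'
  rw [dist_zero_right]
  exact (root_small hm1 (min_le_right _ _) hx' hx).trans_le (min_le_left _ _)

/-- the affine map with linear part `π` sending `p` to `b` -/
def aff (π : E →L[ℂ] B) (p : E) (b : B) (x : E) : B := b + π (x - p)

lemma an_aff (π : E →L[ℂ] B) (p : E) (b : B) (x : E) : AnalyticAt ℂ (aff π p b) x := by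
  have h1 : AnalyticAt ℂ (fun y : E => y - p) x := analyticAt_id.sub analyticAt_const
  exact analyticAt_const.add (AnalyticAt.comp (g := π) (f := fun y : E => y - p) (π.analyticAt _) h1)

@[simp] lemma aff_self (π : E →L[ℂ] B) (p : E) (b : B) : aff π p b p = b := by simp [aff]

@[simp] lemma aff_lin (π : E →L[ℂ] B) (p x : E) : aff π p (π p) x = π x := by simp [aff]

/-- pull-back of germs along `aff π p b` -/
def pa (π : E →L[ℂ] B) (p : E) (b : B) : OO b →+* OO p :=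
  pull (aff π p b) (an_aff π p b p) (aff_self π p b)

lemma pa_gm (π : E →L[ℂ] B) (p : E) (b : B) {f : B → ℂ} (hf : AnalyticAt ℂ f b) :
    pa π p b (gm f hf) = gm (fun x => f (aff π p b x))
      (AnalyticAt.comp (g := f) (by rw [aff_self]; exact hf) (an_aff π p b p)) := rfl

@[simp] lemma evp_pa (π : E →L[ℂ] B) (p : E) (b : B) (x : OO b) :
    evp p (pa π p b x) = evp b x := by
  obtain ⟨f, hf, rfl⟩ := exists_gm x
  rw [pa_gm, evp_gm, evp_gm, aff_self]

lemma tendsto_aff (π : E →L[ℂ] B) (p : E) (b : B) : Tendsto (aff π p b) (𝓝 p) (𝓝 b) :=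
  pull_aux (an_aff π p b p) (aff_self π p b)

lemma evl_pa (π : E →L[ℂ] B) {p : E} (b : B) {z : ι → E} (hz : Tendsto z l (𝓝 p)) (x : OO b) :
    evl z hz (pa π p b x) = evl (fun i => aff π p b (z i)) ((tendsto_aff π p b).comp hz) x :=
  evl_pull hz _ _ x

/-- `O_p / I` is finite over `O_b` -/
def Fn (π : E →L[ℂ] B) (p : E) (b : B) (I : Ideal (OO p)) : Prop :=
  ((Ideal.Quotient.mk I).comp (pa π p b)).Finite

lemma Fn.mono {π : E →L[ℂ] B} {p : E} {b : B} {I J : Ideal (OO p)} (h : Fn π p b I)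
    (hIJ : I ≤ J) : Fn π p b J := by
  have : (Ideal.Quotient.mk J).comp (pa π p b) =
      (Ideal.Quotient.factor hIJ).comp ((Ideal.Quotient.mk I).comp (pa π p b)) := rfl
  unfold Fn
  rw [this]
  exact RingHom.Finite.comp (RingHom.Finite.of_surjective _ (Ideal.Quotient.factor_surjective hIJ)) h

lemma Fn.exists_monic {π : E →L[ℂ] B} {p : E} {b : B} {I : Ideal (OO p)} (h : Fn π p b I)
    (x : OO p) : ∃ q : (OO b)[X], q.Monic ∧ q.eval₂ (pa π p b) x ∈ I := by
  obtain ⟨q, hq, e⟩ := h.to_isIntegral (Ideal.Quotient.mk I x)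
  refine ⟨q, hq, ?_⟩
  rw [← Ideal.Quotient.eq_zero_iff_mem, Polynomial.hom_eval₂]
  exact e

/-- finiteness passes to subrings over a Noetherian base -/
lemma finite_of_comap {A R S : Type*} [CommRing A] [CommRing R] [CommRing S] [IsNoetherianRing A]
    (f : A →+* R) (g : R →+* S) (I : Ideal S)
    (h : ((Ideal.Quotient.mk I).comp (g.comp f)).Finite) :
    ((Ideal.Quotient.mk (I.comap g)).comp f).Finite := by
  letI a1 : Algebra A (S ⧸ I) := ((Ideal.Quotient.mk I).comp (g.comp f)).toAlgebra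
  letI a2 : Algebra A (R ⧸ I.comap g) := ((Ideal.Quotient.mk (I.comap g)).comp f).toAlgebra
  haveI : Module.Finite A (S ⧸ I) := h
  let φ : (R ⧸ I.comap g) →ₐ[A] (S ⧸ I) :=
    { Ideal.quotientMap I g le_rfl with commutes' := fun _ => rfl }
  exact Module.Finite.of_injective φ.toLinearMap Ideal.quotientMap_injective

/-- the point property -/
def Pt (π : E →L[ℂ] B) (p : E) (b : B) : Prop :=
  ∀ I : Ideal (OO p), Fn π p b I → ∀ (ι : Type w) (l : Filter ι) (y : ι → B)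
    (hy : Tendsto y l (𝓝 b)) (ψ : OO p →+* Germ l ℂ), ψ.comp (pa π p b) = evl y hy →
    (∀ f ∈ I, ψ f = 0) → ∃ (z : ι → E) (hz : Tendsto z l (𝓝 p)),
      (∀ i, aff π p b (z i) = y i) ∧ ψ = evl z hz

lemma affEquiv_pa [FiniteDimensional ℂ E] {G : Type*} [NormedAddCommGroup G] [NormedSpace ℂ G]
    (e : G ≃L[ℂ] E) (π : E →L[ℂ] B) (p : E) (b : B) (x : OO b) :
    affEquiv e p (pa π p b x) = pa (π.comp (e : G →L[ℂ] E)) 0 b x := by
  obtain ⟨f, hf, rfl⟩ := exists_gm x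
  rw [pa_gm, pa_gm, affEquiv_gm, gm_eq_gm]
  exact Eventually.of_forall fun x => by simp [aff]

lemma affEquiv_symm_pa [FiniteDimensional ℂ E] {G : Type*} [NormedAddCommGroup G]
    [NormedSpace ℂ G] (e : G ≃L[ℂ] E) (π : E →L[ℂ] B) (p : E) (b : B) (x : OO b) :
    (affEquiv e p).symm (pa (π.comp (e : G →L[ℂ] E)) 0 b x) = pa π p b x := by
  rw [← affEquiv_pa, RingEquiv.symm_apply_apply]

lemma finite_equiv {A R S : Type*} [CommRing A] [CommRing R] [CommRing S] (θ : S ≃+* R)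
    (f : A →+* S) (I : Ideal R) :
    ((Ideal.Quotient.mk I).comp ((θ : S →+* R).comp f)).Finite ↔
      ((Ideal.Quotient.mk (I.comap (θ : S →+* R))).comp f).Finite := by
  let η : (S ⧸ I.comap (θ : S →+* R)) ≃+* R ⧸ I := Ideal.quotientEquiv _ I θ
    (Ideal.map_comap_of_surjective (θ : S →+* R) θ.surjective I).symm
  have h1 : (Ideal.Quotient.mk I).comp ((θ : S →+* R).comp f) =
      η.toRingHom.comp ((Ideal.Quotient.mk (I.comap (θ : S →+* R))).comp f) := rfl
  constructor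
  · intro h
    have h2 : (Ideal.Quotient.mk (I.comap (θ : S →+* R))).comp f =
        η.symm.toRingHom.comp ((Ideal.Quotient.mk I).comp ((θ : S →+* R).comp f)) := by
      rw [h1]
      ext x
      exact (η.symm_apply_apply _).symm
    rw [h2]
    exact RingHom.Finite.comp (RingHom.Finite.of_surjective _ η.symm.surjective) h
  · intro h
    rw [h1]
    exact RingHom.Finite.comp (RingHom.Finite.of_surjective _ η.surjective) h

lemma Fn.equiv [FiniteDimensional ℂ E] {G : Type*} [NormedAddCommGroup G] [NormedSpace ℂ G]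
    (e : G ≃L[ℂ] E) {π : E →L[ℂ] B} {p : E} {b : B} {I : Ideal (OO p)} :
    Fn π p b I ↔ Fn (π.comp (e : G →L[ℂ] E)) 0 b
      (I.comap ((affEquiv e p).symm : OO (0 : G) →+* OO p)) := by
  have h1 : pa π p b = ((affEquiv e p).symm : OO (0 : G) →+* OO p).comp
      (pa (π.comp (e : G →L[ℂ] E)) 0 b) :=
    RingHom.ext fun x => (affEquiv_symm_pa e π p b x).symm
  unfold Fn
  rw [h1]
  exact finite_equiv _ _ _

lemma Pt.of_equiv [FiniteDimensional ℂ E] {G : Type*} [NormedAddCommGroup G] [NormedSpace ℂ G]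
    (e : G ≃L[ℂ] E) {π : E →L[ℂ] B} {p : E} {b : B}
    (h : Pt.{_, _, w} (π.comp (e : G →L[ℂ] E)) 0 b) : Pt.{_, _, w} π p b := by
  intro I hI ι l y hy ψ hψ hk
  obtain ⟨z, hz, h1, h2⟩ := h _ ((Fn.equiv e).1 hI) ι l y hy
    (ψ.comp ((affEquiv e p).symm : OO (0 : G) →+* OO p))
    (by
      rw [← hψ]
      exact RingHom.ext fun x => congrArg ψ (affEquiv_symm_pa e π p b x))
    (fun f hf => hk _ hf)
  have hz' : Tendsto (fun i => p + e (z i)) l (𝓝 p) := by
    have := ((e.continuous.tendsto 0).comp hz).const_add p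
    simpa using this
  refine ⟨fun i => p + e (z i), hz', fun i => ?_, ?_⟩
  · rw [← h1 i]; simp [aff]
  · ext x
    have : ψ x = evl z hz (affEquiv e p x) := by rw [← h2]; simp
    rw [this]
    obtain ⟨f, hf, rfl⟩ := exists_gm x
    rfl

lemma Pt.id (b : B) : Pt.{_, _, w} (ContinuousLinearMap.id ℂ B) 0 b := by
  intro I _ ι l y hy ψ hψ _
  have hz : Tendsto (fun i => y i - b) l (𝓝 0) := by
    simpa using hy.sub_const b
  refine ⟨fun i => y i - b, hz, fun i => by simp [aff], ?_⟩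
  ext x
  obtain ⟨f, hf, rfl⟩ := exists_gm x
  have h1 : AnalyticAt ℂ (fun y : B => f (y - b)) b :=
    AnalyticAt.comp (g := f) (f := fun y : B => y - b) (by simpa using hf)
      (analyticAt_id.sub analyticAt_const)
  have h2 : gm f hf = pa (ContinuousLinearMap.id ℂ B) 0 b (gm _ h1) := by
    rw [pa_gm, gm_eq_gm]
    exact Eventually.of_forall fun x => by simp [aff]
  conv_lhs => rw [h2]
  rw [← RingHom.comp_apply, hψ]
  rfl

lemma iot_pa [FiniteDimensional ℂ E] (π : E →L[ℂ] B) (p : E) (b : B) (x : OO b) :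
    iot p (pa π p b x) = pa (π.comp (ContinuousLinearMap.fst ℂ E ℂ)) (p, 0) b x := by
  obtain ⟨f, hf, rfl⟩ := exists_gm x
  rfl

lemma pg_ne_zero {q : ℂ[X]} (hq : q ≠ 0) : pg q ≠ 0 := fun h =>
  hq (pg_eq_zero_of_dvd (n := q.natDegree + 1)
    (lt_of_le_of_lt Polynomial.degree_le_natDegree (by exact_mod_cast Nat.lt_succ_self _))
    (by rw [h]; exact dvd_zero _))

lemma reg_of_monic [FiniteDimensional ℂ E] {p : E} {q : (OO p)[X]} (hq : q.Monic) :
    ∃ n, Reg (ev p q) n := by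
  refine exists_reg ?_
  rw [rho_ev]
  exact pg_ne_zero (hq.map _).ne_zero

lemma Pt.prod [FiniteDimensional ℂ E] [FiniteDimensional ℂ B] {π : E →L[ℂ] B} {p : E} {b : B}
    (h : Pt.{_, _, w} π p b) :
    Pt.{_, _, w} (π.comp (ContinuousLinearMap.fst ℂ E ℂ)) (p, 0) b := by
  intro I hI ι l y hy ψ hψ hk
  have hcomp : pa (π.comp (ContinuousLinearMap.fst ℂ E ℂ)) (p, 0) b = (iot p).comp (pa π p b) := by
    ext x : 1
    exact (iot_pa π p b x).symm
  obtain ⟨q, hq, hqI⟩ := hI.exists_monic (Wv p)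
  have hev : q.eval₂ (pa (π.comp (ContinuousLinearMap.fst ℂ E ℂ)) (p, 0) b) (Wv p) =
      ev p (q.map (pa π p b)) := by
    rw [hcomp, ev, Polynomial.coe_eval₂RingHom, Polynomial.eval₂_map]
  rw [hev] at hqI
  obtain ⟨n, hn⟩ := reg_of_monic (hq.map (pa π p b))
  obtain ⟨P, u, hm, hd, hfu, hlow⟩ := wprep hn
  have hI' : Fn π p b (I.comap (iot p)) := by
    refine finite_of_comap _ _ _ ?_
    rw [← hcomp]; exact hI
  obtain ⟨z, hz, h1, h2⟩ := h _ hI' ι l y hy (ψ.comp (iot p))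
    (by rw [RingHom.comp_assoc, ← hcomp, hψ]) (fun f hf => hk _ hf)
  obtain ⟨w, hw⟩ := exists_rep (ψ (Wv p))
  have hψev : ∀ r : (OO p)[X], ψ (ev p r) = (r.map (evl z hz)).eval (w : Germ l ℂ) := by
    intro r
    rw [ev, Polynomial.coe_eval₂RingHom, Polynomial.hom_eval₂, h2, ← hw, Polynomial.eval_map]
  have hP0 : ψ (ev p P) = 0 := by
    have := hk _ hqI
    rw [hfu, map_mul] at this
    exact (u.isUnit.map ψ).mul_right_eq_zero.1 this
  have hwt : Tendsto w l (𝓝 0) := by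
    refine root_tendsto (hm.map (evl z hz)) ?_ (by rw [← hψev, hP0])
    intro i hi
    rw [Polynomial.coeff_map, ← hlow i (by rw [← hd]; exact hi.trans_le Polynomial.natDegree_map_le)]
    exact evl_tendsto hz _
  have hzw : Tendsto (fun i => (z i, w i)) l (𝓝 (p, 0)) := hz.prodMk_nhds hwt
  have hev2 : ∀ r : (OO p)[X], evl _ hzw (ev p r) = (r.map (evl z hz)).eval (w : Germ l ℂ) := by
    intro r
    rw [ev, Polynomial.coe_eval₂RingHom, Polynomial.hom_eval₂, Polynomial.eval_map]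
    congr 1
    ext x
    obtain ⟨f, hf, rfl⟩ := exists_gm x
    rfl
  refine ⟨fun i => (z i, w i), hzw, fun i => by rw [← h1 i]; rfl, ?_⟩
  ext x
  have hPreg : Reg (ev p P) n := Reg.of_unit_mul' u (by rw [← hfu]; exact hn)
  obtain ⟨a, r, -, rfl⟩ := div_exists_poly hPreg x
  rw [map_add, map_add, map_mul, map_mul, hP0, hev2 P, ← hψev, hP0, hev2, hψev, mul_zero, mul_zero]

end Ev

section Main

variable {B : Type v} [NormedAddCommGroup B] [NormedSpace ℂ B] [FiniteDimensional ℂ B]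

lemma exists_chart_dir {F : Type u} [NormedAddCommGroup F] [NormedSpace ℂ F]
    [FiniteDimensional ℂ F] {n : ℕ} (hF : Module.finrank ℂ F = n + 1) {v : F} (hv : v ≠ 0) :
    ∃ e : ((Fin n → ℂ) × ℂ) ≃L[ℂ] F, e (0, 1) = v := by
  have hdim : Module.finrank ℂ ((Fin n → ℂ) × ℂ) = Module.finrank ℂ F := by
    rw [hF]; simp
  let e0 : ((Fin n → ℂ) × ℂ) ≃L[ℂ] F := ContinuousLinearEquiv.ofFinrankEq hdim
  have h01 : e0 ((0 : Fin n → ℂ), (1 : ℂ)) ≠ 0 := by
    rw [Ne, map_eq_zero_iff _ e0.injective]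
    simp [Prod.ext_iff]
  obtain ⟨A, hA⟩ := SeparatingDual.exists_continuousLinearEquiv_apply_eq (R := ℂ) h01 hv
  exact ⟨e0.trans A, hA⟩

lemma pt_step {F : Type u} [NormedAddCommGroup F] [NormedSpace ℂ F] [FiniteDimensional ℂ F]
    (ih : ∀ n, Module.finrank ℂ F = n + 1 → ∀ π : (Fin n → ℂ) →L[ℂ] B, Function.Surjective π →
      ∀ b : B, Pt.{_, _, w} π 0 b)
    (π : F →L[ℂ] B) (hπ : Function.Surjective π) (p : F) (b : B) : Pt.{_, _, w} π p b := by
  by_cases hinj : Function.Injective π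
  · let e : F ≃L[ℂ] B := (LinearEquiv.ofBijective (π : F →ₗ[ℂ] B) ⟨hinj, hπ⟩).toContinuousLinearEquiv
    refine Pt.of_equiv e.symm ?_
    have : π.comp (e.symm : B →L[ℂ] F) = ContinuousLinearMap.id ℂ B := by
      ext x
      exact e.apply_symm_apply x
    rw [this]
    exact Pt.id b
  · obtain ⟨v, hv, hv0⟩ : ∃ v, π v = 0 ∧ v ≠ 0 := by
      by_contra hcon
      push Not at hcon
      exact hinj ((injective_iff_map_eq_zero π).2 hcon)
    have hnt : Nontrivial F := ⟨v, 0, hv0⟩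
    obtain ⟨n, hn⟩ : ∃ n, Module.finrank ℂ F = n + 1 :=
      ⟨_, (Nat.succ_pred_eq_of_pos Module.finrank_pos).symm⟩
    obtain ⟨e, he⟩ := exists_chart_dir hn hv0
    refine Pt.of_equiv e ?_
    let π' : (Fin n → ℂ) →L[ℂ] B :=
      (π.comp (e : _ →L[ℂ] F)).comp (ContinuousLinearMap.inl ℂ (Fin n → ℂ) ℂ)
    have hsplit : ∀ x : (Fin n → ℂ) × ℂ, π (e x) = π' x.1 := by
      intro x
      have : x = (x.1, 0) + x.2 • ((0 : Fin n → ℂ), (1 : ℂ)) := by ext <;> simp
      conv_lhs => rw [this, map_add, map_smul, he, map_add, map_smul, hv, smul_zero, add_zero]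
      rfl
    have e1 : π.comp (e : _ →L[ℂ] F) = π'.comp (ContinuousLinearMap.fst ℂ _ ℂ) :=
      ContinuousLinearMap.ext hsplit
    rw [e1]
    refine Pt.prod (ih n hn π' ?_ b)
    intro y
    obtain ⟨x, rfl⟩ := hπ y
    exact ⟨(e.symm x).1, by rw [← hsplit, e.apply_symm_apply]⟩

lemma pt_fin : ∀ (n : ℕ) (π : (Fin n → ℂ) →L[ℂ] B), Function.Surjective π →
    ∀ b : B, Pt.{_, _, w} π 0 b := by
  intro n
  induction n with
  | zero => exact fun π hπ b => pt_step (fun n hn => by simp at hn) π hπ 0 b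
  | succ n ih =>
    refine fun π hπ b => pt_step (fun m hm => ?_) π hπ 0 b
    obtain rfl : n = m := by simpa using hm
    exact ih

variable {E : Type u} [NormedAddCommGroup E] [NormedSpace ℂ E] [FiniteDimensional ℂ E]

/-- **points**: a homomorphism `O_p / I → Germ l ℂ` lying over an evaluation is an evaluation -/
theorem pt {π : E →L[ℂ] B} (hπ : Function.Surjective π) {p : E} {b : B} {I : Ideal (OO p)}
    (hI : Fn π p b I) {ι : Type w} {l : Filter ι} {y : ι → B} (hy : Tendsto y l (𝓝 b))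
    (ψ : OO p →+* Germ l ℂ) (hψ : ψ.comp (pa π p b) = evl y hy) (hk : ∀ f ∈ I, ψ f = 0) :
    ∃ (z : ι → E) (hz : Tendsto z l (𝓝 p)), (∀ i, aff π p b (z i) = y i) ∧ ψ = evl z hz :=
  pt_step (fun n _ => pt_fin n) π hπ p b I hI ι l y hy ψ hψ hk

/-- Noether normalisation at `p` -/
def NN (p : E) : Prop :=
  ∀ I : Ideal (OO p), I ≠ ⊤ → ∃ (d : ℕ) (π : E →L[ℂ] (Fin d → ℂ)), Function.Surjective π ∧
    Fn π p 0 I ∧ I.comap (pa π p 0) = ⊥

lemma pa_surjective (e : E ≃L[ℂ] B) (p : E) (b : B) :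
    Function.Surjective (pa (e : E →L[ℂ] B) p b) := by
  intro x
  obtain ⟨f, hf, rfl⟩ := exists_gm x
  have h1 : AnalyticAt ℂ (fun y : B => f (aff (e.symm : B →L[ℂ] E) b p y)) b :=
    AnalyticAt.comp (g := f) (by rw [aff_self]; exact hf) (an_aff _ _ _ _)
  refine ⟨gm _ h1, ?_⟩
  rw [pa_gm, gm_eq_gm]
  exact Eventually.of_forall fun x => by simp [aff]

lemma pa_injective {π : E →L[ℂ] B} (hπ : Function.Surjective π) (p : E) (b : B) :
    Function.Injective (pa π p b) := by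
  rw [injective_iff_map_eq_zero]
  intro x hx
  obtain ⟨f, hf, rfl⟩ := exists_gm x
  rw [pa_gm, gm_eq_zero] at hx
  rw [gm_eq_zero]
  obtain ⟨s, hs⟩ := (π : E →ₗ[ℂ] B).exists_rightInverse_of_surjective
    (LinearMap.range_eq_top.2 hπ)
  have h1 := (tendsto_aff (LinearMap.toContinuousLinearMap s) b p).eventually hx
  filter_upwards [h1] with y hy
  have : π (s (y - b)) = y - b := LinearMap.congr_fun hs (y - b)
  have e : aff π p b (aff (LinearMap.toContinuousLinearMap s) b p y) = y := by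
    simp only [aff, add_sub_cancel_left, LinearMap.coe_toContinuousLinearMap', this,
      add_sub_cancel]
  rwa [e] at hy

lemma fn_of_reg {z₀ : E} {I : Ideal (OO ((z₀, (0 : ℂ)) : E × ℂ))}
    {f : OO ((z₀, (0 : ℂ)) : E × ℂ)} (hf : f ∈ I) {m : ℕ} (hm : Reg f m) :
    ((Ideal.Quotient.mk I).comp (iot z₀)).Finite := by
  letI := ((Ideal.Quotient.mk I).comp (iot z₀)).toAlgebra
  classical
  refine ⟨⟨Finset.univ.image fun j : Fin m => Ideal.Quotient.mk I (Wv z₀ ^ (j : ℕ)), ?_⟩⟩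
  rw [eq_top_iff]
  intro x _
  obtain ⟨g, rfl⟩ := Ideal.Quotient.mk_surjective x
  obtain ⟨q, c, hc⟩ := div_exists hm g
  rw [hc, map_add, Ideal.Quotient.eq_zero_iff_mem.2 (I.mul_mem_left q hf), zero_add, map_sum]
  refine Submodule.sum_mem _ fun j _ => ?_
  have : Ideal.Quotient.mk I (iot z₀ (c j) * Wv z₀ ^ (j : ℕ)) =
      (c j) • Ideal.Quotient.mk I (Wv z₀ ^ (j : ℕ)) := rfl
  rw [this]
  exact Submodule.smul_mem _ _ (Submodule.subset_span (by simp))

lemma finite_trans {A R S : Type*} [CommRing A] [CommRing R] [CommRing S]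
    (f : A →+* R) (g : R →+* S) (I : Ideal S)
    (h1 : ((Ideal.Quotient.mk (I.comap g)).comp f).Finite)
    (h2 : ((Ideal.Quotient.mk I).comp g).Finite) :
    ((Ideal.Quotient.mk I).comp (g.comp f)).Finite := by
  have e2 : (Ideal.Quotient.mk I).comp (g.comp f) =
      (Ideal.quotientMap I g le_rfl).comp ((Ideal.Quotient.mk _).comp f) := rfl
  rw [e2]
  refine RingHom.Finite.comp ?_ h1
  have e3 : (Ideal.Quotient.mk I).comp g =
      (Ideal.quotientMap I g le_rfl).comp (Ideal.Quotient.mk _) := rfl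
  rw [e3] at h2
  exact RingHom.Finite.of_comp_finite h2

lemma nn_bot (p : E) : ∃ (d : ℕ) (π : E →L[ℂ] (Fin d → ℂ)), Function.Surjective π ∧
    Fn π p 0 ⊥ ∧ (⊥ : Ideal (OO p)).comap (pa π p 0) = ⊥ := by
  have hdim : Module.finrank ℂ E = Module.finrank ℂ (Fin (Module.finrank ℂ E) → ℂ) := by simp
  obtain ⟨e⟩ : Nonempty (E ≃L[ℂ] (Fin (Module.finrank ℂ E) → ℂ)) :=
    ⟨ContinuousLinearEquiv.ofFinrankEq hdim⟩
  refine ⟨Module.finrank ℂ E, (e : E →L[ℂ] (Fin (Module.finrank ℂ E) → ℂ)), e.surjective, ?_, ?_⟩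
  · exact RingHom.Finite.of_surjective _
      (Ideal.Quotient.mk_surjective.comp (pa_surjective e p 0))
  · exact Ideal.comap_bot_of_injective _ (pa_injective e.surjective p 0)

lemma nn_step (ih : ∀ n, Module.finrank ℂ E = n + 1 → NN (0 : Fin n → ℂ)) (p : E) : NN p := by
  intro I hI
  by_cases h0 : I = ⊥
  · subst h0
    exact nn_bot p
  obtain ⟨f, hfI, hf⟩ := Submodule.exists_mem_ne_zero_of_ne_bot h0
  have hnt : Nontrivial E := by
    by_contra hcon
    rw [not_nontrivial_iff_subsingleton] at hcon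
    refine hI (Ideal.eq_top_of_isUnit_mem _ hfI ?_)
    obtain ⟨g, hg, rfl⟩ := exists_gm f
    rw [isUnit_gm]
    intro h
    exact hf (gm_eq_zero.2 (Eventually.of_forall fun x => by rw [Subsingleton.elim x p, h]))
  obtain ⟨n, hn⟩ : ∃ n, Module.finrank ℂ E = n + 1 :=
    ⟨_, (Nat.succ_pred_eq_of_pos Module.finrank_pos).symm⟩
  obtain ⟨e, m, hm⟩ := exists_regular_chart hn hf
  set I₁ := I.comap ((affEquiv e p).symm : OO (0 : (Fin n → ℂ) × ℂ) →+* OO p) with hI₁
  have hf₁ : affEquiv e p f ∈ I₁ := by simpa [hI₁] using hfI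
  have hne : I₁.comap (iot (0 : Fin n → ℂ)) ≠ ⊤ :=
    Ideal.comap_ne_top _ (Ideal.comap_ne_top _ hI)
  obtain ⟨d, π', hs, hfn, hinj⟩ := ih n hn _ hne
  let π : E →L[ℂ] (Fin d → ℂ) :=
    (π'.comp (ContinuousLinearMap.fst ℂ _ ℂ)).comp (e.symm : E →L[ℂ] _)
  have e1 : π.comp (e : _ →L[ℂ] E) = π'.comp (ContinuousLinearMap.fst ℂ _ ℂ) := by
    ext x <;> simp [π]
  have hcomp : pa (π'.comp (ContinuousLinearMap.fst ℂ _ ℂ)) (0 : (Fin n → ℂ) × ℂ) 0 =
      (iot (0 : Fin n → ℂ)).comp (pa π' 0 0) := by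
    ext x : 1
    exact (iot_pa π' 0 0 x).symm
  refine ⟨d, π, fun y => ?_, (Fn.equiv e).2 ?_, ?_⟩
  · obtain ⟨x, rfl⟩ := hs y
    exact ⟨e (x, 0), by simp [π]⟩
  · rw [e1, ← hI₁]
    unfold Fn
    rw [hcomp]
    exact finite_trans _ _ _ hfn (fn_of_reg hf₁ hm)
  · rw [eq_bot_iff]
    intro x hx
    rw [← hinj, Ideal.mem_comap, Ideal.mem_comap, iot_pa, ← e1, hI₁, Ideal.mem_comap]
    have := affEquiv_symm_pa e π p 0 x
    exact this ▸ hx

lemma nn_fin : ∀ n : ℕ, NN (0 : Fin n → ℂ) := by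
  intro n
  induction n with
  | zero => exact nn_step (fun n hn => by simp at hn) 0
  | succ n ih =>
    refine nn_step (fun m hm => ?_) 0
    obtain rfl : n = m := by simpa using hm
    exact ih

/-- **Noether normalisation** for germs of holomorphic functions -/
theorem nn {p : E} {I : Ideal (OO p)} (hI : I ≠ ⊤) :
    ∃ (d : ℕ) (π : E →L[ℂ] (Fin d → ℂ)), Function.Surjective π ∧
      Fn π p 0 I ∧ I.comap (pa π p 0) = ⊥ :=
  nn_step (fun n _ => nn_fin n) p I hI

end Main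

end Crest.Agent.X261.Ans.LP
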