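import Crest.Agent.X261.Ans.Comp

/-!
# X261/Ans/Stat (helper72): stationarity of families of analytic sets

* `HA.stat`, `stat` : any family of analytic sets is locally a finite intersection;
* `AnAt.fin`, `HA.AnAt.fin` : an analytic set has locally finitely many equations;
* `HA.an_iInter`, `an_iInter` : arbitrary intersections of analytic sets are analytic.
-/

set_option autoImplicit false
set_option linter.unusedSectionVars false

open Set Filter Topology Module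

namespace Crest.Agent.X261.Ans

variable {E F : Type} [NormedAddCommGroup E] [NormedSpace ℂ E] [FiniteDimensional ℂ E]
  [NormedAddCommGroup F] [NormedSpace ℂ F] [FiniteDimensional ℂ F]
  {M : Type} [TopologicalSpace M] {A : HA E M}

namespace HA

theorem stat_aux {ι : Type*} {Z : ι → Set M} {U : Set M} (hU : IsOpen U) {x : M} (hx : x ∈ U)
    (hZ : ∀ i, A.An U (Z i)) (k : ℕ) : ∀ Y : Set M, A.An U Y → A.Cov k (U ∩ Y) →
      ∃ J : Finset ι, ∀ᶠ y in 𝓝 x, y ∈ Y → (∀ i ∈ J, y ∈ Z i) → ∀ i, y ∈ Z i := by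
  classical
  induction k with
  | zero =>
    intro Y _ h
    refine ⟨∅, (hU.eventually_mem hx).mono fun y hy hyY => ?_⟩
    exact absurd (cov_zero.1 h ▸ (⟨hy, hyY⟩ : y ∈ U ∩ Y)) (notMem_empty y)
  | succ k ih =>
    intro Y hY h
    have key : ∀ C, A.Comp U Y C →
        ∃ J : Finset ι, ∀ᶠ y in 𝓝 x, y ∈ C → (∀ i ∈ J, y ∈ Z i) → ∀ i, y ∈ Z i := by
      intro C hC
      obtain ⟨hCY, d, hd⟩ := hC.irr hU hY
      by_cases h1 : ∀ i, U ∩ C ⊆ Z i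
      · exact ⟨∅, (hU.eventually_mem hx).mono fun y hy hyC _ i => h1 i ⟨hy, hyC⟩⟩
      · obtain ⟨i, hi⟩ := not_forall.1 h1
        have hdk : d ≤ k := by
          by_contra h2
          exact hd.not_cov' hU ((h.mono (not_le.1 h2)).sub fun y hy => ⟨hy.1, hCY hy.2⟩)
        obtain ⟨J, hJ⟩ := ih (C ∩ Z i) (hd.1.inter (hZ i))
          ((((hd.drop hU (hZ i)).resolve_left hi).mono hdk).sub (inter_assoc _ _ _).ge)
        exact ⟨insert i J, hJ.mono fun y hy hyC h2 => hy ⟨hyC, h2 i (Finset.mem_insert_self _ _)⟩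
          fun j hj => h2 j (Finset.mem_insert_of_mem hj)⟩
    choose! J hJ using key
    obtain ⟨N, hN, hf⟩ := comp_lf hU hY hx
    refine ⟨hf.toFinset.biUnion J, ?_⟩
    filter_upwards [(eventually_all_finite hf).2 fun C hC => hJ C hC.1, hN, hU.mem_nhds hx]
      with y h1 h2 h3 h4 h5
    obtain ⟨C, hC, h6⟩ := comp_cover hU hY h3 h4
    have h7 : C ∈ {Y' | A.Comp U Y Y' ∧ (Y' ∩ N).Nonempty} := ⟨hC, y, h6, h2⟩
    exact h1 C h7 h6 fun i hi => h5 i (Finset.mem_biUnion.2 ⟨C, hf.mem_toFinset.2 h7, hi⟩)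

/-- any family of analytic sets is locally a finite intersection -/
theorem stat {ι : Type*} {Z : ι → Set M} {W : Set M} {x : M} (hW : W ∈ 𝓝 x)
    (hZ : ∀ i, A.An W (Z i)) :
    ∃ J : Finset ι, ∀ᶠ y in 𝓝 x, (∀ i ∈ J, y ∈ Z i) → ∀ i, y ∈ Z i := by
  obtain ⟨J, hJ⟩ := stat_aux isOpen_interior (mem_interior_iff_mem_nhds.2 hW)
    (fun i => (hZ i).mono interior_subset) _ univ (fun y _ => A.anAt_univ y) (A.cov_top _)
  exact ⟨J, hJ.mono fun y hy => hy (mem_univ y)⟩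

theorem anAt_iInter {ι : Sort*} {Z : ι → Set M} {W : Set M} {x : M} (hW : W ∈ 𝓝 x)
    (hZ : ∀ i, A.An W (Z i)) : A.AnAt (⋂ i, Z i) x := by
  obtain ⟨J, hJ⟩ := stat (Z := fun i : PLift ι => Z i.down) hW fun i => hZ i.down
  refine (anAt_biInter J.finite_toSet fun i _ => hZ i.down x (mem_of_mem_nhds hW)).congr
    (hJ.mono fun y hy => ?_)
  simp only [mem_iInter]
  exact ⟨fun h i => hy h ⟨i⟩, fun h i _ => h i.down⟩

/-- arbitrary intersections of analytic sets are analytic -/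
theorem an_iInter {ι : Sort*} {Z : ι → Set M} {U : Set M} (hU : IsOpen U)
    (hZ : ∀ i, A.An U (Z i)) : A.An U (⋂ i, Z i) := fun _ hx => anAt_iInter (hU.mem_nhds hx) hZ

theorem an_biInter {α : Type*} {t : Set α} {Z : α → Set M} {U : Set M} (hU : IsOpen U)
    (hZ : ∀ i ∈ t, A.An U (Z i)) : A.An U (⋂ i ∈ t, Z i) :=
  an_iInter hU fun i => an_iInter hU fun hi => hZ i hi

theorem an_sInter {t : Set (Set M)} {U : Set M} (hU : IsOpen U) (hZ : ∀ Z ∈ t, A.An U Z) :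
    A.An U (⋂₀ t) := by
  rw [sInter_eq_biInter]
  exact an_biInter hU hZ

theorem an_forall {ι : Sort*} {P : ι → M → Prop} {U : Set M} (hU : IsOpen U)
    (hZ : ∀ i, A.An U {y | P i y}) : A.An U {y | ∀ i, P i y} := by
  rw [ofPred_forall]
  exact an_iInter hU hZ

/-- on a compact set, finitely many members of the family suffice -/
theorem stat_compact {ι : Type*} {Z : ι → Set M} {U K : Set M} (hU : IsOpen U) (hK : IsCompact K)
    (hKU : K ⊆ U) (hZ : ∀ i, A.An U (Z i)) :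
    ∃ J : Finset ι, ∀ᶠ y in 𝓝ˢ K, (∀ i ∈ J, y ∈ Z i) → ∀ i, y ∈ Z i := by
  classical
  choose! J hJ using fun x (hx : x ∈ U) => stat (hU.mem_nhds hx) hZ
  obtain ⟨t, h1, h2⟩ := hK.elim_nhds_subcover_nhdsSet
    (U := fun x => {y | (∀ i ∈ J x, y ∈ Z i) → ∀ i, y ∈ Z i}) fun x hx => hJ x (hKU hx)
  refine ⟨t.biUnion J, mem_of_superset h2 fun y hy h3 => ?_⟩
  obtain ⟨x, hx, h4⟩ := mem_iUnion₂.1 hy
  exact h4 fun i hi => h3 i (Finset.mem_biUnion.2 ⟨x, hx, hi⟩)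

/-- a decreasing sequence of analytic sets is stationary near every compact set -/
theorem stat_anti {Z : ℕ → Set M} {U K : Set M} (hU : IsOpen U) (hK : IsCompact K)
    (hKU : K ⊆ U) (hZ : ∀ i, A.An U (Z i)) (ha : Antitone Z) :
    ∃ k, ∀ᶠ y in 𝓝ˢ K, y ∈ Z k → ∀ i, y ∈ Z i := by
  obtain ⟨J, hJ⟩ := stat_compact hU hK hKU hZ
  exact ⟨J.sup id, hJ.mono fun y hy h => hy fun i hi => ha (Finset.le_sup (f := id) hi) h⟩

end HA

theorem stat {ι : Type} {Z : ι → Set E} {W : Set E} {x : E} (hW : W ∈ 𝓝 x)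
    (hZ : ∀ i, An W (Z i)) :
    ∃ J : Finset ι, ∀ᶠ y in 𝓝 x, (∀ i ∈ J, y ∈ Z i) → ∀ i, y ∈ Z i :=
  HA.stat (A := HA.self E) hW fun i => HA.self_an.2 (hZ i)

theorem an_iInter {ι : Sort*} {Z : ι → Set E} {U : Set E} (hU : IsOpen U)
    (hZ : ∀ i, An U (Z i)) : An U (⋂ i, Z i) :=
  HA.self_an.1 (HA.an_iInter hU fun i => HA.self_an.2 (hZ i))

/-- finitely many of the functions vanishing on `Z` define `Z` near `x` -/
theorem Cut.fin {W Z : Set E} (h : Cut W Z) {x : E} (hW : W ∈ 𝓝 x) :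
    ∃ (m : ℕ) (f : Fin m → E → ℂ), (∀ j, Van W Z (f j)) ∧
      ∀ᶠ y in 𝓝 x, y ∈ Z ↔ ∀ j, f j y = 0 := by
  obtain ⟨J, hJ⟩ := stat (ι := {f : E → ℂ // Van W Z f}) (Z := fun f => {y | f.1 y = 0})
    (interior_mem_nhds.2 hW) fun f => ((cut_zero f.2.1).mono interior_subset).an isOpen_interior
  refine ⟨J.card, fun j => (J.equivFin.symm j).1.1, fun j => (J.equivFin.symm j).1.2, ?_⟩
  filter_upwards [hJ, hW] with y h1 h2
  refine ⟨fun hy j => (J.equivFin.symm j).1.2.2 y h2 hy, fun hy => by_contra fun h3 => ?_⟩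
  obtain ⟨f, hf, h4⟩ := h y h2 h3
  refine h4 (h1 (fun g hg => ?_) ⟨f, hf⟩)
  simpa using hy (J.equivFin ⟨g, hg⟩)

theorem AnAt.fin' {Z : Set E} {x : E} (hZ : AnAt Z x) : ∃ (m : ℕ) (f : Fin m → E → ℂ),
    (∀ j, AnalyticAt ℂ (f j) x) ∧ ∀ᶠ y in 𝓝 x, (y ∈ Z ↔ ∀ j, f j y = 0) := by
  obtain ⟨W, hW, hx, h⟩ := hZ
  obtain ⟨m, f, h1, h2⟩ := h.fin (hW.mem_nhds hx)
  exact ⟨m, f, fun j => (h1 j).1 x hx, h2⟩

theorem AnAt.fin {Z : Set E} {x : E} (hZ : AnAt Z x) : ∃ (m : ℕ) (f : E → Fin m → ℂ),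
    AnalyticAt ℂ f x ∧ ∀ᶠ y in 𝓝 x, y ∈ Z ↔ f y = 0 := by
  obtain ⟨m, f, h1, h2⟩ := hZ.fin'
  exact ⟨m, fun y j => f j y, AnalyticAt.pi h1, h2.mono fun y hy => hy.trans funext_iff.symm⟩

theorem HA.AnAt.fin {Z : Set M} {x : M} (hZ : A.AnAt Z x) : ∃ (m : ℕ) (f : M → Fin m → ℂ),
    A.Hol (HA.self (Fin m → ℂ)) f x ∧ ∀ᶠ y in 𝓝 x, y ∈ Z ↔ f y = 0 := by
  obtain ⟨i, hi, h⟩ := hZ
  obtain ⟨m, f, h1, h2⟩ := h.fin
  refine ⟨m, fun y => f (A.e i y), (HA.hol_chart hi).an_comp h1, ?_⟩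
  filter_upwards [(HA.ev_chart' hi).1 h2, HA.ev_source hi] with y h3 h4
  rwa [mem_preimage, (A.e i).left_inv h4] at h3

end Crest.Agent.X261.Ans
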