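import Crest.Agent.X261.Ans.Man3
import Crest.Agent.X261.Ans.Stat

/-!
# X261/Ans/Man4 (helper72): `AnM` is `An univ`; maximality of tubes in the `HA` language
-/

set_option autoImplicit false
set_option linter.unusedSectionVars false

open Set Filter Topology Module

namespace Crest.Agent.X261.Ans.Brg

open Crest.Agent.R275.Geo
open Crest.Agent.X261.Top (AnM Tube)

variable {n : ℕ} {M : Type} [TopologicalSpace M] {A : Atl n M}

theorem finEq (E : Type) [NormedAddCommGroup E] [NormedSpace ℂ E] [FiniteDimensional ℂ E] :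
    FinEq E := fun _ _ h => h.fin'

theorem anM_iff {Z : Set M} : AnM A Z ↔ (HA.of A).An univ Z :=
  ⟨an_of_anM, anM_of_an (finEq _)⟩

/-- a compact set which is analytic at its points -/
theorem anM_of_compact [T2Space M] {Z : Set M} (hK : IsCompact Z)
    (h : ∀ x ∈ Z, (HA.of A).AnAt Z x) : AnM A Z :=
  anM_iff.2 (HA.an_of_closed (fun _ _ hx => hK.isClosed.closure_subset hx) fun x _ hx => h x hx)

variable {G : Type} [Group G] [MulAction G M] {p : ℕ} (𝒯 : Tube A G p)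

theorem tube_max {x : M} (hx : x ∈ 𝒯.M0) (hb : x ∉ 𝒯.Bad) {Z : Set M} (hK : IsCompact Z)
    (hc : IsPreconnected Z) (hZ : (HA.of A).An univ Z) (hxZ : x ∈ Z) : Z ⊆ 𝒯.W x :=
  𝒯.max x hx hb Z hK hc (anM_iff.2 hZ) hxZ

theorem tube_max_irr {x : M} (hx : x ∈ 𝒯.M0) (hb : x ∉ 𝒯.Bad) {Z : Set M} (hK : IsCompact Z)
    {d : ℕ} (hZ : (HA.of A).Irr univ Z d) (hxZ : x ∈ Z) : Z ⊆ 𝒯.W x :=
  tube_max 𝒯 hx hb hK (by simpa using hZ.preconnected) hZ.1 hxZ

end Crest.Agent.X261.Ans.Brg
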