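import Crest.Agent.X261.Ans.Cov
import Crest.Agent.X261.Ans.Cut

/-!
# X261/Ans/ShA (helper97): points where a set is a graph over a linear projection (`Good`),
generic projections, sheets, and the extension of a branched cover over a thin closed set.
-/

set_option autoImplicit false
set_option linter.unusedSectionVars false

open Set Filter Topology Module Metric
open Crest.Agent.R281.Thn_280

namespace Crest.Agent.X261.Ans.Sh

variable {E V : Type} [NormedAddCommGroup E] [NormedSpace ℂ E] [FiniteDimensional ℂ E]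
  [NormedAddCommGroup V] [NormedSpace ℂ V] [FiniteDimensional ℂ V]

/-- near `y`, the set `A` is the image of a holomorphic section of `l` -/
def Good (A : Set E) (l : E →L[ℂ] V) (y : E) : Prop :=
  y ∈ A ∧ ∃ σ : V → E, AnalyticAt ℂ σ (l y) ∧ (∀ᶠ t in 𝓝 (l y), σ t ∈ A ∧ l (σ t) = t) ∧
    ∀ᶠ z in 𝓝 y, z ∈ A → σ (l z) = z

theorem Good.eventually {A : Set E} {l : E →L[ℂ] V} {y : E} (h : Good A l y) :
    ∀ᶠ z in 𝓝 y, z ∈ A → Good A l z := by
  have : CompleteSpace E := FiniteDimensional.complete ℂ E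
  obtain ⟨-, σ, h1, h2, h3⟩ := h
  have hc : ContinuousAt l y := l.continuous.continuousAt
  filter_upwards [hc.eventually h1.eventually_analyticAt, hc.eventually h2.eventually_nhds,
    h3.eventually_nhds] with z a b c hz
  exact ⟨hz, σ, a, b, c⟩

theorem Good.congr {A B : Set E} {l : E →L[ℂ] V} {y : E} (h : Good A l y)
    (hAB : ∀ᶠ z in 𝓝 y, z ∈ A ↔ z ∈ B) : Good B l y := by
  obtain ⟨hy, σ, h1, h2, h3⟩ := h
  have h0 : σ (l y) = y := h3.self_of_nhds hy
  have h4 : ∀ᶠ t in 𝓝 (l y), σ t ∈ A ↔ σ t ∈ B :=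
    h1.continuousAt.eventually (p := fun z => z ∈ A ↔ z ∈ B) (by rwa [h0])
  refine ⟨hAB.self_of_nhds.1 hy, σ, h1, ?_, ?_⟩
  · filter_upwards [h2, h4] with t a b
    exact ⟨b.1 a.1, a.2⟩
  · filter_upwards [h3, hAB] with z a b hz
    exact a (b.2 hz)

theorem Good.surjective {A : Set E} {l : E →L[ℂ] V} {y : E} (h : Good A l y) :
    Function.Surjective l := by
  obtain ⟨-, σ, -, h2, -⟩ := h
  have : (LinearMap.range (l : E →ₗ[ℂ] V) : Set V) ∈ 𝓝 (l y) := by
    filter_upwards [h2] with t ht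
    exact ⟨σ t, ht.2⟩
  exact LinearMap.range_eq_top.1 (Submodule.eq_top_of_nonempty_interior' _
    ⟨l y, mem_interior_iff_mem_nhds.2 this⟩)

/-- a good point is a limit of points of `A` lying over the complement of a thin set -/
theorem Good.frequently {A : Set E} {l : E →L[ℂ] V} {y : E} (h : Good A l y) {S : Set V}
    (hS : Cov (finrank ℂ V) S) : ∃ᶠ z in 𝓝 y, z ∈ A ∧ l z ∉ S := by
  obtain ⟨hy, σ, h1, h2, h3⟩ := h
  have h0 : σ (l y) = y := h3.self_of_nhds hy
  have h4 : Tendsto σ (𝓝 (l y)) (𝓝 y) := by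
    have := h1.continuousAt.tendsto
    rwa [h0] at this
  refine h4.frequently ?_
  have h5 : ∃ᶠ t in 𝓝 (l y), t ∈ Sᶜ := mem_closure_iff_frequently.1 (hS.dense_compl _)
  refine (h5.and_eventually h2).mono fun t ht => ⟨ht.2.1, ?_⟩
  rw [ht.2.2]
  exact ht.1

theorem good_of_param {A : Set E} {l : E →L[ℂ] V} {y : E} (hy : y ∈ A) {d : ℕ}
    (hd : finrank ℂ V = d) {φ : (Fin d → ℂ) → E} {ρ : E → Fin d → ℂ}
    (hφ : AnalyticAt ℂ φ (ρ y)) (hρ : ContinuousAt ρ y)
    (h1 : ∀ᶠ t in 𝓝 (ρ y), φ t ∈ A ∧ ρ (φ t) = t) (h2 : ∀ᶠ z in 𝓝 y, z ∈ A → φ (ρ z) = z)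
    (hs : Function.Surjective (fderiv ℂ (fun t => l (φ t)) (ρ y))) : Good A l y := by
  have : CompleteSpace E := FiniteDimensional.complete ℂ E
  have : CompleteSpace V := FiniteDimensional.complete ℂ V
  have hψ : AnalyticAt ℂ (fun t => l (φ t)) (ρ y) := (l.analyticAt _).comp hφ
  have hi : Function.Injective (fderiv ℂ (fun t => l (φ t)) (ρ y)) :=
    (LinearMap.injective_iff_surjective_of_finrank_eq_finrank
      (f := (fderiv ℂ (fun t => l (φ t)) (ρ y) : (Fin d → ℂ) →ₗ[ℂ] V)) (by simp [hd])).2 hs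
  obtain ⟨e, e1, e2, e3, -, e4⟩ := R266.SCV.exists_analytic_openPartialHomeomorph hψ
    (ContinuousLinearEquiv.ofBijective (fderiv ℂ (fun t => l (φ t)) (ρ y))
      (LinearMap.ker_eq_bot.2 hi) (LinearMap.range_eq_top.2 hs))
    hψ.differentiableAt.hasFDerivAt h1
  have h0 : φ (ρ y) = y := h2.self_of_nhds hy
  have h3 : l y = e (ρ y) := by rw [e3, h0]
  have h4 : l y ∈ e.target := h3 ▸ e.map_source e1
  refine ⟨hy, fun t => φ (e.symm t), ?_, ?_, ?_⟩
  · refine AnalyticAt.comp (g := φ) (f := e.symm) ?_ (e4 _ h4)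
    rwa [h3, e.left_inv e1]
  · filter_upwards [e.open_target.mem_nhds h4] with t ht
    refine ⟨(e2 (e.map_target ht)).1, ?_⟩
    rw [← e3, e.right_inv ht]
  · filter_upwards [h2, hρ (e.open_source.mem_nhds e1)] with z a b hz
    have : l z = e (ρ z) := by rw [e3, a hz]
    rw [this, e.left_inv b, a hz]

/-- **Sard**: the bad regular points have thin image -/
theorem cov_bad {A S : Set E} {l : E →L[ℂ] V} {d : ℕ} (hd : finrank ℂ V = d)
    (hS : ∀ y ∈ S, Reg A d y) : Cov (finrank ℂ V) (l '' {y | y ∈ S ∧ ¬ Good A l y}) := by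
  have : CompleteSpace E := FiniteDimensional.complete ℂ E
  refine cov_image_of_local fun y hy => ?_
  obtain ⟨-, φ, ρ, hφ, hρ, h1, h2⟩ := hS y hy.1
  obtain ⟨O, hO, hOo, hyO⟩ := _root_.eventually_nhds_iff.1
    (hφ.eventually_analyticAt.and h1.eventually_nhds)
  refine ⟨{z | AnalyticAt ℂ ρ z ∧ ρ z ∈ O ∧ ∀ᶠ w in 𝓝 z, w ∈ A → φ (ρ w) = w},
    hρ.eventually_analyticAt.and ((hρ.continuousAt.eventually_mem (hOo.mem_nhds hyO)).and
      h2.eventually_nhds), ?_⟩
  refine (cov_iff_sth.2 (sard hOo (Φ := fun t => l (φ t))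
    fun t ht => (l.analyticAt _).comp (hO t ht).1)).sub ?_
  rintro _ ⟨z, ⟨⟨hzS, hz⟩, a, b, c⟩, rfl⟩
  have hzA : z ∈ A := (hS z hzS).1
  refine ⟨ρ z, ⟨b, fun hs => hz ?_⟩, ?_⟩
  · exact good_of_param hzA hd (hO _ b).1 a.continuousAt (hO _ b).2 c hs
  · show l (φ (ρ z)) = l z
    rw [c.self_of_nhds hzA]

/-- a generic linear map is injective on the range of an injective linear map -/
theorem cov_not_surj {d : ℕ} {J : (Fin d → ℂ) →L[ℂ] E} (hJ : Function.Injective J) :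
    Cov (finrank ℂ (E →L[ℂ] (Fin d → ℂ)))
      {l : E →L[ℂ] (Fin d → ℂ) | ¬ Function.Surjective (l.comp J)} := by
  obtain ⟨L₀, hL₀⟩ := (J : (Fin d → ℂ) →ₗ[ℂ] E).exists_leftInverse_of_injective
    (LinearMap.ker_eq_bot.2 hJ)
  set g : (E →L[ℂ] (Fin d → ℂ)) → ℂ := fun l =>
    (LinearMap.toMatrix' ((l.comp J : (Fin d → ℂ) →L[ℂ] (Fin d → ℂ)) :
      (Fin d → ℂ) →ₗ[ℂ] (Fin d → ℂ))).det with hg
  have hga : AnalyticOnNhd ℂ g univ := by
    intro l _
    simp only [hg, Matrix.det_apply', LinearMap.toMatrix'_apply]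
    refine Finset.analyticAt_fun_sum _ fun σ _ => analyticAt_const.mul ?_
    refine Finset.analyticAt_fun_prod _ fun i _ => ?_
    exact ((ContinuousLinearMap.proj (R := ℂ) (φ := fun _ : Fin d => ℂ) (σ i)).comp
      (ContinuousLinearMap.apply ℂ (Fin d → ℂ) (J (Pi.single i 1)))).analyticAt l
  have h1 : g (LinearMap.toContinuousLinearMap L₀) ≠ 0 := by
    have : (((LinearMap.toContinuousLinearMap L₀).comp J : (Fin d → ℂ) →L[ℂ] (Fin d → ℂ)) :
      (Fin d → ℂ) →ₗ[ℂ] (Fin d → ℂ)) = LinearMap.id := hL₀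
    simp only [hg, this, LinearMap.toMatrix'_id, Matrix.det_one]
    exact one_ne_zero
  refine (cov_zeros' isOpen_univ isPreconnected_univ hga (mem_univ _) h1).sub fun l hl =>
    ⟨mem_univ _, ?_⟩
  by_contra h0
  apply hl
  rw [hg] at h0
  simp only [LinearMap.det_toMatrix'] at h0
  exact (LinearMap.isUnit_iff_range_eq_top _).1 ((LinearMap.isUnit_iff_isUnit_det _).2
    (isUnit_iff_ne_zero.2 h0)) |> LinearMap.range_eq_top.1

/-- for a generic linear map the good points are dense among the regular points -/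
theorem cov_not_dense {A S : Set E} {d : ℕ} (hS : ∀ y ∈ S, Reg A d y) :
    Cov (finrank ℂ (E →L[ℂ] (Fin d → ℂ)))
      {l : E →L[ℂ] (Fin d → ℂ) | ¬ S ⊆ closure {z | Good A l z}} := by
  have : ProperSpace E := FiniteDimensional.proper ℂ E
  obtain ⟨D, hDS, hDc, hSD⟩ :=
    (TopologicalSpace.IsSeparable.of_separableSpace S).exists_countable_dense_subset
  refine (cov_biUnion hDc (S := fun y => {l : E →L[ℂ] (Fin d → ℂ) | ¬ Good A l y})
    fun y hy => ?_).sub fun l hl => ?_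
  · obtain ⟨hyA, φ, ρ, hφ, hρ, h1, h2⟩ := hS y (hDS hy)
    have h0 : φ (ρ y) = y := h2.self_of_nhds hyA
    have hJ : Function.Injective (fderiv ℂ φ (ρ y)) := by
      have h3 : HasFDerivAt (fun t => ρ (φ t)) ((fderiv ℂ ρ y).comp (fderiv ℂ φ (ρ y))) (ρ y) := by
        refine HasFDerivAt.comp (ρ y) ?_ hφ.differentiableAt.hasFDerivAt
        rw [h0]
        exact hρ.differentiableAt.hasFDerivAt
      have h4 : HasFDerivAt (fun t => ρ (φ t)) (ContinuousLinearMap.id ℂ _) (ρ y) :=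
        (hasFDerivAt_id _).congr_of_eventuallyEq (h1.mono fun t ht => ht.2)
      have h5 := h3.unique h4
      intro a b hab
      have := congrArg (fderiv ℂ ρ y) hab
      rwa [← ContinuousLinearMap.comp_apply, ← ContinuousLinearMap.comp_apply, h5] at this
    refine (cov_not_surj hJ).sub fun l hl hs => hl ?_
    refine good_of_param hyA (by simp) hφ hρ.continuousAt h1 h2 ?_
    have h6 : HasFDerivAt (fun t => l (φ t)) (l.comp (fderiv ℂ φ (ρ y))) (ρ y) :=
      l.hasFDerivAt.comp (ρ y) hφ.differentiableAt.hasFDerivAt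
    rwa [h6.fderiv]
  · by_contra hcon
    refine hl (hSD.trans (closure_mono fun y hy => ?_))
    by_contra hy'
    exact hcon (mem_iUnion₂.2 ⟨y, hy, hy'⟩)

section Sheets

variable {A K : Set E} {l : E →L[ℂ] V}

theorem finite_fib (hK : IsCompact (A ∩ K)) {t : V}
    (h : ∀ y ∈ A ∩ K, l y = t → Good A l y) : (A ∩ K ∩ l ⁻¹' {t}).Finite := by
  have hZ : IsCompact (A ∩ K ∩ l ⁻¹' {t}) :=
    hK.inter_right (isClosed_singleton.preimage l.continuous)
  obtain ⟨s, hs0, hs⟩ := hZ.elim_nhds_subcover (fun w => {z | z ∈ A → l z = l w → z = w})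
    (fun w hw => by
      obtain ⟨hw', σ, -, -, h3⟩ := h w hw.1 hw.2
      filter_upwards [h3] with z hz hzA hzw
      rw [← hz hzA, hzw, h3.self_of_nhds hw'])
  refine s.finite_toSet.subset fun z hz => ?_
  obtain ⟨w, hw, hzw⟩ := mem_iUnion₂.1 (hs hz)
  have h1 : l w = t := (hs0 w hw).2
  have h2 : l z = t := hz.2
  rw [hzw hz.1.1 (h2.trans h1.symm)]
  exact hw

/-- local sheets over a good value -/
theorem sheets (hK : IsCompact (A ∩ K)) {t₀ : V}
    (h : ∀ y ∈ A ∩ K, l y = t₀ → Good A l y ∧ K ∈ 𝓝 y) :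
    ∃ σ : E → V → E, (∀ w ∈ A ∩ K ∩ l ⁻¹' {t₀}, AnalyticAt ℂ (σ w) t₀ ∧ σ w t₀ = w) ∧
      ∀ᶠ t in 𝓝 t₀, InjOn (fun w => σ w t) (A ∩ K ∩ l ⁻¹' {t₀}) ∧
        A ∩ K ∩ l ⁻¹' {t} = (fun w => σ w t) '' (A ∩ K ∩ l ⁻¹' {t₀}) := by
  set Z := A ∩ K ∩ l ⁻¹' {t₀} with hZ
  have hfin : Z.Finite := finite_fib hK fun y hy hl => (h y hy hl).1
  have h0 : ∀ w ∈ Z, ∃ σ : V → E, AnalyticAt ℂ σ t₀ ∧ (∀ᶠ t in 𝓝 t₀, σ t ∈ A ∧ l (σ t) = t) ∧
      ∀ᶠ z in 𝓝 w, z ∈ A → σ (l z) = z := by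
    intro w hw
    obtain ⟨-, σ, h1, h2, h3⟩ := (h w hw.1 hw.2).1
    have h4 : l w = t₀ := hw.2
    rw [h4] at h1 h2
    exact ⟨σ, h1, h2, h3⟩
  choose! σ h1 h2 h3 using h0
  have h4 : ∀ w ∈ Z, σ w t₀ = w := fun w hw => by
    have := (h3 w hw).self_of_nhds hw.1.1
    rwa [show l w = t₀ from hw.2] at this
  refine ⟨σ, fun w hw => ⟨h1 w hw, h4 w hw⟩, ?_⟩
  have e1 : ∀ᶠ t in 𝓝 t₀, ∀ w ∈ Z, (σ w t ∈ A ∧ l (σ w t) = t) ∧ σ w t ∈ K := by
    refine (eventually_all_finite hfin).2 fun w hw => (h2 w hw).and ?_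
    refine (h1 w hw).continuousAt.eventually_mem ?_
    rw [h4 w hw]
    exact (h w hw.1 hw.2).2
  have e2 : ∀ᶠ t in 𝓝 t₀, ∀ w ∈ Z, ∀ w' ∈ Z, w ≠ w' → σ w t ≠ σ w' t := by
    refine (eventually_all_finite hfin).2 fun w hw => (eventually_all_finite hfin).2
      fun w' hw' => ?_
    by_cases hne : w = w'
    · exact Eventually.of_forall fun _ h => (h hne).elim
    · have h5 : σ w t₀ - σ w' t₀ ≠ 0 := by
        rw [h4 w hw, h4 w' hw']; exact sub_ne_zero.2 hne
      filter_upwards [((h1 w hw).sub (h1 w' hw')).continuousAt.eventually_ne h5] with t ht _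
      exact sub_ne_zero.1 ht
  have e3 : ∀ᶠ t in 𝓝 t₀, ∀ y ∈ A ∩ K, y ∈ A → l y = t → ∃ w ∈ Z, σ w t = y := by
    refine hK.eventually_forall_of_forall_eventually
      (P := fun t y => y ∈ A → l y = t → ∃ w ∈ Z, σ w t = y) fun y hy => ?_
    by_cases hl : l y = t₀
    · filter_upwards [continuousAt_snd.eventually (h3 y ⟨hy, hl⟩)] with p hp hpA hpl
      exact ⟨y, ⟨hy, hl⟩, hpl ▸ hp hpA⟩
    · have hc : ContinuousAt (fun p : V × E => l p.2 - p.1) (t₀, y) := by fun_prop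
      filter_upwards [hc.eventually_ne (sub_ne_zero.2 hl)] with p hp _ hpl
      exact (hp (sub_eq_zero.2 hpl)).elim
  filter_upwards [e1, e2, e3] with t a b c
  refine ⟨fun w hw w' hw' hww => by_contra fun hne => b w hw w' hw' hne hww, ?_⟩
  ext y
  constructor
  · intro hy
    exact c y hy.1 hy.1.1 hy.2
  · rintro ⟨w, hw, rfl⟩
    exact ⟨⟨(a w hw).1.1, (a w hw).2⟩, (a w hw).1.2⟩

theorem isCompact_bad (hK : IsCompact (A ∩ K)) : IsCompact {y | y ∈ A ∩ K ∧ ¬ Good A l y} := by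
  refine hK.of_isClosed_subset ?_ fun y hy => hy.1
  refine isClosed_of_closure_subset fun y hy => ?_
  have h1 : y ∈ A ∩ K := hK.isClosed.closure_subset_iff.2 (fun z hz => hz.1) hy
  refine ⟨h1, fun hg => ?_⟩
  obtain ⟨z, hz, hz'⟩ := mem_closure_iff_nhds.1 hy _ hg.eventually
  exact hz'.2 (hz hz'.1.1)

/-- **extension of a branched cover over a thin set** -/
theorem core (hK : IsCompact (A ∩ K)) {x : E} (hx : x ∈ A) (hKx : K ∈ 𝓝 x)
    (hfr : ∀ y ∈ A ∩ K, l y = l x → K ∈ 𝓝 y)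
    (hbad : Cov (finrank ℂ V) (l '' {y | y ∈ A ∩ K ∧ ¬ Good A l y}))
    (hden : ∀ᶠ y in 𝓝 x, y ∈ A → y ∈ closure {z | Good A l z}) : AnAt A x := by
  have : CompleteSpace E := FiniteDimensional.complete ℂ E
  set Bad := l '' {y | y ∈ A ∩ K ∧ ¬ Good A l y} with hBad
  have hBc : IsClosed Bad := ((isCompact_bad hK).image l.continuous).isClosed
  have hsurj : Function.Surjective l := by
    obtain ⟨z, hz⟩ := closure_nonempty_iff.1 ⟨x, hden.self_of_nhds hx⟩
    exact Good.surjective hz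
  -- the ball
  obtain ⟨δ, hδ, hδK⟩ : ∃ δ > 0, ∀ t ∈ ball (l x) δ, ∀ y ∈ A ∩ K, l y = t → K ∈ 𝓝 y := by
    refine Metric.eventually_nhds_iff_ball.1 (hK.eventually_forall_of_forall_eventually
      (P := fun t y => l y = t → K ∈ 𝓝 y) fun y hy => ?_)
    by_cases hl : l y = l x
    · filter_upwards [continuousAt_snd.eventually (eventually_mem_nhds_iff.2 (hfr y hy hl))]
        with p hp _
      exact hp
    · have hc : ContinuousAt (fun p : V × E => l p.2 - p.1) (l x, y) := by fun_prop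
      filter_upwards [hc.eventually_ne (sub_ne_zero.2 hl)] with p hp hpl
      exact (hp (sub_eq_zero.2 hpl)).elim
  set G := ball (l x) δ \ Bad with hG
  have hGo : IsOpen G := isOpen_ball.sdiff hBc
  have hGc : IsPreconnected G :=
    preconnected_diff isOpen_ball (convex_ball _ _).isPreconnected hbad hGo
  set Z : V → Set E := fun t => A ∩ K ∩ l ⁻¹' {t} with hZ
  have hgood : ∀ t ∈ G, ∀ y ∈ A ∩ K, l y = t → Good A l y ∧ K ∈ 𝓝 y := fun t ht y hy hl =>
    ⟨by_contra fun hn => ht.2 ⟨y, ⟨hy, hn⟩, hl⟩, hδK t ht.1 y hy hl⟩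
  have hfin : ∀ t ∈ G, (Z t).Finite := fun t ht =>
    finite_fib hK fun y hy hl => (hgood t ht y hy hl).1
  obtain ⟨t₁, ht₁⟩ : G.Nonempty := by
    obtain ⟨t, h1, h2⟩ := hbad.dense_compl.inter_nhds_nonempty (ball_mem_nhds (l x) hδ)
    exact ⟨t, h2, h1⟩
  set k := (Z t₁).ncard with hk
  have hcard : ∀ t ∈ G, (Z t).ncard = k := by
    intro t ht
    refine hGc.constant (f := fun t => (Z t).ncard) (fun s hs => ?_) ht ht₁
    obtain ⟨σ, -, h2⟩ := sheets hK (hgood s hs)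
    refine (continuousAt_const (y := (Z s).ncard)).continuousWithinAt.congr_of_eventuallyEq
      (nhdsWithin_le_nhds ?_) rfl
    filter_upwards [h2] with u hu
    show (A ∩ K ∩ l ⁻¹' {u}).ncard = _
    rw [hu.2, hu.1.ncard_image]
  have hen : ∀ t ∈ G, ∃ en : Fin k → E, Function.Injective en ∧ range en = Z t := by
    intro t ht
    have := (hfin t ht).to_subtype
    let e := Finite.equivFinOfCardEq (α := Z t) (n := k) (by
      rw [Nat.card_coe_set_eq]; exact hcard t ht)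
    refine ⟨fun i => e.symm i, Subtype.val_injective.comp e.symm.injective, ?_⟩
    rw [show (fun i => (e.symm i : E)) = Subtype.val ∘ e.symm from rfl, range_comp,
      e.symm.surjective.range_eq, image_univ, Subtype.range_coe]
  choose! en hen1 hen2 using hen
  have henZ : ∀ t ∈ G, ∀ i, en t i ∈ Z t := fun t ht i => hen2 t ht ▸ mem_range_self i
  -- the equations
  have hS : Cov (finrank ℂ E) {y | y ∈ l ⁻¹' ball (l x) δ ∧ l y ∈ Bad} :=
    cov_iff_sth.2 ((cov_iff_sth.1 hbad).preimage (isOpen_ball.preimage l.continuous)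
      (fun y _ => l.analyticAt y) (fun y _ => by rwa [l.fderiv]))
  have hdiff : l ⁻¹' ball (l x) δ \ {y | y ∈ l ⁻¹' ball (l x) δ ∧ l y ∈ Bad} = l ⁻¹' G := by
    ext y
    exact ⟨fun h => ⟨h.1, fun hb => h.2 ⟨h.1, hb⟩⟩, fun h => ⟨h.1, fun hb => h.2 hb.2⟩⟩
  obtain ⟨R, hR⟩ := hK.isBounded.exists_norm_le
  have heq : ∀ lam : E →L[ℂ] ℂ, ∃ g : E → ℂ, AnalyticOnNhd ℂ g (l ⁻¹' ball (l x) δ) ∧
      ∀ y, l y ∈ G → g y = ∏ i, (lam y - lam (en (l y) i)) := by
    intro lam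
    obtain ⟨g, g1, g2⟩ := hS.extend (isOpen_ball.preimage l.continuous)
      (by rw [hdiff]; exact hGo.preimage l.continuous)
      (f := fun y => ∏ i, (lam y - lam (en (l y) i))) (by
        rw [hdiff]
        intro y hy
        obtain ⟨σ, h1, h2⟩ := sheets hK (hgood _ hy)
        have ha : AnalyticAt ℂ (fun z => ∏ w ∈ (hfin _ hy).toFinset,
            (lam z - lam (σ w (l z)))) y := by
          refine Finset.analyticAt_fun_prod _ fun w hw => (lam.analyticAt _).sub ?_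
          exact (lam.analyticAt _).comp
            ((h1 w ((hfin _ hy).mem_toFinset.1 hw)).1.comp (l.analyticAt y))
        refine ha.congr ?_
        filter_upwards [l.continuous.continuousAt.eventually h2,
          (hGo.preimage l.continuous).mem_nhds hy] with z hz hzG
        rw [← finprod_mem_eq_finite_toFinset_prod,
          ← finprod_mem_image (f := fun w => lam z - lam w) hz.1, ← hz.2,
          ← finprod_eq_prod_of_fintype,
          ← finprod_mem_range (f := fun w => lam z - lam w) (hen1 _ hzG), hen2 _ hzG])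
      (fun z _ => ⟨ball z 1, ball_mem_nhds z one_pos, (‖lam‖ * (‖z‖ + 1 + R)) ^ k, fun w hw => by
        rw [hdiff] at hw
        rw [norm_prod]
        refine (Finset.prod_le_prod (g := fun _ => ‖lam‖ * (‖z‖ + 1 + R))
          (fun _ _ => norm_nonneg _) fun i _ => ?_).trans_eq
            (by rw [Finset.prod_const, Finset.card_univ, Fintype.card_fin])
        rw [← map_sub]
        refine (lam.le_opNorm _).trans (mul_le_mul_of_nonneg_left ?_ (norm_nonneg _))
        have h1 := hR _ (henZ _ hw.2 i).1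
        have h2 : ‖w‖ ≤ ‖z‖ + 1 := by
          have := norm_le_norm_add_norm_sub' w z
          have h3 := mem_ball_iff_norm.1 hw.1
          linarith
        linarith [norm_sub_le w (en (l w) i)]⟩)
    exact ⟨g, g1, fun y hy => g2 y (by rw [hdiff]; exact hy)⟩
  choose g g1 g2 using heq
  refine Cut.anAt (W := interior K ∩ l ⁻¹' ball (l x) δ ∩
    {y | y ∈ A → y ∈ closure {z | Good A l z}}) (fun y hy hyA => ?_)
    (inter_mem (inter_mem (interior_mem_nhds.2 hKx)
      (l.continuous.continuousAt (ball_mem_nhds _ hδ))) hden)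
  -- a limit of fibres
  have hne : (𝓝[l ⁻¹' G] y).NeBot := by
    rw [← mem_closure_iff_nhdsWithin_neBot, ← hdiff, mem_closure_iff_nhds]
    intro t ht
    obtain ⟨z, h1, h2⟩ := hS.dense_compl.inter_nhds_nonempty (inter_mem ht
      ((isOpen_ball.preimage l.continuous).mem_nhds hy.1.2))
    exact ⟨z, h2.1, h2.2, h1⟩
  obtain ⟨𝒰, h𝒰⟩ := Filter.exists_ultrafilter_le (𝓝[l ⁻¹' G] y)
  have hG𝒰 : ∀ᶠ z in (𝒰 : Filter E), l z ∈ G := h𝒰 self_mem_nhdsWithin
  obtain ⟨w, hw, hlim⟩ := (isCompact_univ_pi fun _ : Fin k => hK).ultrafilter_le_nhds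
    (𝒰.map fun z => en (l z)) (by
      rw [le_principal_iff, Ultrafilter.mem_coe, Ultrafilter.mem_map]
      filter_upwards [hG𝒰] with z hz i _
      exact (henZ _ hz i).1)
  obtain ⟨lam₀, hlam⟩ := Module.exists_dual_forall_apply_ne_zero (K := ℂ) (fun i => y - w i)
    fun i h0 => hyA (sub_eq_zero.1 h0 ▸ (hw i (mem_univ _)).1)
  set lam : E →L[ℂ] ℂ := LinearMap.toContinuousLinearMap lam₀
  have hy𝒰 : Tendsto id (𝒰 : Filter E) (𝓝 y) := h𝒰.trans nhdsWithin_le_nhds
  refine ⟨g lam, ⟨(g1 lam).mono fun z hz => hz.1.2, fun z hz hzA => ?_⟩, ?_⟩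
  · have hfr : ∃ᶠ u in 𝓝 z, u ∈ A ∧ l u ∉ Bad := by
      have h1 : ∃ᶠ u in 𝓝 z, u ∈ {z | Good A l z} := mem_closure_iff_frequently.1 (hz.2 hzA)
      exact fun h2 => h1 (h2.eventually_nhds.mono fun u hu hg => Good.frequently hg hbad hu)
    refine (isClosed_singleton (x := (0 : ℂ))).mem_of_frequently_of_tendsto ?_
      (g1 lam z hz.1.2).continuousAt
    refine (hfr.and_eventually ((isOpen_interior.inter
      (isOpen_ball.preimage l.continuous)).mem_nhds hz.1)).mono fun u hu => ?_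
    have huG : l u ∈ G := ⟨hu.2.2, hu.1.2⟩
    obtain ⟨i, hi⟩ : u ∈ range (en (l u)) := by
      rw [hen2 _ huG]
      exact ⟨⟨hu.1.1, interior_subset hu.2.1⟩, rfl⟩
    rw [mem_singleton_iff, g2 lam u huG]
    exact Finset.prod_eq_zero (Finset.mem_univ i) (by rw [hi, sub_self])
  · have h1 : Tendsto (g lam) (𝒰 : Filter E) (𝓝 (g lam y)) :=
      (g1 lam y hy.1.2).continuousAt.tendsto.comp hy𝒰
    have h2 : Tendsto (fun z => ∏ i, (lam z - lam (en (l z) i))) (𝒰 : Filter E)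
        (𝓝 (∏ i, (lam y - lam (w i)))) := by
      refine tendsto_finsetProd _ fun i _ => Tendsto.sub
        ((lam.continuous.tendsto y).comp hy𝒰) ((lam.continuous.tendsto _).comp ?_)
      exact ((continuous_apply i).tendsto w).comp hlim
    rw [tendsto_nhds_unique_of_eventuallyEq h1 h2 (hG𝒰.mono fun z hz => g2 lam z hz)]
    refine Finset.prod_ne_zero_iff.2 fun i _ => ?_
    rw [← map_sub]
    exact hlam i

end Sheets

end Crest.Agent.X261.Ans.Sh
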