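import Crest.Agent.X261.Ans.ShA

/-!
# X261/Ans/ShB (helper97): Remmert-Stein-Shiffman and `graph_hol`, modulo `dense_slice` / `dec`
-/

set_option autoImplicit false
set_option linter.unusedSectionVars false

open Set Filter Topology Module Metric

namespace Crest.Agent.X261.Ans.Sh

variable {E F : Type} [NormedAddCommGroup E] [NormedSpace ℂ E] [FiniteDimensional ℂ E]
  [NormedAddCommGroup F] [NormedSpace ℂ F] [FiniteDimensional ℂ F]

theorem reg_cov {A S : Set E} {d : ℕ} (hS : ∀ y ∈ S, Reg A d y) : Cov (d + 1) S := by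
  have : CompleteSpace E := FiniteDimensional.complete ℂ E
  refine cov_of_local fun y hy => ?_
  obtain ⟨-, φ, ρ, hφ, hρ, -, h2⟩ := hS y hy
  refine ⟨{z | AnalyticAt ℂ φ (ρ z) ∧ (z ∈ A → φ (ρ z) = z)},
    (hρ.continuousAt.eventually hφ.eventually_analyticAt).and h2,
    (cov_img (by simp) (isOpen_analyticAt ℂ φ) (fun t ht => ht)).sub fun z hz => ?_⟩
  exact ⟨ρ z, hz.2.1, hz.2.2 (hS z hz.1).1⟩

theorem reg_not_cov {A : Set E} {d : ℕ} {y : E} (h : Reg A d y) : ¬ Cov d A := by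
  obtain ⟨hyA, φ, ρ, hφ, hρ, h1, h2⟩ := h
  have h0 : φ (ρ y) = y := h2.self_of_nhds hyA
  have hJ : Function.Injective (fderiv ℂ φ (ρ y)) := by
    have h3 : HasFDerivAt (fun t => ρ (φ t)) ((fderiv ℂ ρ y).comp (fderiv ℂ φ (ρ y))) (ρ y) := by
      refine HasFDerivAt.comp (ρ y) ?_ hφ.differentiableAt.hasFDerivAt
      rw [h0]
      exact hρ.differentiableAt.hasFDerivAt
    have h4 : HasFDerivAt (fun t => ρ (φ t)) (ContinuousLinearMap.id ℂ _) (ρ y) :=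
      (hasFDerivAt_id _).congr_of_eventuallyEq (h1.mono fun t ht => ht.2)
    have h5 := h3.unique h4
    intro a b hab
    have := congrArg (fderiv ℂ ρ y) hab
    rwa [← ContinuousLinearMap.comp_apply, ← ContinuousLinearMap.comp_apply, h5] at this
  intro hc
  refine not_cov_of_inj hφ hJ h1 ?_
  rw [finrank_fin_fun]
  refine hc.sub ?_
  rintro _ ⟨t, ht, rfl⟩
  exact ht.1

/-- **Remmert-Stein-Shiffman**, given one linear map with a countable fibre -/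
theorem shif_at {A T U : Set E} {s : ℕ} (hU : IsOpen U) (hA : ∀ y ∈ U, y ∈ closure A → y ∈ A)
    (hT : Cov s T) (hr : ∀ y ∈ U, y ∈ A → y ∉ T → Reg A s y) (hd : U ∩ A ⊆ closure (A \ T))
    {x : E} (hxU : x ∈ U) (l₀ : E →L[ℂ] (Fin s → ℂ))
    (hl₀ : {y | y ∈ U ∩ A ∧ l₀ y = l₀ x}.Countable) : AnAt A x := by
  have : ProperSpace E := FiniteDimensional.proper ℂ E
  by_cases hx : x ∈ A
  swap
  · exact anAt_of_notMem_closure fun h => hx (hA x hxU h)
  obtain ⟨ε, hε, hεU⟩ := Metric.isOpen_iff.1 hU x hxU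
  obtain ⟨r, hr1, hr2⟩ := ((hl₀.image fun y => dist y x).dense_compl ℝ).exists_mem_open
    isOpen_Ioo (nonempty_Ioo.2 hε)
  have hKU : closedBall x r ⊆ U := (closedBall_subset_ball hr2.2).trans hεU
  have hcl : ∀ K : Set E, IsCompact K → K ⊆ U → IsCompact (A ∩ K) := fun K hK hKU =>
    hK.of_isClosed_subset (isClosed_of_closure_subset fun y hy => by
      have h1 : y ∈ K := hK.isClosed.closure_subset_iff.2 inter_subset_right hy
      exact ⟨hA y (hKU h1) (closure_mono inter_subset_left hy), h1⟩) inter_subset_right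
  have h1 : ∀ᶠ l in 𝓝 l₀, ∀ y ∈ A ∩ sphere x r, (l : E →L[ℂ] (Fin s → ℂ)) y ≠ l x := by
    refine (hcl _ (isCompact_sphere x r)
      (sphere_subset_closedBall.trans hKU)).eventually_forall_of_forall_eventually
      (P := fun (l : E →L[ℂ] (Fin s → ℂ)) y => l y ≠ l x) fun y hy => ?_
    have hc : ContinuousAt (fun p : (E →L[ℂ] (Fin s → ℂ)) × E => p.1 p.2 - p.1 x) (l₀, y) := by
      fun_prop
    have h0 : l₀ y - l₀ x ≠ 0 := fun h0 => hr1
      ⟨y, ⟨⟨hKU (sphere_subset_closedBall hy.2), hy.1⟩, sub_eq_zero.1 h0⟩, hy.2⟩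
    filter_upwards [hc.eventually_ne h0] with p hp
    exact sub_ne_zero.1 hp
  set S : Set E := {y | y ∈ U ∧ y ∈ A ∧ y ∉ T} with hS
  have hSr : ∀ y ∈ S, Reg A s y := fun y hy => hr y hy.1 hy.2.1 hy.2.2
  obtain ⟨l, hl1, hl2⟩ := (cov_not_dense hSr).dense_compl.inter_nhds_nonempty h1
  have hl3 : S ⊆ closure {z | Good A l z} := not_not.1 hl1
  refine core (l := l) (hcl _ (isCompact_closedBall x r) hKU) hx (closedBall_mem_nhds x hr2.1)
    (fun y hy hl => ?_) ?_ ?_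
  · refine mem_of_superset (isOpen_ball.mem_nhds ?_) ball_subset_closedBall
    refine lt_of_le_of_ne hy.2 fun h => hl2 y ⟨hy.1, h⟩ hl
  · have h2 : Cov (finrank ℂ (Fin s → ℂ)) (l '' T) := by
      rw [finrank_fin_fun]
      exact hT.image fun y _ => l.analyticAt y
    refine (h2.union (cov_bad (l := l) (finrank_fin_fun ℂ) hSr)).sub ?_
    rintro _ ⟨y, hy, rfl⟩
    by_cases hyT : y ∈ T
    · exact Or.inl ⟨y, hyT, rfl⟩
    · exact Or.inr ⟨y, ⟨⟨hKU hy.1.2, hy.1.1, hyT⟩, hy.2⟩, rfl⟩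
  · filter_upwards [hU.mem_nhds hxU] with y hy hyA
    refine closure_minimal hl3 isClosed_closure ?_
    have h4 : U ∩ (A \ T) ⊆ S := fun z hz => ⟨hz.1, hz.2.1, hz.2.2⟩
    exact closure_mono h4 (hU.inter_closure ⟨hy, hd ⟨hy, hyA⟩⟩)

/-- `shif` from `Cov.dense_slice` -/
theorem shif_of {A T U : Set E} {s : ℕ}
    (ds : ∀ {S : Set E}, Cov (s + 1) S → ∀ x : E,
      Dense {l : E →L[ℂ] (Fin s → ℂ) | {y | y ∈ S ∧ l y = l x}.Countable})
    (hU : IsOpen U) (hA : ∀ y ∈ U, y ∈ closure A → y ∈ A)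
    (hT : Cov s T) (hr : ∀ y ∈ U, y ∈ A → y ∉ T → Reg A s y) (hd : U ∩ A ⊆ closure (A \ T)) :
    An U A := by
  intro x hx
  have h1 : Cov (s + 1) (U ∩ A) := by
    refine ((hT.mono (Nat.le_succ s)).union (reg_cov (A := A) (S := {y | y ∈ U ∧ y ∈ A ∧ y ∉ T})
      fun y hy => hr y hy.1 hy.2.1 hy.2.2)).sub fun y hy => ?_
    by_cases hyT : y ∈ T
    · exact Or.inl hyT
    · exact Or.inr ⟨hy.1, hy.2, hyT⟩
  obtain ⟨l₀, hl₀⟩ := (ds h1 x).nonempty
  exact shif_at hU hA hT hr hd hx l₀ hl₀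

/-- a continuous map which is holomorphic off a thin set is holomorphic -/
theorem analytic_of_thin {h : E → F} {U S : Set E} (hU : IsOpen U) (hc : ContinuousOn h U)
    (hS : Cov (finrank ℂ E) S) (ha : ∀ x ∈ U, x ∉ S → AnalyticAt ℂ h x) :
    AnalyticOnNhd ℂ h U := by
  have : CompleteSpace F := FiniteDimensional.complete ℂ F
  set S' : Set E := {x | x ∈ U ∧ ¬ AnalyticAt ℂ h x} with hS'
  have h1 : Cov (finrank ℂ E) S' := hS.sub fun x hx => by_contra fun hn => hx.2 (ha x hx.1 hn)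
  have h2 : U \ S' = U ∩ {x | AnalyticAt ℂ h x} := by
    ext x
    exact ⟨fun hx => ⟨hx.1, by_contra fun hn => hx.2 ⟨hx.1, hn⟩⟩,
      fun hx => ⟨hx.1, fun hn => hn.2 hx.2⟩⟩
  have h3 : ∀ lam : F →L[ℂ] ℂ, AnalyticOnNhd ℂ (fun x => lam (h x)) U := by
    intro lam
    have hc' : ContinuousOn (fun x => lam (h x)) U := lam.continuous.comp_continuousOn hc
    obtain ⟨g, g1, g2⟩ := h1.extend hU (by rw [h2]; exact hU.inter (isOpen_analyticAt ℂ h))
      (f := fun x => lam (h x)) (by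
        rw [h2]
        exact fun x hx => (lam.analyticAt _).comp hx.2) (fun z hz =>
        ⟨{w | ‖lam (h w)‖ < ‖lam (h z)‖ + 1},
          (hc'.continuousAt (hU.mem_nhds hz)).norm.eventually_lt continuousAt_const
            (lt_add_one _), _, fun w hw => hw.1.le⟩)
    refine g1.congr hU fun z hz => ?_
    refine sub_eq_zero.1 (mem_singleton_iff.1
      ((isClosed_singleton (x := (0 : ℂ))).mem_of_frequently_of_tendsto
      (f := fun x => g x - lam (h x)) (b := 𝓝 z) ?_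
      ((g1 z hz).continuousAt.sub (hc'.continuousAt (hU.mem_nhds hz)))))
    refine ((mem_closure_iff_frequently.1 (h1.dense_compl z)).and_eventually
      (hU.mem_nhds hz)).mono fun w hw => ?_
    exact sub_eq_zero.2 (g2 w ⟨hw.2, hw.1⟩)
  let e : F ≃L[ℂ] (Fin (finrank ℂ F) → ℂ) := ContinuousLinearEquiv.ofFinrankEq (by simp)
  intro x hx
  have h4 : AnalyticAt ℂ (fun x => e (h x)) x := analyticAt_pi_iff.2 fun i =>
    h3 ((ContinuousLinearMap.proj i).comp (e : F →L[ℂ] (Fin (finrank ℂ F) → ℂ))) x hx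
  refine ((e.symm.analyticAt _).comp h4).congr (Eventually.of_forall fun y => ?_)
  exact e.symm_apply_apply _

/-- `graph_hol` when the non regular points are known to be thin -/
theorem graph_hol_of_sing {h : E → F} {U : Set E} (hU : IsOpen U) (hc : ContinuousOn h U)
    {Γ : Set (E × F)} (hΓ : ∀ x ∈ U, (x, h x) ∈ Γ ∧ ∃ N ∈ 𝓝 (x, h x),
      Cov (finrank ℂ E) {p | p ∈ Γ ∩ N ∧ ¬ Reg Γ (finrank ℂ E) p}) : AnalyticOnNhd ℂ h U := by
  set l : (E × F) →L[ℂ] E := ContinuousLinearMap.fst ℂ E F with hl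
  refine analytic_of_thin hU hc (S := {x | x ∈ U ∧ ¬ Good Γ l (x, h x)}) ?_ fun x hx hg => ?_
  · refine cov_of_local fun x hx => ?_
    obtain ⟨N, hN, h1⟩ := (hΓ x hx.1).2
    have hcx : ContinuousAt (fun y => (y, h y)) x :=
      continuousAt_id.prodMk (hc.continuousAt (hU.mem_nhds hx.1))
    refine ⟨_, hcx hN, ((h1.image fun y _ => l.analyticAt y).union
      (cov_bad (A := Γ) (S := {p | Reg Γ (finrank ℂ E) p}) (l := l) rfl fun _ hp => hp)).sub
      fun y hy => ?_⟩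
    by_cases hreg : Reg Γ (finrank ℂ E) (y, h y)
    · exact Or.inr ⟨(y, h y), ⟨hreg, hy.1.2⟩, rfl⟩
    · exact Or.inl ⟨(y, h y), ⟨⟨(hΓ y hy.1.1).1, hy.2⟩, hreg⟩, rfl⟩
  · obtain ⟨-, σ, h1, -, h3⟩ : Good Γ l (x, h x) := by_contra fun hn => hg ⟨hx, hn⟩
    have hcx : ContinuousAt (fun y => (y, h y)) x :=
      continuousAt_id.prodMk (hc.continuousAt (hU.mem_nhds hx))
    refine (analyticAt_snd.comp h1).congr ?_
    filter_upwards [hcx.eventually h3, hU.mem_nhds hx] with y hy hyU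
    exact congrArg Prod.snd (hy (hΓ y hyU).1)

/-- the statement of helper8's `dec` -/
def DecS (E : Type) [NormedAddCommGroup E] [NormedSpace ℂ E] : Prop :=
  ∀ {Z W : Set E} {x : E}, IsOpen W → x ∈ W → An W Z →
    ∃ (W₀ : Set E) (𝒞 : Set (Set E × ℕ)), IsOpen W₀ ∧ x ∈ W₀ ∧ W₀ ⊆ W ∧ 𝒞.Finite ∧
      (∀ C ∈ 𝒞, C.1 ⊆ Z ∩ W ∧ IsPreconnected C.1 ∧
        (∀ y ∈ C.1, Reg Z C.2 y ∧ ∀ᶠ z in 𝓝 y, z ∈ Z → z ∈ C.1) ∧
        x ∈ closure C.1 ∧ Cut W₀ (closure C.1) ∧ Cov C.2 ((closure C.1 ∩ W₀) \ C.1)) ∧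
      Z ∩ W₀ ⊆ ⋃ C ∈ 𝒞, closure C.1

/-- in an analytic set of dimension `≤ n` the points which are not regular of dimension `n` form
a set of dimension `< n` -/
theorem sing_thin (dec : DecS E) {Z : Set E} {x : E} (hZ : AnAt Z x) {n : ℕ}
    (hd : Cov (n + 1) Z) : ∃ N ∈ 𝓝 x, Cov n {p | p ∈ Z ∩ N ∧ ¬ Reg Z n p} := by
  obtain ⟨W₀, 𝒞, h1, h2, -, h4, h5, h6⟩ := dec (isOpen_anAt Z) hZ (fun y hy => hy)
  refine ⟨W₀, h1.mem_nhds h2, (cov_biUnion h4.countable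
    (S := fun C => {p | p ∈ closure C.1 ∩ W₀ ∧ ¬ Reg Z n p}) fun C hC => ?_).sub fun p hp => ?_⟩
  · obtain ⟨-, -, c3, c4, -, c6⟩ := h5 C hC
    obtain ⟨y, hy⟩ := closure_nonempty_iff.1 ⟨x, c4⟩
    have hle : C.2 ≤ n := by
      by_contra hlt
      exact reg_not_cov (c3 y hy).1 (hd.mono (by omega))
    rcases hle.eq_or_lt with heq | hlt
    · refine (c6.mono hle).sub fun p hp => ⟨hp.1, fun hpC => hp.2 ?_⟩
      rw [← heq]
      exact (c3 p hpC).1
    · refine ((c6.mono hle).union ((reg_cov fun p hp => (c3 p hp).1).mono hlt)).sub fun p hp => ?_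
      by_cases hpC : p ∈ C.1
      · exact Or.inr hpC
      · exact Or.inl ⟨hp.1, hpC⟩
  · obtain ⟨C, hC, hpC⟩ := mem_iUnion₂.1 (h6 hp.1)
    exact mem_iUnion₂.2 ⟨C, hC, ⟨hpC, hp.1.2⟩, hp.2⟩

theorem graph_hol_of (dec : DecS (E × F)) {h : E → F} {U : Set E} (hU : IsOpen U)
    (hc : ContinuousOn h U) {Γ : Set (E × F)} (hΓ : ∀ x ∈ U, (x, h x) ∈ Γ ∧ AnAt Γ (x, h x))
    (hd : Cov (finrank ℂ E + 1) Γ) : AnalyticOnNhd ℂ h U :=
  graph_hol_of_sing hU hc fun x hx => ⟨(hΓ x hx).1, sing_thin dec (hΓ x hx).2 hd⟩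

end Crest.Agent.X261.Ans.Sh
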